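import Mathlib
import Vale.Agent.P165.Large.Ev
import Vale.Agent.P165.Product.Susc

/-!
Finite clusters, and the opening of one further edge for each configuration of an event.
-/

namespace Vale.Agent.P165.TreeAct

open MeasureTheory Finset
open Large (Meas meas_eval perc_allOpen)
open Product (orQ orCfg bd comp edgesAt)
open scoped ENNReal

variable {W : Type} {p h : unitInterval}

/-- An event decided by finitely many coordinates is measurable for them. -/
lemma meas_of_dep {A : Set (Sym2 W → Bool)} {S : Finset (Sym2 W)} (hA : Dep A S) :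
    Meas (↑S) A := by
  classical
  have : A = ⋃ σ ∈ S.restrict '' A, ⋂ e : S, (fun ω : Sym2 W → Bool => ω e) ⁻¹' {σ e} := by
    conv_lhs => rw [hA.eq_preimage]
    ext ω
    simp only [Set.mem_preimage, Set.mem_iUnion, Set.mem_iInter, Set.mem_singleton_iff, exists_prop]
    exact ⟨fun hm => ⟨_, hm, fun e => rfl⟩, fun ⟨σ, hσ, he⟩ =>
      (funext he : S.restrict ω = σ) ▸ hσ⟩
  rw [Meas, this]
  exact (Set.toFinite _).measurableSet_biUnion fun σ _ =>
    MeasurableSet.iInter fun e => meas_eval (S := (↑S : Set (Sym2 W))) e.2 _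

/-- For every configuration in one of the events, one prescribed edge must be opened. -/
lemma open_one_le {κ : Type} [DecidableEq κ] (e : κ → Sym2 W) (I : Finset κ) :
    ∀ A : κ → Set (Sym2 W → Bool), (∀ i, MeasurableSet (A i)) →
      ENNReal.ofReal h * perc W p (⋃ i ∈ I, A i)
        ≤ ((perc W p).prod (perc W h)) (⋃ i ∈ I, A i ×ˢ allOpen {e i}) := by
  induction I using Finset.induction with
  | empty => simp
  | @insert j I hj ih =>
    intro A hA
    have h1 := ih (fun i => A i \ A j) fun i => (hA i).diff (hA j)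
    have hd : Disjoint (A j ×ˢ allOpen {e j}) (⋃ i ∈ I, (A i \ A j) ×ˢ allOpen {e i}) := by
      simp only [Set.disjoint_iUnion_right]
      exact fun i _ => Set.disjoint_left.2 fun x hx hx' => hx'.1.2 hx.1
    have hm : MeasurableSet (⋃ i ∈ I, (A i \ A j) ×ˢ allOpen {e i}) :=
      I.measurableSet_biUnion fun i _ => ((hA i).diff (hA j)).prod (measurableSet_allOpen _)
    have e1 : (⋃ i ∈ insert j I, A i) = A j ∪ ⋃ i ∈ I, (A i \ A j) := by
      ext ω
      simp only [Set.mem_iUnion, mem_insert, exists_prop, Set.mem_union, Set.mem_sdiff]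
      constructor
      · rintro ⟨i, rfl | hi, hω⟩
        · exact Or.inl hω
        · exact (em (ω ∈ A j)).imp id fun hn => ⟨i, hi, hω, hn⟩
      · rintro (hω | ⟨i, hi, hω, -⟩)
        · exact ⟨j, Or.inl rfl, hω⟩
        · exact ⟨i, Or.inr hi, hω⟩
    have hp : perc W h (allOpen {e j}) = ENNReal.ofReal h := by rw [perc_allOpen]; simp
    calc ENNReal.ofReal h * perc W p (⋃ i ∈ insert j I, A i)
        ≤ ENNReal.ofReal h * perc W p (A j)
          + ENNReal.ofReal h * perc W p (⋃ i ∈ I, (A i \ A j)) := by
          rw [e1, ← mul_add]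
          exact mul_le_mul_right (measure_union_le _ _) _
      _ ≤ ((perc W p).prod (perc W h)) (A j ×ˢ allOpen {e j})
          + ((perc W p).prod (perc W h)) (⋃ i ∈ I, (A i \ A j) ×ˢ allOpen {e i}) := by
          refine add_le_add (le_of_eq ?_) h1
          rw [Measure.prod_prod, hp, mul_comm]
      _ = _ := (measure_union hd hm).symm
      _ ≤ _ := measure_mono <| by
          intro x hx
          rcases hx with hx | hx
          · exact Set.mem_biUnion (mem_insert_self j I) hx
          · simp only [Set.mem_iUnion, exists_prop] at hx ⊢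
            obtain ⟨i, hi, hx, hx'⟩ := hx
            exact ⟨i, mem_insert_of_mem hi, hx.1, hx'⟩

/-- The graph without the edges that meet `S`. -/
def offG (H : SimpleGraph W) (S : Finset W) : SimpleGraph W where
  Adj a b := H.Adj a b ∧ a ∉ S ∧ b ∉ S
  symm := ⟨fun _ _ ⟨c, d, e⟩ => ⟨c.symm, e, d⟩⟩
  loopless := ⟨fun _ ⟨c, _⟩ => c.ne rfl⟩

variable [DecidableEq W] {H : SimpleGraph W} [H.LocallyFinite]

/-- The cluster of `x` is exactly `S`. -/
def clus (H : SimpleGraph W) [H.LocallyFinite] (x : W) (S : Finset W) :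
    Set (Sym2 W → Bool) :=
  {ω | x ∈ S ∧ comp H S x ω = S ∧ ∀ e ∈ bd H S, ω s(e.1, e.2) = false}

lemma dep_clus (x : W) (S : Finset W) : Dep (clus H x S) (edgesAt H S) := by
  rintro ω ω' hag ⟨hx, hc, hb⟩
  classical
  refine ⟨hx, ?_, fun e he => ?_⟩
  · apply subset_antisymm (filter_subset _ _)
    intro y hy
    have hy' : y ∈ comp H S x ω := hc.symm ▸ hy
    refine mem_filter.2 ⟨hy, SimpleGraph.Reachable.mono
      (G := openGraph (Product.inG H S) ω) (G' := openGraph (Product.inG H S) ω')
      (fun a b hab => ⟨hab.1, ?_⟩) (mem_filter.1 hy').2⟩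
    rw [← hag _ (Product.mem_edgesAt hab.1.2.1 hab.1.1)]
    exact hab.2
  · obtain ⟨h1, -, h3⟩ := Product.mem_bd.1 he
    rw [← hag _ (Product.mem_edgesAt h1 h3)]
    exact hb e he

lemma clus_iff {x : W} {S : Finset W} {ω : Sym2 W → Bool} (h : ω ∈ clus H x S) (y : W) :
    ω ∈ conn H x y ↔ y ∈ S := by
  obtain ⟨hx, hc, hb⟩ := h
  classical
  constructor
  · rintro ⟨q⟩
    induction q with
    | nil => exact hx
    | @cons a b c hab q ih =>
      refine ih ?_ ?_
      · by_contra hbS
        exact absurd hab.2 (by simp [hb (a, b) (Product.mem_bd.2 ⟨hx, hbS, hab.1⟩)])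
      · exact subset_antisymm (filter_subset _ _) fun z hz => by
          have hb' : b ∈ comp H S a ω := by
            rw [hc]
            by_contra hbS
            exact absurd hab.2 (by simp [hb (a, b) (Product.mem_bd.2 ⟨hx, hbS, hab.1⟩)])
          have hz' : z ∈ comp H S a ω := hc.symm ▸ hz
          exact mem_filter.2 ⟨hz, SimpleGraph.Reachable.trans
            (SimpleGraph.Reachable.symm (mem_filter.1 hb').2) (mem_filter.1 hz').2⟩
  · intro hy
    have hy' : y ∈ comp H S x ω := hc.symm ▸ hy
    exact Product.connIn_subset_conn S x y (mem_filter.1 hy').2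

lemma clus_disjoint {x : W} {S S' : Finset W} (hne : S ≠ S') :
    Disjoint (clus H x S) (clus H x S') :=
  Set.disjoint_left.2 fun _ h h' => hne (Finset.ext fun y =>
    (clus_iff h y).symm.trans (clus_iff h' y))

lemma mem_clus {x : W} {ω : Sym2 W → Bool}
    (hfin : {y | (openGraph H ω).Reachable x y}.Finite) : ω ∈ clus H x hfin.toFinset := by
  classical
  have hx : x ∈ hfin.toFinset := hfin.mem_toFinset.2 (SimpleGraph.Reachable.refl _)
  refine ⟨hx, ?_, fun e he => ?_⟩
  · refine subset_antisymm (filter_subset _ _) fun y hy => mem_filter.2 ⟨hy, ?_⟩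
    obtain ⟨q⟩ := hfin.mem_toFinset.1 hy
    exact Product.connIn_of_walk q fun z hz =>
      hfin.mem_toFinset.2 (q.takeUntil z hz).reachable
  · obtain ⟨h1, h2, h3⟩ := Product.mem_bd.1 he
    by_contra hne
    exact h2 (hfin.mem_toFinset.2 ((hfin.mem_toFinset.1 h1).trans
      (SimpleGraph.Adj.reachable (G := openGraph H ω) ⟨h3, by simpa using hne⟩)))

lemma perc_conn_eq_tsum [Countable W] {x : W} (hinf : perc W p (toInf H x) = 0) (y : W) :
    perc W p (conn H x y) = ∑' S : Finset W, if y ∈ S then perc W p (clus H x S) else 0 := by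
  have hm : ∀ S : Finset W, MeasurableSet (clus H x S) := fun S => (dep_clus x S).measurableSet
  have hu : perc W p (⋃ S : Finset W, if y ∈ S then clus H x S else ∅)
      = ∑' S : Finset W, if y ∈ S then perc W p (clus H x S) else 0 := by
    rw [measure_iUnion (fun S S' hne => ?_) fun S => ?_]
    · exact tsum_congr fun S => by split <;> simp
    · simp only [Function.onFun]
      split <;> [split; skip] <;> first | exact clus_disjoint hne | simp
    · split <;> [exact hm S; exact MeasurableSet.empty]
  rw [← hu]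
  refine le_antisymm ?_ (measure_mono ?_)
  · refine le_trans (measure_mono (t := (⋃ S : Finset W, if y ∈ S then clus H x S else ∅)
      ∪ toInf H x) fun ω hω => ?_) (le_trans (measure_union_le _ _) (by rw [hinf, add_zero]))
    rcases Set.finite_or_infinite {z | (openGraph H ω).Reachable x z} with hf | hf
    · refine Or.inl (Set.mem_iUnion.2 ⟨hf.toFinset, ?_⟩)
      rw [if_pos (hf.mem_toFinset.2 hω)]
      exact mem_clus hf
    · exact Or.inr hf
  · intro ω hω
    obtain ⟨S, hS⟩ := Set.mem_iUnion.1 hω
    split at hS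
    · next hy => exact (clus_iff hS y).2 hy
    · exact hS.elim

end Vale.Agent.P165.TreeAct
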