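import Mathlib
import Vale.Agent.P165.Basic

/-!
Percolation on a graph with a cofinite unimodular group action over an action on a tree:
half-trees, the standing data, and the quantities of the main estimate.
-/

namespace Vale.Agent.P165.TreeAct

open MeasureTheory

/-- The vertices of a graph which are nearer to `b` than to `a`. -/
def sideOf {τ : Type} (T : SimpleGraph τ) (a b : τ) : Set τ := {x | T.dist x b < T.dist x a}

/-- An oriented edge of a tree. -/
@[ext] structure Half {τ : Type} (T : SimpleGraph τ) where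
  fst : τ
  snd : τ
  adj : T.Adj fst snd

/-- The half-tree at the head of an oriented edge. -/
def Half.side {τ : Type} {T : SimpleGraph τ} (h : Half T) : Set τ := sideOf T h.fst h.snd

/-- The same edge with the opposite orientation. -/
def Half.op {τ : Type} {T : SimpleGraph τ} (h : Half T) : Half T := ⟨h.snd, h.fst, h.adj.symm⟩

/-- A graph with a unimodular cofinite group action, over an action on a tree with one orbit of
edges and with three elements showing that the action on the tree is branched. -/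
structure Frame (V τ Γ : Type) [Group Γ] [MulAction Γ V] [MulAction Γ τ] where
  H : SimpleGraph V
  locFin : H.LocallyFinite
  connected : H.Connected
  hadj : ∀ (g : Γ) (u v : V), H.Adj u v → H.Adj (g • u) (g • v)
  T : SimpleGraph τ
  tree : T.IsTree
  tadj : ∀ (g : Γ) (x y : τ), T.Adj x y → T.Adj (g • x) (g • y)
  pr : V → τ
  equiv : ∀ (g : Γ) (v : V), pr (g • v) = g • pr v
  O : Finset V
  hO : ∀ v, ∃ o ∈ O, ∃ g : Γ, g • o = v
  unim : ∀ (g : Γ) (v : V), (MulAction.orbit (MulAction.stabilizer Γ v) (g • v)).ncard =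
    (MulAction.orbit (MulAction.stabilizer Γ (g • v)) v).ncard
  e₀ : Half T
  trans : ∀ h : Half T, ∃ g : Γ, (g • e₀.fst = h.fst ∧ g • e₀.snd = h.snd) ∨
    (g • e₀.fst = h.snd ∧ g • e₀.snd = h.fst)
  γ₁ : Γ
  γ₂ : Γ
  ψ : Γ
  hγ₁ : (fun x : τ => γ₁ • x) '' e₀.side ⊂ e₀.side
  hγ₂ : (fun x : τ => γ₂ • x) '' e₀.side ⊂ e₀.side
  hγ : Disjoint ((fun x : τ => γ₁ • x) '' e₀.side) ((fun x : τ => γ₂ • x) '' e₀.side)
  hψ : (fun x : τ => ψ • x) '' e₀.sideᶜ ⊂ e₀.side

variable {V τ Γ : Type} [Group Γ] [MulAction Γ V] [MulAction Γ τ] (f : Frame V τ Γ)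

instance Frame.instLocallyFinite : f.H.LocallyFinite := f.locFin

/-- Translation of an oriented edge. -/
def Frame.sm (g : Γ) (h : Half f.T) : Half f.T := ⟨g • h.fst, g • h.snd, f.tadj g _ _ h.adj⟩

/-- The height of a vertex towards a point of the tree. -/
noncomputable def Frame.ht (P : τ) (v : V) : ℤ := -(f.T.dist (f.pr v) P : ℤ)

/-- The outer boundary of a set of vertices. -/
def outer {W : Type} (H : SimpleGraph W) (S : Set W) : Set W := {b | b ∉ S ∧ ∃ a ∈ S, H.Adj a b}

/-- The susceptibility is at most `X`. -/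
def SuscLe {W : Type} (H : SimpleGraph W) (q : unitInterval) (X : ℝ) : Prop :=
  ∀ (x : W) (U : Finset W), ∑ y ∈ U, (perc W q).real (conn H x y) ≤ X

/-- The susceptibility tilted by each of the height functions is at most `M`. -/
def TiltLe {W P : Type} (H : SimpleGraph W) (ht : P → W → ℤ) (q : unitInterval) (t M : ℝ) : Prop :=
  ∀ (c : P) (x : W) (U : Finset W),
    ∑ y ∈ U, (perc W q).real (conn H x y) * t ^ (ht c y - ht c x) ≤ M

/-- The main estimate: below the critical point the tilted susceptibility is at most a small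
power of the susceptibility. -/
def TiltBound {W P : Type} (H : SimpleGraph W) (ht : P → W → ℤ) : Prop :=
  ∃ C : ℝ, 0 ≤ C ∧ ∀ q : unitInterval, pc H / 2 ≤ q → (q : ℝ) < pc H →
    ∃ t : ℝ, 1 < t ∧ t ≤ 2 ∧ ∀ X : ℝ, 1 ≤ X → SuscLe H q X →
      TiltLe H ht q t (C * X ^ (1 / 4 : ℝ))

end Vale.Agent.P165.TreeAct
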