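import Mathlib
import Vale.Agent.P165.Product.Susc
import Vale.Agent.P165.Sus.Events

/-!
Percolation on a connected locally finite graph with finitely many orbits of vertices: bounded
degree, positive critical point, bounded susceptibility below it.
-/

namespace Vale.Agent.P165.TreeAct

open MeasureTheory Finset
open scoped ENNReal

variable {V : Type} {H : SimpleGraph V} [H.LocallyFinite]

/-- An automorphism keeps the probability of a connection. -/
lemma perc_conn_map (q : unitInterval) (φ : H ≃g H) (x y : V) :
    perc V q (conn H (φ x) (φ y)) = perc V q (conn H x y) := by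
  conv_rhs => rw [← perc_map (p := q) φ.toEquiv]
  rw [Measure.map_apply (measurable_pi_lambda _ fun e => measurable_pi_apply _)
    (measurableSet_conn x y)]
  congr 1
  ext ω
  exact (openGraph_map_iso φ ω x y).symm

omit [H.LocallyFinite] in
lemma perc_conn_comm (q : unitInterval) (x y : V) :
    perc V q (conn H x y) = perc V q (conn H y x) := by
  congr 1
  ext ω
  exact SimpleGraph.reachable_comm

/-- The two-point function increases with the parameter. -/
lemma perc_conn_mono {q q' : unitInterval} (hq : (q : ℝ) ≤ q') (x y : V) :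
    perc V q (conn H x y) ≤ perc V q' (conn H x y) := by
  rw [← ENNReal.ofReal_toReal (measure_ne_top (perc V q) (conn H x y)),
    ← ENNReal.ofReal_toReal (measure_ne_top (perc V q') (conn H x y))]
  exact ENNReal.ofReal_le_ofReal (Product.real_mono (measurableSet_conn x y)
    (fun ω η hle h => SimpleGraph.Reachable.mono
      (show openGraph H ω ≤ openGraph H η from fun _ _ ha => ⟨ha.1, hle _ ha.2⟩) h) hq)

/-- The degrees are bounded when there are finitely many orbits. -/
lemma exists_degree (horb : ∃ O : Finset V, ∀ v, ∃ φ : H ≃g H, φ v ∈ O) :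
    ∃ D : ℕ, 1 ≤ D ∧ ∀ v, (H.neighborFinset v).card ≤ D := by
  obtain ⟨O, hO⟩ := horb
  refine ⟨1 + ∑ o ∈ O, (H.neighborFinset o).card, Nat.le_add_right 1 _, fun v => ?_⟩
  obtain ⟨φ, hφ⟩ := hO v
  have h : (H.neighborFinset v).card = (H.neighborFinset (φ v)).card := by
    simp only [SimpleGraph.card_neighborFinset_eq_degree, SimpleGraph.Iso.degree_eq]
  rw [h]
  exact le_add_left (single_le_sum (f := fun o => (H.neighborFinset o).card)
    (fun _ _ => Nat.zero_le _) hφ)

omit [H.LocallyFinite] in
/-- A finite expected cluster size forbids infinite clusters. -/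
lemma toInf_null [Countable V] {q : unitInterval} {x : V}
    (hfin : ∑' y, perc V q (conn H x y) ≠ ⊤) : perc V q (toInf H x) = 0 := by
  refine le_antisymm ?_ zero_le
  refine ge_of_tendsto' (ENNReal.tendsto_tsum_compl_atTop_zero hfin) fun s => ?_
  refine le_trans (measure_mono (t := ⋃ y : {y // y ∉ s}, conn H x y) fun ω hω => ?_)
    (measure_iUnion_le _)
  obtain ⟨y, hy, hys⟩ := Set.Infinite.exists_notMem_finset hω s
  exact Set.mem_iUnion.2 ⟨⟨y, hys⟩, hy⟩

omit [H.LocallyFinite] in
/-- A bound on the finite partial sums bounds the expected cluster size. -/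
lemma tsum_conn_le {q : unitInterval} {X : ℝ} {x : V}
    (hX : ∀ U : Finset V, ∑ y ∈ U, (perc V q).real (conn H x y) ≤ X) :
    ∑' y, perc V q (conn H x y) ≤ ENNReal.ofReal X := by
  rw [ENNReal.tsum_eq_iSup_sum]
  refine iSup_le fun T => le_trans (le_of_eq ?_) (ENNReal.ofReal_le_ofReal (hX T))
  rw [ENNReal.ofReal_sum_of_nonneg fun _ _ => measureReal_nonneg]
  exact sum_congr rfl fun y _ => (ENNReal.ofReal_toReal (measure_ne_top _ _)).symm

/-- Below the critical point the susceptibility is bounded. -/
theorem susc_finite_of_cofinite (H : SimpleGraph V) [H.LocallyFinite] (hconn : H.Connected)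
    (horb : ∃ O : Finset V, ∀ v, ∃ φ : H ≃g H, φ v ∈ O) {q : unitInterval}
    (hq : (q : ℝ) < pc H) :
    ∃ X : ℝ, ∀ (x : V) (U : Finset V), ∑ y ∈ U, (perc V q).real (conn H x y) ≤ X := by
  classical
  have := countable_of_connected hconn
  exact Product.susceptibility_bound horb hq

/-- Below the critical point there is no infinite cluster. -/
lemma toInf_null_below (hconn : H.Connected)
    (horb : ∃ O : Finset V, ∀ v, ∃ φ : H ≃g H, φ v ∈ O) {q : unitInterval}
    (hq : (q : ℝ) < pc H) (x : V) : perc V q (toInf H x) = 0 := by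
  have := countable_of_connected hconn
  obtain ⟨X, hX⟩ := susc_finite_of_cofinite H hconn horb hq
  exact toInf_null (ne_top_of_le_ne_top ENNReal.ofReal_ne_top (tsum_conn_le (hX x)))

/-- The critical point is positive. -/
theorem pc_pos_of_cofinite (H : SimpleGraph V) [H.LocallyFinite] (hconn : H.Connected)
    (horb : ∃ O : Finset V, ∀ v, ∃ φ : H ≃g H, φ v ∈ O) : 0 < pc H := by
  classical
  have := countable_of_connected hconn
  obtain ⟨D, hD1, hD⟩ := exists_degree horb
  have hD0 : (0 : ℝ) < D := by exact_mod_cast hD1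
  refine lt_of_lt_of_le (show (0 : ℝ) < 1 / (2 * D) by positivity)
    (le_csInf (Set.insert_nonempty _ _) ?_)
  rintro r (rfl | ⟨p, hp, rfl⟩)
  · rw [div_le_one (by positivity)]
    have : (1 : ℝ) ≤ D := by exact_mod_cast hD1
    linarith
  by_contra hlt
  suffices hfin : ∀ x, perc V p (toInf H x) = 0 by
    refine (show 0 < perc V p _ from hp).ne' (measure_mono_null ?_ (measure_iUnion_null hfin))
    rintro ω ⟨x, hx⟩
    exact Set.mem_iUnion.2 ⟨x, hx⟩
  intro x
  have hphi : ∀ v, Product.phi H p v {v} ≤ 1 / 2 := by
    intro v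
    have hc : (Product.bd H {v}).card ≤ D := by
      refine le_trans (card_le_card_of_injOn Prod.snd (fun e he => ?_) fun e he e' he' h => ?_) (hD v)
      · obtain ⟨h1, -, h3⟩ := Product.mem_bd.1 he
        rw [mem_singleton] at h1
        simpa [h1] using h3
      · obtain ⟨h1, -, -⟩ := Product.mem_bd.1 he
        obtain ⟨h1', -, -⟩ := Product.mem_bd.1 he'
        exact Prod.ext ((mem_singleton.1 h1).trans (mem_singleton.1 h1').symm) h
    have hle : Product.phi H p v {v} ≤ (p : ℝ) * D := by
      refine mul_le_mul_of_nonneg_left ?_ p.2.1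
      refine (sum_le_card_nsmul _ _ 1 fun e _ => measureReal_le_one).trans ?_
      simp only [nsmul_eq_mul, mul_one]
      exact_mod_cast hc
    have := mul_le_mul_of_nonneg_right (not_le.1 hlt).le hD0.le
    have h2 : 1 / (2 * (D : ℝ)) * D = 1 / 2 := by field_simp
    linarith
  exact toInf_null (ne_top_of_le_ne_top ENNReal.ofReal_ne_top (tsum_conn_le
    (Product.sum_conn_le_of_phi (H := H) (p := p) (zero_le_one (α := ℝ))
      (by norm_num : (0 : ℝ) ≤ 1 / 2) (by norm_num)
      (fun v => ⟨{v}, mem_singleton_self v, by simp, hphi v⟩) x)))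

end Vale.Agent.P165.TreeAct
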