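import Mathlib
import Vale.Agent.P165.TreeAct.Susc
import Vale.Agent.P165.TreeAct.Pairs
import Vale.Agent.P165.TreeAct.Cluster
import Vale.Agent.P165.TreeAct.Defs

/-!
The clusters of the vertices of a finite set cover many vertices when the tilted susceptibility is
small against the susceptibility; sprinkling on the boundary of a finite cluster.
-/

namespace Vale.Agent.P165.TreeAct.Crit

open MeasureTheory Finset
open Large (wit joins joins_singleton joins_eq_iUnion meas_conn mem_joins Meas perc_allOpen)
open Product (orQ orCfg bd comp edgesAt)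
open scoped ENNReal

variable {V : Type} {H : SimpleGraph V} [H.LocallyFinite] {C : Type} (ht : C → V → ℤ)
  {p q h : unitInterval}

/-- The expected cluster size. -/
noncomputable def chi (H : SimpleGraph V) (q : unitInterval) (x : V) : ℝ≥0∞ :=
  ∑' y, perc V q (conn H x y)

/-- The ratio of the tilts at `y` and at `x`. -/
noncomputable def rho (t : ℝ) (P : C) (x y : V) : ℝ≥0∞ :=
  ENNReal.ofReal (t ^ (ht P y - ht P x))

lemma conn_self (x : V) : conn H x x = Set.univ :=
  Set.eq_univ_of_forall fun _ => SimpleGraph.Reachable.refl _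

lemma perc_conn_self (x : V) : perc V q (conn H x x) = 1 := by
  rw [conn_self, measure_univ]

lemma one_le_chi (x : V) : 1 ≤ chi H q x :=
  le_trans (perc_conn_self x).ge (ENNReal.le_tsum x)

lemma rho_self (t : ℝ) (P : C) (x : V) : rho ht t P x x = 1 := by simp [rho]

lemma rho_mul {t : ℝ} (ht0 : 0 < t) (P : C) (x y z : V) :
    rho ht t P x y * rho ht t P y z = rho ht t P x z := by
  rw [rho, rho, rho, ← ENNReal.ofReal_mul (zpow_nonneg ht0.le _), ← zpow_add₀ ht0.ne']
  congr 2
  ring

lemma rho_adj_le {L : ℕ} (hL : ∀ c u v, H.Adj u v → ht c v - ht c u ≤ L) {t : ℝ} (ht1 : 1 ≤ t)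
    (ht2 : t ≤ 2) (P : C) {a b : V} (hab : H.Adj a b) :
    rho ht t P a b ≤ ENNReal.ofReal (2 ^ L) := by
  refine ENNReal.ofReal_le_ofReal ?_
  calc t ^ (ht P b - ht P a) ≤ t ^ (L : ℤ) := zpow_le_zpow_right₀ ht1 (hL P a b hab)
    _ = t ^ L := zpow_natCast _ _
    _ ≤ _ := pow_le_pow_left₀ (by linarith) ht2 _

/-- The outer boundary of a finite set. -/
noncomputable def outerF [DecidableEq V] (H : SimpleGraph V) [H.LocallyFinite] (S : Finset V) :
    Finset V :=
  (S.biUnion fun v => H.neighborFinset v) \ S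

lemma mem_outerF [DecidableEq V] {S : Finset V} {b : V} :
    b ∈ outerF H S ↔ b ∉ S ∧ ∃ a ∈ S, H.Adj a b := by
  simp [outerF, and_comm]

lemma ncard_outer [DecidableEq V] (S : Finset V) :
    (outer H (S : Set V)).ncard = (outerF H S).card := by
  rw [← Set.ncard_coe_finset]
  congr 1
  ext b
  rw [Finset.mem_coe, mem_outerF]
  rfl

/-- The pointwise inequality `2 s N ≤ s ^ 2 1_{N ≠ 0} + N ^ 2` for a sum of events. -/
lemma two_mul_sum_le {Ω κ : Type} [MeasurableSpace Ω] (μ : Measure Ω) [IsFiniteMeasure μ]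
    (A : κ → Set Ω) (hA : ∀ i, MeasurableSet (A i)) (Y : Finset κ) (s : ℝ) :
    2 * s * ∑ i ∈ Y, μ.real (A i)
      ≤ s ^ 2 * μ.real (⋃ i ∈ Y, A i) + ∑ i ∈ Y, ∑ j ∈ Y, μ.real (A i ∩ A j) := by
  classical
  have hU : MeasurableSet (⋃ i ∈ Y, A i) := Y.measurableSet_biUnion fun i _ => hA i
  have hint : ∀ {E : Set Ω}, MeasurableSet E → Integrable (E.indicator fun _ => (1 : ℝ)) μ :=
    fun hE => (integrable_const (1 : ℝ)).indicator hE
  have hval : ∀ {E : Set Ω}, MeasurableSet E → ∫ ω, E.indicator (fun _ => (1 : ℝ)) ω ∂μ = μ.real E :=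
    fun hE => by rw [integral_indicator hE]; simp
  have hpt : ∀ ω, 2 * s * ∑ i ∈ Y, (A i).indicator (fun _ => (1 : ℝ)) ω
      ≤ s ^ 2 * (⋃ i ∈ Y, A i).indicator (fun _ => (1 : ℝ)) ω
        + ∑ i ∈ Y, ∑ j ∈ Y, (A i ∩ A j).indicator (fun _ => (1 : ℝ)) ω := by
    intro ω
    have hprod : ∀ i j, (A i ∩ A j).indicator (fun _ => (1 : ℝ)) ω
        = (A i).indicator (fun _ => (1 : ℝ)) ω * (A j).indicator (fun _ => (1 : ℝ)) ω := by
      intro i j
      by_cases h1 : ω ∈ A i <;> by_cases h2 : ω ∈ A j <;> simp [h1, h2]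
    simp only [hprod, ← mul_sum, ← sum_mul]
    by_cases h : ω ∈ ⋃ i ∈ Y, A i
    · rw [Set.indicator_of_mem h]
      nlinarith [sq_nonneg (s - ∑ i ∈ Y, (A i).indicator (fun _ => (1 : ℝ)) ω)]
    · rw [Set.indicator_of_notMem h, sum_eq_zero fun i hi => Set.indicator_of_notMem
        (fun hm => h (Set.mem_biUnion hi hm)) _]
      simp
  have h := integral_mono
    ((integrable_finsetSum Y fun i _ => hint (hA i)).const_mul (2 * s))
    (((hint hU).const_mul (s ^ 2)).add (integrable_finsetSum Y fun i _ =>
      integrable_finsetSum Y fun j _ => hint ((hA i).inter (hA j)))) hpt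
  simp only [Pi.add_apply] at h
  rw [integral_const_mul, integral_finsetSum Y fun i _ => hint (hA i),
    integral_add ((hint hU).const_mul _) (integrable_finsetSum Y fun i _ =>
      integrable_finsetSum Y fun j _ => hint ((hA i).inter (hA j))),
    integral_const_mul, hval hU, integral_finsetSum Y fun i _ =>
      integrable_finsetSum Y fun j _ => hint ((hA i).inter (hA j))] at h
  rw [sum_congr rfl fun i _ => hval (hA i), sum_congr rfl fun i _ =>
    (integral_finsetSum Y fun j _ => hint ((hA i).inter (hA j))).trans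
      (sum_congr rfl fun j _ => hval ((hA i).inter (hA j)))] at h
  exact h

/-- Cut a walk at its first visit to `S`. -/
lemma cut_at (S : Set V) : ∀ {a b : V} (r : H.Walk a b), a ∉ S →
    (∃ v ∈ r.support, v ∈ S) → ∃ y c, ∃ r₁ : H.Walk a y, ∃ hc : H.Adj y c,
      ∃ r₂ : H.Walk c b, c ∈ S ∧ r = r₁.append (.cons hc r₂) ∧ ∀ u ∈ r₁.support, u ∉ S := by
  intro a b r
  induction r with
  | nil =>
    rintro ha ⟨v, hv, hvS⟩
    simp only [SimpleGraph.Walk.support_nil, List.mem_singleton] at hv
    exact absurd (hv ▸ hvS) ha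
  | @cons a c b h r ih =>
    rintro ha ⟨v, hv, hvS⟩
    by_cases hc : c ∈ S
    · exact ⟨a, c, .nil, h, r, hc, rfl, by simpa using ha⟩
    · rcases List.mem_cons.1 (by simpa using hv) with rfl | hv'
      · exact absurd hvS ha
      · obtain ⟨y, c', r₁, hc', r₂, h1, h2, h3⟩ := ih hc ⟨v, hv', hvS⟩
        exact ⟨y, c', .cons h r₁, hc', r₂, h1, by rw [h2]; rfl, by simpa [ha] using h3⟩

/-- The row sums of the tilted square of the two-point function bound its quadratic form. -/
lemma schur [Countable V] {t : ℝ} {M : ℝ≥0∞} (ht0 : 0 < t) (P : C)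
    (hM : ∀ x, ∑' y, perc V q (conn H x y) * rho ht t P x y ≤ M) (A : Finset V) :
    ∑ v ∈ A, ∑ w ∈ A, ∑' u, perc V q (conn H u v) * perc V q (conn H u w) ≤ M * M * A.card := by
  set K : V → V → ℝ≥0∞ := fun v w => ∑' u, perc V q (conn H u v) * perc V q (conn H u w) with hK
  have hsymm : ∀ v w, K v w = K w v := fun v w => tsum_congr fun u => mul_comm _ _
  have hrow : ∀ v, ∑ w ∈ A, K v w * rho ht t P v w ≤ M * M := by
    intro v
    calc ∑ w ∈ A, K v w * rho ht t P v w
        ≤ ∑' w, K v w * rho ht t P v w := ENNReal.sum_le_tsum A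
      _ = ∑' u, ∑' w, (perc V q (conn H v u) * rho ht t P v u)
            * (perc V q (conn H u w) * rho ht t P u w) := by
          rw [ENNReal.tsum_comm]
          refine tsum_congr fun w => ?_
          rw [hK, ← ENNReal.tsum_mul_right]
          refine tsum_congr fun u => ?_
          rw [perc_conn_comm q v u, ← rho_mul ht ht0 P v u w]
          ring
      _ ≤ ∑' u, (perc V q (conn H v u) * rho ht t P v u) * M := by
          refine ENNReal.tsum_le_tsum fun u => ?_
          rw [ENNReal.tsum_mul_left]
          exact mul_le_mul_right (hM u) _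
      _ ≤ M * M := by
          rw [ENNReal.tsum_mul_right]
          exact mul_le_mul_left (hM v) _
  have hge : ∀ v w, 2 ≤ rho ht t P v w + rho ht t P w v := by
    intro v w
    rw [rho, rho, ← ENNReal.ofReal_add (zpow_nonneg ht0.le _) (zpow_nonneg ht0.le _),
      ← ENNReal.ofReal_ofNat 2]
    refine ENNReal.ofReal_le_ofReal ?_
    have hz : t ^ (ht P (v) - ht P (w))
        = (t ^ (ht P (w) - ht P (v)))⁻¹ := by
      rw [← zpow_neg, neg_sub]
    rw [hz]
    have hpos : 0 < t ^ (ht P (w) - ht P (v)) := zpow_pos ht0 _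
    generalize t ^ (ht P (w) - ht P (v)) = a at hpos ⊢
    have h1 : (a + a⁻¹ - 2) * a = (a - 1) ^ 2 := by field_simp; ring
    nlinarith [sq_nonneg (a - 1), mul_pos hpos hpos]
  have htwo : 2 * ∑ v ∈ A, ∑ w ∈ A, K v w
      ≤ ∑ v ∈ A, ∑ w ∈ A, K v w * rho ht t P v w + ∑ v ∈ A, ∑ w ∈ A, K v w * rho ht t P v w := by
    calc 2 * ∑ v ∈ A, ∑ w ∈ A, K v w
        ≤ ∑ v ∈ A, ∑ w ∈ A, (K v w * rho ht t P v w + K w v * rho ht t P w v) := by
          rw [mul_sum]
          refine sum_le_sum fun v _ => ?_
          rw [mul_sum]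
          refine sum_le_sum fun w _ => ?_
          rw [hsymm w v, ← mul_add, mul_comm]
          exact mul_le_mul_right (hge v w) _
      _ = _ := by
          simp only [sum_add_distrib]
          congr 1
          exact sum_comm
  rw [← two_mul] at htwo
  refine ((ENNReal.mul_le_mul_iff_right two_ne_zero ENNReal.ofNat_ne_top).1 htwo).trans ?_
  refine (sum_le_sum fun v _ => hrow v).trans (le_of_eq ?_)
  simp [mul_comm]

/-- The clusters of the vertices of a finite set cover many vertices. -/
theorem union_ge [Countable V] {t κ X M : ℝ} (ht0 : 0 < t) (P : C) (hκ : 0 < κ) (hM0 : 0 < M)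
    (hX0 : 0 ≤ X) (hlo : ∀ x, ENNReal.ofReal (κ * X) ≤ chi H q x)
    (hhi : ∀ x, chi H q x ≤ ENNReal.ofReal X)
    (hM : ∀ x, ∑' y, perc V q (conn H x y) * rho ht t P x y ≤ ENNReal.ofReal M)
    (A : Finset V) :
    ENNReal.ofReal (κ ^ 2 * X / M ^ 2) * A.card
      ≤ ∑' z, perc V q (joins H z (A : Set V)) := by
  classical
  set s : ℝ := M ^ 2 / κ with hs
  have hs0 : 0 < s := by positivity
  have hz : ∀ z, ENNReal.ofReal (2 * s) * ∑ v ∈ A, perc V q (conn H z v)
      ≤ ENNReal.ofReal (s ^ 2) * perc V q (joins H z (A : Set V))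
        + ∑ v ∈ A, ∑ w ∈ A, perc V q (conn H z v ∩ conn H z w) := by
    intro z
    have h := ENNReal.ofReal_le_ofReal (two_mul_sum_le (perc V q)
      (fun v => conn H z v) (fun v => measurableSet_conn z v) A s)
    have hc : ∀ E : Set (Sym2 V → Bool), ENNReal.ofReal ((perc V q).real E)
        = perc V q E := fun E => ENNReal.ofReal_toReal (measure_ne_top _ _)
    rw [ENNReal.ofReal_mul (mul_nonneg zero_le_two hs0.le),
      ENNReal.ofReal_sum_of_nonneg (fun _ _ => measureReal_nonneg),
      ENNReal.ofReal_add (by positivity) (sum_nonneg fun _ _ => sum_nonneg fun _ _ => measureReal_nonneg),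
      ENNReal.ofReal_mul (sq_nonneg s),
      ENNReal.ofReal_sum_of_nonneg (fun _ _ => sum_nonneg fun _ _ => measureReal_nonneg)] at h
    simp only [ENNReal.ofReal_sum_of_nonneg (fun _ _ => measureReal_nonneg), hc] at h
    rw [joins_eq_iUnion]
    simpa using h
  have hsum := ENNReal.tsum_le_tsum hz
  rw [ENNReal.tsum_mul_left, ENNReal.tsum_add, ENNReal.tsum_mul_left,
    Summable.tsum_finsetSum fun v _ => ENNReal.summable,
    Summable.tsum_finsetSum fun v _ => ENNReal.summable] at hsum
  have hlow : ENNReal.ofReal (κ * X) * A.card ≤ ∑ v ∈ A, ∑' z, perc V q (conn H z v) := by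
    refine le_trans (le_of_eq (by rw [sum_const, nsmul_eq_mul, mul_comm]))
      (sum_le_sum (f := fun _ => ENNReal.ofReal (κ * X)) fun v _ => ?_)
    refine (hlo v).trans (le_of_eq (tsum_congr fun z => perc_conn_comm q v z))
  have hupp : ∑ v ∈ A, ∑' z, ∑ w ∈ A, perc V q (conn H z v ∩ conn H z w)
      ≤ ENNReal.ofReal X * (ENNReal.ofReal M * ENNReal.ofReal M * A.card) := by
    calc ∑ v ∈ A, ∑' z, ∑ w ∈ A, perc V q (conn H z v ∩ conn H z w)
        = ∑ v ∈ A, ∑ w ∈ A, ∑' z, perc V q (conn H z v ∩ conn H z w) :=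
          sum_congr rfl fun v _ => Summable.tsum_finsetSum fun w _ => ENNReal.summable
      _ ≤ ∑ v ∈ A, ∑ w ∈ A, ENNReal.ofReal X * ∑' u, perc V q (conn H u v) * perc V q (conn H u w) := by
          refine sum_le_sum fun v _ => sum_le_sum fun w _ => ?_
          refine (ENNReal.tsum_le_tsum fun z => two_le z v w).trans ?_
          rw [ENNReal.tsum_comm, ← ENNReal.tsum_mul_left]
          refine ENNReal.tsum_le_tsum fun u => ?_
          rw [ENNReal.tsum_mul_right, ENNReal.tsum_mul_right, mul_assoc]
          refine mul_le_mul_left (le_trans (le_of_eq ?_) (hhi u)) _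
          exact tsum_congr fun z => perc_conn_comm q z u
      _ ≤ _ := by
          simp only [← mul_sum]
          exact mul_le_mul_right (schur ht ht0 P hM A) _
  have hmain : ENNReal.ofReal (2 * s * (κ * X)) * A.card
      ≤ ENNReal.ofReal (s ^ 2) * ∑' z, perc V q (joins H z (A : Set V))
        + ENNReal.ofReal (X * M ^ 2) * A.card := by
    rw [ENNReal.ofReal_mul (by positivity : 0 ≤ 2 * s), mul_assoc]
    refine (mul_le_mul_right hlow _).trans (hsum.trans (add_le_add le_rfl (hupp.trans_eq ?_)))
    rw [← ENNReal.ofReal_mul hM0.le, ← mul_assoc, ← ENNReal.ofReal_mul hX0, sq]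
  have hsplit : 2 * s * (κ * X) = X * M ^ 2 + X * M ^ 2 := by rw [hs]; field_simp; ring
  rw [hsplit, ENNReal.ofReal_add (by positivity) (by positivity), add_mul] at hmain
  have hcanc := (ENNReal.add_le_add_iff_right
    (ENNReal.mul_ne_top ENNReal.ofReal_ne_top (ENNReal.natCast_ne_top _))).1 hmain
  have hfac : κ ^ 2 * X / M ^ 2 = (1 / s ^ 2) * (X * M ^ 2) := by rw [hs]; field_simp
  rw [hfac, ENNReal.ofReal_mul (by positivity), mul_assoc]
  refine (mul_le_mul_right hcanc _).trans (le_of_eq ?_)
  rw [← mul_assoc, ← ENNReal.ofReal_mul (by positivity), one_div_mul_cancel (by positivity)]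
  simp


/-- Sprinkling on the boundary of the cluster of `x`. -/
theorem boost [DecidableEq V] [Countable V] {B : ℕ}
    (hB : ∀ S : Finset V, S.card ≤ B * (outerF H S).card)
    {K : ℝ} {x : V} (hinf : perc V p (toInf H x) = 0)
    (hK : ∀ A : Finset V, ENNReal.ofReal K * A.card
      ≤ ∑' z, perc V p (joins H z (A : Set V))) (hB0 : 0 < B) :
    chi H p x * (1 + ENNReal.ofReal h * ENNReal.ofReal (K / B))
      ≤ chi H (orQ p h) x + ENNReal.ofReal h * chi H p x := by
  classical
  set ν := (perc V p).prod (perc V h) with hν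
  set w : Finset V → ℝ≥0∞ := fun S => perc V p (clus H x S) with hw
  set U : Finset V → V → ℝ≥0∞ := fun S z =>
    perc V p (joins H z (outerF H S : Set V)) with hU
  set c : ℝ≥0∞ := ENNReal.ofReal (K / B) with hc
  set η : ℝ≥0∞ := ENNReal.ofReal h with hη
  have hchi : chi H p x = ∑' S, w S * S.card := by
    rw [chi]
    simp only [perc_conn_eq_tsum hinf]
    rw [ENNReal.tsum_comm]
    refine tsum_congr fun S => ?_
    rw [tsum_eq_sum (s := S) fun y hy => if_neg hy, sum_congr rfl fun y hy => if_pos hy]
    simp [w, mul_comm]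
  have hpt : ∀ y, ∑' S, (if y ∈ S then w S else η * (w S * U S y))
      ≤ perc V (orQ p h) (conn H x y) := by
    intro y
    rw [← Product.map_orCfg, Measure.map_apply Product.measurable_orCfg (measurableSet_conn x y)]
    let E : Finset V → Set ((Sym2 V → Bool) × (Sym2 V → Bool)) := fun S =>
      if y ∈ S then clus H x S ×ˢ Set.univ else
        ⋃ e ∈ bd H S, (clus H x S ∩ conn (offG H S) e.2 y) ×ˢ allOpen {s(e.1, e.2)}
    have hoff : ∀ S, ∀ e : V × V, MeasurableSet (conn (offG H S) e.2 y) :=
      fun S e => (meas_conn _ _ _).measurableSet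
    have hE1 : ∀ S, E S ⊆ clus H x S ×ˢ Set.univ := by
      intro S z hz
      simp only [E] at hz
      split at hz
      · exact hz
      · simp only [Set.mem_iUnion] at hz
        obtain ⟨e, -, hz, -⟩ := hz
        exact ⟨hz.1, trivial⟩
    have hEm : ∀ S, MeasurableSet (E S) := by
      intro S
      simp only [E]
      split
      · exact (dep_clus x S).measurableSet.prod MeasurableSet.univ
      · exact Finset.measurableSet_biUnion _ fun e _ =>
          ((dep_clus x S).measurableSet.inter (hoff S e)).prod (measurableSet_allOpen _)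
    have hEs : (⋃ S, E S) ⊆ orCfg ⁻¹' conn H x y := by
      rintro ⟨ω, η'⟩ hz
      obtain ⟨S, hS⟩ := Set.mem_iUnion.1 hz
      have hup : openGraph H ω ≤ openGraph H (orCfg (ω, η')) := fun a b hab =>
        ⟨hab.1, by simp [orCfg, hab.2]⟩
      simp only [E] at hS
      split at hS
      · next hy => exact SimpleGraph.Reachable.mono hup ((clus_iff hS.1 y).2 hy)
      · simp only [Set.mem_iUnion] at hS
        obtain ⟨⟨a, b⟩, he, ⟨hcl, hcy⟩, ho⟩ := hS
        obtain ⟨ha, -, hab⟩ := Product.mem_bd.1 he
        refine (SimpleGraph.Reachable.mono hup ((clus_iff hcl a).2 ha)).trans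
          ((SimpleGraph.Adj.reachable (G := openGraph H (orCfg (ω, η')))
            ⟨hab, by have := ho _ (mem_singleton_self _); simp only at this; simp [orCfg, this]⟩).trans
          (SimpleGraph.Reachable.mono hup (Sus.conn_subset (K := offG H S) (fun _ _ h => h.1) b y hcy)))
    refine le_trans ?_ (measure_mono hEs)
    rw [measure_iUnion (fun S S' hne => (Set.disjoint_left.2 fun z hz hz' =>
      Set.disjoint_left.1 (clus_disjoint hne) (hE1 S hz).1 (hE1 S' hz').1)) hEm]
    refine ENNReal.tsum_le_tsum fun S => ?_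
    simp only [E]
    split
    · rw [Measure.prod_prod, measure_univ, mul_one]
    next hyS =>
      refine le_trans ?_ (open_one_le (fun e : V × V => s(e.1, e.2)) (bd H S) _
        fun e => (dep_clus x S).measurableSet.inter (hoff S e))
      rw [← Set.inter_iUnion₂]
      refine mul_le_mul_right ?_ _
      have hmU : Meas (offG H S).edgeSet (⋃ e ∈ bd H S, conn (offG H S) e.2 y) := by
        rw [Meas]
        exact Finset.measurableSet_biUnion _ fun e _ => meas_conn _ _ _
      rw [(meas_of_dep (dep_clus x S)).inter_eq hmU ?_]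
      · refine mul_le_mul_right (measure_mono fun ω hω => ?_) _
        obtain ⟨b, hb, hyb⟩ := mem_joins.1 hω
        obtain ⟨r, -, hr⟩ := exists_path_of_mem_conn hyb
        simp only [Set.mem_iUnion, exists_prop]
        have key : ∀ b', b' ∈ outerF H S → ∀ r' : H.Walk y b', (∀ u ∈ r'.support, u ∉ S) →
            (∀ e ∈ r'.edges, ω e = true) →
            ∃ e ∈ bd H S, ω ∈ conn (offG H S) e.2 y := by
          intro b' hb' r' hS' ho
          obtain ⟨hb'S, a, ha, hab⟩ := mem_outerF.1 hb'
          refine ⟨(a, b'), Product.mem_bd.2 ⟨ha, hb'S, hab⟩, SimpleGraph.Reachable.symm ?_⟩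
          refine Sus.mem_conn_of_walk r' (fun e he => ?_) ho
          induction e using Sym2.ind with
          | _ u u' =>
            exact ⟨r'.adj_of_mem_edges he, hS' u (r'.fst_mem_support_of_mem_edges he),
              hS' u' (r'.snd_mem_support_of_mem_edges he)⟩
        by_cases hmeet : ∃ v ∈ r.support, v ∈ S
        · obtain ⟨y', c', r₁, hc', r₂, hcS, hr2, hr1⟩ :=
            cut_at (S : Set V) r (by simpa using hyS)
              (by simpa using hmeet)
          refine key y' (mem_outerF.2 ⟨by simpa using hr1 y' r₁.end_mem_support, c',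
            by simpa using hcS, hc'.symm⟩) r₁ (fun u hu => by simpa using hr1 u hu)
            fun e he => hr e (List.mem_toFinset.2 ?_)
          rw [hr2]; simp [he]
        · push Not at hmeet
          exact key b hb r hmeet fun e he => hr e (List.mem_toFinset.2 he)
      · rw [Set.disjoint_left]
        intro e he he'
        obtain ⟨a, ha, hae⟩ := mem_biUnion.1 (mem_coe.1 he)
        obtain ⟨b, -, rfl⟩ := mem_image.1 hae
        exact (he' : (offG H S).Adj a b).2.1 ha
  calc chi H p x * (1 + η * c) = ∑' S, w S * S.card * (1 + η * c) := by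
        rw [hchi, ENNReal.tsum_mul_right]
    _ ≤ ∑' S, ((∑' y, if y ∈ S then w S else η * (w S * U S y)) + η * (w S * S.card)) := by
        refine ENNReal.tsum_le_tsum fun S => ?_
        have h1 : w S * S.card + η * (w S * ∑' y, U S y)
            ≤ (∑' y, if y ∈ S then w S else η * (w S * U S y)) + η * (w S * S.card) := by
          have h2 : ∑' y, ((if y ∈ S then w S else 0) + η * (w S * U S y))
              ≤ ∑' y, ((if y ∈ S then w S else η * (w S * U S y))
                  + if y ∈ S then η * (w S * 1) else 0) := by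
            refine ENNReal.tsum_le_tsum fun y => ?_
            by_cases hy : y ∈ S
            · simp only [hy, if_true]
              exact add_le_add le_rfl (mul_le_mul_right (mul_le_mul_right prob_le_one _) _)
            · simp [hy]
          rw [ENNReal.tsum_add, ENNReal.tsum_add, ENNReal.tsum_mul_left, ENNReal.tsum_mul_left,
            tsum_eq_sum (s := S) (f := fun y => if y ∈ S then w S else 0) fun y hy => if_neg hy,
            tsum_eq_sum (s := S) (f := fun y => if y ∈ S then η * (w S * 1) else 0)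
              fun y hy => if_neg hy, sum_congr rfl fun y hy => if_pos hy,
            sum_congr rfl fun y hy => if_pos hy] at h2
          simpa [mul_comm, mul_assoc, mul_left_comm] using h2
        refine le_trans ?_ h1
        have hB : c * S.card ≤ ∑' y, U S y := by
          refine le_trans ?_ (hK (outerF H S))
          have hle := hB S
          calc c * S.card ≤ c * ((outerF H S).card * B : ℕ) :=
                mul_le_mul_right (by rw [mul_comm]; exact_mod_cast hle) _
            _ = _ := by
                rw [Nat.cast_mul, mul_comm ((outerF H S).card : ℝ≥0∞), ← mul_assoc]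
                congr 1
                rw [← ENNReal.ofReal_natCast B, ← ENNReal.ofReal_mul'
                  (Nat.cast_nonneg _), div_mul_cancel₀]
                positivity
        calc w S * S.card * (1 + η * c) = w S * S.card + η * (w S * (c * S.card)) := by ring
          _ ≤ _ := by gcongr
    _ ≤ chi H (orQ p h) x + η * chi H p x := by
        rw [ENNReal.tsum_add, ENNReal.tsum_mul_left, ← hchi, ENNReal.tsum_comm]
        exact add_le_add (ENNReal.tsum_le_tsum hpt) le_rfl

end Vale.Agent.P165.TreeAct.Crit
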