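import Mathlib
import Vale.Agent.P165.TreeAct.Boost
import Vale.Agent.P165.Unique
import Vale.Agent.P151.Growth.Hop

/-!
Connections by bounded walks, and the second moment of the number of starts joined to a set by
bounded walks.
-/

namespace Vale.Agent.P165.TreeAct

open MeasureTheory Finset
open Large (joins meas_openOcc bk_two)
open P151 (openOcc)
open scoped ENNReal

variable {W : Type} {p : unitInterval}

/-- The edge sets of walks of length at most `n` from `x` to a vertex of `T`. -/
def witUpTo (K : SimpleGraph W) (x : W) (T : Set W) (n : ℕ) : Set (Finset (Sym2 W)) :=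
  {E | ∃ y ∈ T, ∃ q : K.Walk x y, q.length ≤ n ∧ ∀ e, e ∈ E ↔ e ∈ q.edges}

lemma witUpTo_mono {K : SimpleGraph W} {x : W} {T T' : Set W} (hT : T ⊆ T') {m n : ℕ}
    (hmn : m ≤ n) : witUpTo K x T m ⊆ witUpTo K x T' n := by
  rintro E ⟨y, hy, q, hl, hq⟩
  exact ⟨y, hT hy, q, hl.trans hmn, hq⟩

lemma openOcc_witUpTo_mono {K : SimpleGraph W} {x : W} {T T' : Set W} (hT : T ⊆ T') {m n : ℕ}
    (hmn : m ≤ n) : openOcc (witUpTo K x T m) ⊆ openOcc (witUpTo K x T' n) :=
  fun _ ⟨E, hE, ho⟩ => ⟨E, witUpTo_mono hT hmn hE, ho⟩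

lemma openOcc_witUpTo_subset (K : SimpleGraph W) (x : W) (T : Set W) (n : ℕ) :
    openOcc (witUpTo K x T n) ⊆ joins K x T :=
  fun _ ⟨E, ⟨y, hy, q, _, hq⟩, ho⟩ => ⟨E, ⟨y, hy, q, hq⟩, ho⟩

lemma meas_witUpTo [Countable W] (K : SimpleGraph W) (x : W) (T : Set W) (n : ℕ) :
    Large.Meas K.edgeSet (openOcc (witUpTo K x T n)) :=
  meas_openOcc fun E ⟨_, _, q, _, hq⟩ e he => q.edges_subset_edgeSet ((hq e).1 he)

lemma measurableSet_witUpTo [Countable W] (K : SimpleGraph W) (x : W) (T : Set W) (n : ℕ) :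
    MeasurableSet (openOcc (witUpTo K x T n)) :=
  (meas_witUpTo K x T n).measurableSet

/-- Connections are the union of connections by bounded walks. -/
lemma iUnion_witUpTo (K : SimpleGraph W) (x : W) (T : Set W) :
    ⋃ n, openOcc (witUpTo K x T n) = joins K x T := by
  refine Set.Subset.antisymm (Set.iUnion_subset fun n => openOcc_witUpTo_subset K x T n) ?_
  rintro ω ⟨E, ⟨y, hy, q, hq⟩, ho⟩
  exact Set.mem_iUnion.2 ⟨q.length, E, ⟨y, hy, q, le_rfl, hq⟩, ho⟩

/-- Connections are the limit of connections by bounded walks. -/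
lemma perc_joins_eq_iSup (K : SimpleGraph W) (x : W) (T : Set W) :
    perc W p (joins K x T) = ⨆ n, perc W p (openOcc (witUpTo K x T n)) := by
  rw [← iUnion_witUpTo]
  exact Monotone.measure_iUnion fun _ _ h => openOcc_witUpTo_mono subset_rfl h

/-- Cut a walk at its first visit to `S`. -/
lemma cut_first {G : SimpleGraph W} (S : Set W) : ∀ {a b : W} (q : G.Walk a b), a ∉ S →
    (∃ v ∈ q.support, v ∈ S) →
      ∃ y c, ∃ r : G.Walk a y, ∃ hc : G.Adj y c, ∃ r' : G.Walk c b,
        c ∈ S ∧ q = r.append (.cons hc r') ∧ ∀ u ∈ r.support, u ∉ S := by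
  intro a b q
  induction q with
  | nil =>
    rintro ha ⟨v, hv, hvS⟩
    simp only [SimpleGraph.Walk.support_nil, List.mem_singleton] at hv
    exact absurd (hv ▸ hvS) ha
  | @cons a c b h q ih =>
    rintro ha ⟨v, hv, hvS⟩
    by_cases hc : c ∈ S
    · exact ⟨a, c, .nil, h, q, hc, rfl, by simpa using ha⟩
    · rcases List.mem_cons.1 (by simpa using hv) with rfl | hv'
      · exact absurd hvS ha
      · obtain ⟨y, c', r, hc', r', h1, h2, h3⟩ := ih hc ⟨v, hv', hvS⟩
        exact ⟨y, c', .cons h r, hc', r', h1, by rw [h2]; rfl, by simpa [ha] using h3⟩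

variable {H K : SimpleGraph W} [H.LocallyFinite]

/-- The witnesses by bounded walks lie in a finite set of edges. -/
lemma witUpTo_subset [DecidableEq W] (hK : K ≤ H) {x : W} {T : Set W} {n : ℕ}
    {E : Finset (Sym2 W)} (hE : E ∈ witUpTo K x T n) : E ⊆ (near H x n).sym2 := by
  obtain ⟨y, -, q, hl, hq⟩ := hE
  intro e he
  rw [Finset.mem_sym2_iff]
  intro v hv
  have hvq : v ∈ q.support := SimpleGraph.Walk.mem_support_of_mem_edges ((hq e).1 he) hv
  exact mem_near ((q.takeUntil v hvq).mapLe hK)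
    (by simpa using (q.length_takeUntil_le_length hvq).trans hl)

/-- The connections avoiding a witness are independent of it and negatively correlated with the
failure of the earlier witnesses. -/
lemma first_witness_le [Countable W] [DecidableEq W] (s : Finset (Sym2 W))
    (prev : Finset (Finset (Sym2 W))) (c z : W) :
    perc W p ({ω | (∀ e ∈ s, ω e = true) ∧ ∀ t ∈ prev, ¬∀ e ∈ t, ω e = true}
        ∩ conn (H.deleteEdges (↑s : Set (Sym2 W))) c z)
      ≤ perc W p {ω | (∀ e ∈ s, ω e = true) ∧ ∀ t ∈ prev, ¬∀ e ∈ t, ω e = true}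
        * perc W p (conn H c z) := by
  set G := H.deleteEdges (↑s : Set (Sym2 W)) with hG
  set Dec : Set (Sym2 W → Bool) := {ω | ∀ t ∈ prev, ¬∀ e ∈ t \ s, ω e = true} with hDec
  set D := {ω : Sym2 W → Bool | (∀ e ∈ s, ω e = true) ∧ ∀ t ∈ prev, ¬∀ e ∈ t, ω e = true} with hD
  have hDeq : D = allOpen s ∩ Dec := by
    ext ω
    refine and_congr_right fun ho => forall₂_congr fun t _ => not_congr ⟨fun h e he =>
      h e (mem_sdiff.1 he).1, fun h e he => ?_⟩
    by_cases hes : e ∈ s
    · exact ho e hes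
    · exact h e (mem_sdiff.2 ⟨he, hes⟩)
  rw [← Large.joins_singleton G c z, ← iUnion_witUpTo, Set.inter_iUnion,
    Monotone.measure_iUnion fun _ _ h => Set.inter_subset_inter_right _
      (openOcc_witUpTo_mono subset_rfl h)]
  refine iSup_le fun n => ?_
  set C := openOcc (witUpTo G c {z} n) with hC
  let E₀ : Finset (Sym2 W) := prev.biUnion fun t => t \ s
  have hdDec : Dep Dec E₀ := by
    intro ω ω' hag hω t ht h
    refine hω t ht fun e he => ?_
    rw [hag e (mem_biUnion.2 ⟨t, ht, he⟩)]
    exact h e he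
  have hsub : ∀ E ∈ witUpTo G c {z} n, E ⊆ (near H c n).sym2 \ s := by
    intro E hE e he
    refine mem_sdiff.2 ⟨witUpTo_subset (SimpleGraph.deleteEdges_le _) hE he, fun hes => ?_⟩
    obtain ⟨y, -, q, -, hq⟩ := hE
    have := q.edges_subset_edgeSet ((hq e).1 he)
    rw [hG, SimpleGraph.edgeSet_deleteEdges] at this
    exact this.2 hes
  have hdC : Dep C ((near H c n).sym2 \ s) := by
    rintro ω ω' hag ⟨E, hE, ho⟩
    exact ⟨E, hE, fun e he => (hag e (hsub E hE he)).symm.trans (ho e he)⟩
  have hdisj : Disjoint s (E₀ ∪ ((near H c n).sym2 \ s)) := by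
    rw [disjoint_left]
    intro e hes he
    rcases mem_union.1 he with he | he
    · obtain ⟨t, -, ht⟩ := mem_biUnion.1 he
      exact (mem_sdiff.1 ht).2 hes
    · exact (mem_sdiff.1 he).2 hes
  have hup : ∀ ω η : Sym2 W → Bool, (∀ e, ω e = true → η e = true) → ω ∈ Decᶜ → η ∈ Decᶜ := by
    intro ω η hle hω hη
    exact hω fun t ht h => hη t ht fun e he => hle e (h e he)
  have hharris := P151.Growth.real_mul_le_inter (p := p) hdDec.compl hdC hup
    fun ω η hle hω => Large.up_openOcc _ ω η hle hω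
  have hsplit : (perc W p).real (Dec ∩ C) + (perc W p).real (Decᶜ ∩ C) = (perc W p).real C := by
    rw [Set.inter_comm Dec C, Set.inter_comm Decᶜ C, ← Set.sdiff_eq,
      measureReal_inter_add_sdiff hdDec.measurableSet]
  have hcompl : (perc W p).real Decᶜ = 1 - (perc W p).real Dec := by
    rw [measureReal_compl hdDec.measurableSet]; simp
  rw [hcompl] at hharris
  have hneg : (perc W p).real (Dec ∩ C) ≤ (perc W p).real Dec * (perc W p).real C := by
    linarith
  have hreal : (perc W p).real (D ∩ C) ≤ (perc W p).real D * (perc W p).real C := by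
    rw [hDeq, Set.inter_assoc, real_inter_of_disjoint (dep_allOpen s)
      ((hdDec.mono subset_union_left).inter (hdC.mono subset_union_right)) hdisj,
      real_inter_of_disjoint (dep_allOpen s) (hdDec.mono (subset_union_left
        (s₂ := (near H c n).sym2 \ s))) hdisj, mul_assoc]
    exact mul_le_mul_of_nonneg_left hneg measureReal_nonneg
  rw [← ENNReal.ofReal_toReal (measure_ne_top (perc W p) (D ∩ C))]
  refine (ENNReal.ofReal_le_ofReal hreal).trans ?_
  rw [ENNReal.ofReal_mul measureReal_nonneg, measureReal_def, measureReal_def,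
    ENNReal.ofReal_toReal (measure_ne_top _ _), ENNReal.ofReal_toReal (measure_ne_top _ _)]
  refine mul_le_mul_right (measure_mono fun ω hω => ?_) _
  obtain ⟨y, hy, h⟩ := Large.mem_joins.1 (openOcc_witUpTo_subset G c {z} n hω)
  rw [Set.mem_singleton_iff.1 hy] at h
  exact Sus.conn_subset (SimpleGraph.deleteEdges_le _) c z h

omit [H.LocallyFinite] in
/-- A connection to the start of a walk enters its support by edges off the walk. -/
lemma exists_enter [DecidableEq W] (hK : K ≤ H) {u y z : W} (q : K.Walk u y)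
    {ω : Sym2 W → Bool} {E : Finset (Sym2 W)} (hE : ∀ e, e ∈ E ↔ e ∈ q.edges)
    (h : ω ∈ conn H u z) :
    ∃ c ∈ q.support, ω ∈ conn (H.deleteEdges (↑E : Set (Sym2 W))) c z := by
  by_cases hz : z ∈ q.support
  · exact ⟨z, hz, SimpleGraph.Reachable.refl _⟩
  obtain ⟨r, -, hr⟩ := exists_path_of_mem_conn (SimpleGraph.Reachable.symm h)
  obtain ⟨a, c, r₁, hac, r₂, hc, hr2, hr1⟩ := cut_first {v | v ∈ q.support} r hz
    ⟨u, r.end_mem_support, q.start_mem_support⟩
  refine ⟨c, hc, SimpleGraph.Reachable.symm (Sus.mem_conn_of_walk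
    (r₁.append (.cons hac .nil)) (fun e he => ?_) fun e he => hr e (List.mem_toFinset.2 ?_))⟩
  · rw [SimpleGraph.Walk.edges_append, List.mem_append] at he
    rw [SimpleGraph.edgeSet_deleteEdges]
    refine ⟨?_, fun heE => ?_⟩
    · rcases he with he | he
      · exact r₁.edges_subset_edgeSet he
      · simp only [SimpleGraph.Walk.edges_cons, SimpleGraph.Walk.edges_nil, List.mem_singleton] at he
        rw [he]; exact hac
    · have hq := (hE e).1 heE
      rcases he with he | he
      · induction e using Sym2.ind with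
        | _ v w =>
          exact hr1 v (r₁.fst_mem_support_of_mem_edges he) (q.fst_mem_support_of_mem_edges hq)
      · simp only [SimpleGraph.Walk.edges_cons, SimpleGraph.Walk.edges_nil, List.mem_singleton] at he
        rw [he] at hq
        exact hr1 a r₁.end_mem_support (q.fst_mem_support_of_mem_edges hq)
  · rw [hr2]
    simp only [SimpleGraph.Walk.edges_append, SimpleGraph.Walk.edges_cons,
      SimpleGraph.Walk.edges_nil, List.mem_append, List.mem_cons, List.not_mem_nil, or_false] at he ⊢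
    exact he.imp id Or.inl

/-- Connected pairs: a start reached by bounded walks drags at most its length times the
susceptibility further starts along. -/
theorem sum_witUpTo_conn_le [Countable W] (hK : K ≤ H) (u : W) (T : Set W) (ℓ : ℕ) (J : Finset W)
    {X : ℝ≥0∞} (hX : ∀ v, ∑ z ∈ J, perc W p (conn H v z) ≤ X) :
    ∑ z ∈ J, perc W p (openOcc (witUpTo K u T ℓ) ∩ conn H u z)
      ≤ perc W p (openOcc (witUpTo K u T ℓ)) * ((ℓ + 1) * X) := by
  classical
  have hfin : (witUpTo K u T ℓ).Finite :=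
    (near H u ℓ).sym2.powerset.finite_toSet.subset fun E hE =>
      mem_powerset.2 (witUpTo_subset hK hE)
  let F := hfin.toFinset
  let o : F ≃ Fin F.card := F.equivFin
  let prev : F → Finset (Finset (Sym2 W)) := fun s =>
    (univ.filter fun t : F => o t < o s).map (Function.Embedding.subtype _)
  let D : F → Set (Sym2 W → Bool) := fun s =>
    {ω | (∀ e ∈ (s : Finset (Sym2 W)), ω e = true) ∧ ∀ t ∈ prev s, ¬∀ e ∈ t, ω e = true}
  have hDdep : ∀ s, Dep (D s) ((s : Finset (Sym2 W)) ∪ (prev s).biUnion id) := by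
    rintro s ω ω' hag ⟨h1, h2⟩
    refine ⟨fun e he => (hag e (mem_union_left _ he)).symm.trans (h1 e he),
      fun t ht h => h2 t ht fun e he => ?_⟩
    exact (hag e (mem_union_right _ (mem_biUnion.2 ⟨t, ht, he⟩))).trans (h e he)
  have hdisj : Pairwise (Function.onFun Disjoint D) := by
    intro s t hne
    rw [Function.onFun, Set.disjoint_left]
    rintro ω ⟨h1, h2⟩ ⟨h3, h4⟩
    rcases lt_trichotomy (o s) (o t) with h | h | h
    · exact h4 s (by simp [prev, h]) h1
    · exact hne (o.injective h)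
    · exact h2 t (by simp [prev, h]) h3
  have hunion : (⋃ s, D s) = openOcc (witUpTo K u T ℓ) := by
    ext ω
    simp only [Set.mem_iUnion]
    constructor
    · rintro ⟨s, h, -⟩
      exact ⟨s, hfin.mem_toFinset.1 s.2, h⟩
    · rintro ⟨E, hE, ho⟩
      have hne : (univ.filter fun t : F => ∀ e ∈ (t : Finset (Sym2 W)), ω e = true).Nonempty :=
        ⟨⟨E, hfin.mem_toFinset.2 hE⟩, mem_filter.2 ⟨mem_univ _, ho⟩⟩
      obtain ⟨s, hs, hmin⟩ := exists_min_image _ (fun t : F => o t) hne
      refine ⟨s, (mem_filter.1 hs).2, fun t ht h => ?_⟩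
      simp only [prev, mem_map, mem_filter, mem_univ, true_and, Function.Embedding.coe_subtype]
        at ht
      obtain ⟨t', ht', rfl⟩ := ht
      exact absurd (hmin t' (mem_filter.2 ⟨mem_univ _, h⟩)) (not_le.2 ht')
  have hwalk : ∀ s : F, ∃ y, ∃ q : K.Walk u y, q.length ≤ ℓ ∧ ∀ e, e ∈ (s : Finset (Sym2 W)) ↔
      e ∈ q.edges := fun s => by
    obtain ⟨y, -, q, hl, hq⟩ := hfin.mem_toFinset.1 s.2
    exact ⟨y, q, hl, hq⟩
  choose y q hl hq using hwalk
  calc ∑ z ∈ J, perc W p (openOcc (witUpTo K u T ℓ) ∩ conn H u z)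
      ≤ ∑ z ∈ J, ∑ s, ∑ c ∈ (q s).support.toFinset, perc W p (D s) * perc W p (conn H c z) := by
        refine sum_le_sum fun z _ => ?_
        rw [← hunion, Set.iUnion_inter]
        refine (measure_iUnion_fintype_le _ _).trans (sum_le_sum fun s _ => ?_)
        refine le_trans (measure_mono (t := ⋃ c ∈ (q s).support.toFinset, D s ∩
          conn (H.deleteEdges (↑(s : Finset (Sym2 W)) : Set (Sym2 W))) c z) fun ω hω => ?_) ?_
        · obtain ⟨c, hc, h⟩ := exists_enter hK (q s) (hq s) hω.2
          exact Set.mem_biUnion (List.mem_toFinset.2 hc) ⟨hω.1, h⟩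
        · exact (measure_biUnion_finset_le _ _).trans
            (sum_le_sum fun c _ => first_witness_le _ _ c z)
    _ = ∑ s, perc W p (D s) * ∑ c ∈ (q s).support.toFinset, ∑ z ∈ J, perc W p (conn H c z) := by
        rw [sum_comm]
        refine sum_congr rfl fun s _ => ?_
        rw [sum_comm, mul_sum]
        exact sum_congr rfl fun c _ => (mul_sum _ _ _).symm
    _ ≤ ∑ s, perc W p (D s) * ((ℓ + 1) * X) := by
        refine sum_le_sum fun s _ => mul_le_mul_right ?_ _
        refine (sum_le_card_nsmul _ _ X fun c _ => hX c).trans ?_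
        rw [nsmul_eq_mul]
        refine mul_le_mul_left ?_ _
        have : (q s).support.toFinset.card ≤ ℓ + 1 :=
          (List.toFinset_card_le _).trans (by simpa using hl s)
        exact_mod_cast this
    _ = _ := by
        rw [← sum_mul, ← hunion, measure_iUnion hdisj fun s => (hDdep s).measurableSet,
          tsum_fintype]

/-- Many starts are joined to `T` by bounded walks with a probability comparable with the expected
number of them, when few of them are joined to one another. -/
theorem amplify [Countable W] (hK : K ≤ H) (p : unitInterval) (J : Finset W) (T : Set W) (ℓ : ℕ)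
    {X : ℝ≥0∞} (hX : ∀ v, ∑ u ∈ J, perc W p (conn H v u) ≤ X) :
    ∑ u ∈ J, perc W p (openOcc (witUpTo K u T ℓ))
      ≤ perc W p (⋃ u ∈ J, openOcc (witUpTo K u T ℓ))
        * (∑ u ∈ J, perc W p (openOcc (witUpTo K u T ℓ)) + (ℓ + 1) * X) := by
  classical
  set A : W → Set (Sym2 W → Bool) := fun u => openOcc (witUpTo K u T ℓ) with hA
  set S := ∑ u ∈ J, perc W p (A u) with hS
  set U := perc W p (⋃ u ∈ J, A u) with hU
  have hSfin : S ≠ ⊤ := ENNReal.sum_ne_top.2 fun u _ => measure_ne_top _ _
  by_cases hU0 : U = 0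
  · have : S = 0 := sum_eq_zero fun u hu => measure_mono_null (Set.subset_biUnion_of_mem hu) hU0
    rw [this]; exact zero_le
  by_cases hXt : X = ⊤
  · subst hXt
    rw [ENNReal.mul_top (by simp), add_top, ENNReal.mul_top hU0]
    exact le_top
  have hpair : ∑ u ∈ J, ∑ z ∈ J, perc W p (A u ∩ A z) ≤ S * (S + (ℓ + 1) * X) := by
    calc ∑ u ∈ J, ∑ z ∈ J, perc W p (A u ∩ A z)
        ≤ ∑ u ∈ J, ∑ z ∈ J, (perc W p (A u) * perc W p (A z) + perc W p (A u ∩ conn H u z)) := by
          refine sum_le_sum fun u _ => sum_le_sum fun z _ => ?_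
          refine le_trans (measure_mono (t := {ω | ∃ s ∈ witUpTo K u T ℓ, ∃ t ∈ witUpTo K z T ℓ,
            Disjoint s t ∧ (∀ e ∈ s, ω e = true) ∧ ∀ e ∈ t, ω e = true} ∪ (A u ∩ conn H u z))
            ?_) ((measure_union_le _ _).trans (add_le_add (bk_two _ _) le_rfl))
          rintro ω ⟨hu, hz⟩
          obtain ⟨s, hs, hso⟩ := hu
          obtain ⟨t, ht, hto⟩ := hz
          by_cases hd : Disjoint s t
          · exact Or.inl ⟨s, hs, t, ht, hd, hso, hto⟩
          refine Or.inr ⟨⟨s, hs, hso⟩, ?_⟩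
          rw [disjoint_left] at hd
          push Not at hd
          obtain ⟨e, hes, het⟩ := hd
          obtain ⟨_, -, q, -, hq⟩ := hs
          obtain ⟨_, -, r, -, hr⟩ := ht
          induction e using Sym2.ind with
          | _ a b =>
            have haq := q.fst_mem_support_of_mem_edges ((hq _).1 hes)
            have har := r.fst_mem_support_of_mem_edges ((hr _).1 het)
            exact Sus.conn_subset hK u z ((reachable_openGraph_of_walk (q.takeUntil a haq)
              fun e he => hso e ((hq e).2 (q.edges_takeUntil_subset_edges haq he))).trans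
              (reachable_openGraph_of_walk (r.takeUntil a har)
                fun e he => hto e ((hr e).2 (r.edges_takeUntil_subset_edges har he))).symm)
      _ ≤ ∑ u ∈ J, (perc W p (A u) * S + perc W p (A u) * ((ℓ + 1) * X)) := by
          refine sum_le_sum fun u _ => ?_
          rw [sum_add_distrib, ← mul_sum]
          exact add_le_add le_rfl (sum_witUpTo_conn_le hK u T ℓ J hX)
      _ = S * (S + (ℓ + 1) * X) := by rw [sum_add_distrib, ← sum_mul, ← sum_mul, mul_add]
  have hmfin : ((ℓ : ℝ≥0∞) + 1) * X ≠ ⊤ := ENNReal.mul_ne_top (by simp) hXt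
  have hUfin : U ≠ ⊤ := measure_ne_top _ _
  set m := (((ℓ : ℝ≥0∞) + 1) * X).toReal
  have hU' : 0 < U.toReal := ENNReal.toReal_pos hU0 hUfin
  have hSr : S.toReal = ∑ u ∈ J, (perc W p).real (A u) :=
    ENNReal.toReal_sum fun u _ => measure_ne_top _ _
  have hpr : ∑ u ∈ J, ∑ z ∈ J, (perc W p).real (A u ∩ A z) ≤ S.toReal * (S.toReal + m) := by
    have h1 := ENNReal.toReal_mono (ENNReal.mul_ne_top hSfin (ENNReal.add_ne_top.2 ⟨hSfin, hmfin⟩))
      hpair
    rw [ENNReal.toReal_mul, ENNReal.toReal_add hSfin hmfin,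
      ENNReal.toReal_sum (fun u _ => ENNReal.sum_ne_top.2 fun z _ => measure_ne_top _ _)] at h1
    simp only [ENNReal.toReal_sum (fun z _ => measure_ne_top (perc W p) _)] at h1
    exact h1
  have hCS := Crit.two_mul_sum_le (perc W p) A (fun u => measurableSet_witUpTo K u T ℓ) J
    (S.toReal / U.toReal)
  rw [← hSr, measureReal_def, ← hU] at hCS
  have hkey : S.toReal ≤ U.toReal * (S.toReal + m) := by
    have hS0 : 0 ≤ S.toReal := ENNReal.toReal_nonneg
    rcases hS0.eq_or_lt with h0 | h0
    · rw [← h0]; positivity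
    have e1 : (S.toReal / U.toReal) ^ 2 * U.toReal = S.toReal * (S.toReal / U.toReal) := by
      field_simp
    rw [e1] at hCS
    have h3 : S.toReal * (S.toReal / U.toReal) ≤ S.toReal * (S.toReal + m) := by linarith
    exact (div_le_iff₀ hU').1 (le_of_mul_le_mul_left h3 h0) |>.trans_eq (mul_comm _ _)
  refine (ENNReal.toReal_le_toReal hSfin (ENNReal.mul_ne_top hUfin
    (ENNReal.add_ne_top.2 ⟨hSfin, hmfin⟩))).1 ?_
  rwa [ENNReal.toReal_mul, ENNReal.toReal_add hSfin hmfin]

end Vale.Agent.P165.TreeAct
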