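import Mathlib
import Vale.Agent.P165.TreeAct.Extend

/-!
The critical point is below one and the susceptibility below it is at most the inverse square of
the distance to it, given the bound on the tilted susceptibility.
-/

namespace Vale.Agent.P165.TreeAct.Crit

open MeasureTheory Finset
open Large (joins joins_singleton walk_joins)
open Product (orQ)
open scoped ENNReal

variable {V : Type} {H : SimpleGraph V} [H.LocallyFinite] {C : Type} {ht : C → V → ℤ}
  {q : unitInterval}

/-- The largest expected cluster size. -/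
noncomputable def top (H : SimpleGraph V) (q : unitInterval) : ℝ≥0∞ := ⨆ x, chi H q x

omit [H.LocallyFinite] in
lemma chi_le_top (x : V) : chi H q x ≤ top H q := le_iSup (chi H q) x

lemma chi_map (φ : H ≃g H) (x : V) : chi H q (φ x) = chi H q x := by
  unfold chi
  rw [← φ.toEquiv.tsum_eq]
  exact tsum_congr fun y => perc_conn_map q φ x y

lemma exists_top (hconn : H.Connected) (horb : ∃ O : Finset V, ∀ v, ∃ φ : H ≃g H, φ v ∈ O) :
    ∃ x, chi H q x = top H q := by
  obtain ⟨O, hO⟩ := horb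
  obtain ⟨v⟩ := hconn.nonempty
  obtain ⟨φ, hφ⟩ := hO v
  obtain ⟨o, -, ho⟩ := O.exists_max_image (chi H q) ⟨_, hφ⟩
  refine ⟨o, le_antisymm (chi_le_top o) (iSup_le fun x => ?_)⟩
  obtain ⟨ψ, hψ⟩ := hO x
  rw [← chi_map ψ x]
  exact ho _ hψ

lemma top_le_chi (hconn : H.Connected) (horb : ∃ O : Finset V, ∀ v, ∃ φ : H ≃g H, φ v ∈ O) :
    ∃ rad : ℕ, ∀ (q : unitInterval) (x : V),
      ENNReal.ofReal ((q : ℝ) ^ rad) * top H q ≤ chi H q x := by
  classical
  have := countable_of_connected hconn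
  obtain ⟨O, hO⟩ := horb
  choose r hr using fun a b : V => hconn.preconnected a b |>.exists_path_of_dist
  refine ⟨O.sup fun a => O.sup fun b => (r a b).length, fun q x => ?_⟩
  obtain ⟨z, hz⟩ := exists_top hconn ⟨O, hO⟩ (q := q)
  obtain ⟨φ, hφ⟩ := hO x
  obtain ⟨ψ, hψ⟩ := hO z
  rw [← hz, ← chi_map φ x, ← chi_map ψ z, chi, chi, ← ENNReal.tsum_mul_left]
  refine ENNReal.tsum_le_tsum fun y => ?_
  have := walk_joins (p := q) (r (φ x) (ψ z))
    (le_trans (le_sup (f := fun b => (r (φ x) b).length) hψ)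
      (le_sup (f := fun a => O.sup fun b => (r a b).length) hφ)) {y}
  rwa [joins_singleton, joins_singleton] at this

lemma one_le_top (hconn : H.Connected) : 1 ≤ top H q := by
  obtain ⟨v⟩ := hconn.nonempty
  exact (one_le_chi v).trans (chi_le_top v)

lemma top_ne_top (hconn : H.Connected) (horb : ∃ O : Finset V, ∀ v, ∃ φ : H ≃g H, φ v ∈ O)
    (hq : (q : ℝ) < pc H) : top H q ≠ ⊤ := by
  obtain ⟨X, hX⟩ := susc_finite_of_cofinite H hconn horb hq
  exact ne_top_of_le_ne_top ENNReal.ofReal_ne_top (iSup_le fun x => tsum_conn_le (hX x))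

lemma top_mono {q' : unitInterval} (h : (q : ℝ) ≤ q') : top H q ≤ top H q' :=
  iSup_le fun x => (ENNReal.tsum_le_tsum fun y => perc_conn_mono h x y).trans (chi_le_top x)

/-- The susceptibility as a real number. -/
noncomputable def size (H : SimpleGraph V) (q : unitInterval) : ℝ := (top H q).toReal

lemma one_le_size (hconn : H.Connected) (horb : ∃ O : Finset V, ∀ v, ∃ φ : H ≃g H, φ v ∈ O)
    (hq : (q : ℝ) < pc H) : 1 ≤ size H q := by
  have := ENNReal.toReal_mono (top_ne_top hconn horb hq) (one_le_top (H := H) (q := q) hconn)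
  simpa [size] using this

lemma ofReal_size (hconn : H.Connected) (horb : ∃ O : Finset V, ∀ v, ∃ φ : H ≃g H, φ v ∈ O)
    (hq : (q : ℝ) < pc H) : ENNReal.ofReal (size H q) = top H q :=
  ENNReal.ofReal_toReal (top_ne_top hconn horb hq)

lemma suscLe_size (hconn : H.Connected) (horb : ∃ O : Finset V, ∀ v, ∃ φ : H ≃g H, φ v ∈ O)
    (hq : (q : ℝ) < pc H) : SuscLe H q (size H q) := by
  intro x T
  refine (ENNReal.ofReal_le_ofReal_iff (zero_le_one.trans (one_le_size hconn horb hq))).1 ?_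
  rw [ofReal_size hconn horb hq, ENNReal.ofReal_sum_of_nonneg fun _ _ => measureReal_nonneg]
  refine le_trans ((sum_le_sum fun y _ => ?_).trans (ENNReal.sum_le_tsum T)) (chi_le_top x)
  exact (ENNReal.ofReal_toReal (measure_ne_top _ _)).le

/-- Sprinkling multiplies the susceptibility by more than a multiple of its square root. -/
theorem grow [Nonempty C] (hconn : H.Connected)
    (horb : ∃ O : Finset V, ∀ v, ∃ φ : H ≃g H, φ v ∈ O)
    (hiso : ∃ K : ℕ, ∀ S : Finset V, S.card ≤ K * (outer H (S : Set V)).ncard)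
    (hbound : TiltBound H ht) : ∃ a : ℝ, 0 < a ∧ ∀ p h : unitInterval,
    pc H / 2 ≤ p → (p : ℝ) < pc H → (orQ p h : ℝ) < pc H →
      size H p * (1 + (h : ℝ) * (a * √(size H p)) - h) ≤ size H (orQ p h) := by
  classical
  have := countable_of_connected hconn
  obtain ⟨C₀, hC0, hC⟩ := hbound
  have hpc := pc_pos_of_cofinite H hconn horb
  obtain ⟨rad, hrad⟩ := top_le_chi hconn horb
  obtain ⟨P₀⟩ := ‹Nonempty C›
  obtain ⟨B₀, hB₀⟩ := hiso
  have hiso' : ∀ S : Finset V, S.card ≤ B₀ * (outerF H S).card := fun S => by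
    rw [← ncard_outer]; exact hB₀ S
  have hB₁ : 0 < B₀ := by
    obtain ⟨v⟩ := hconn.nonempty
    by_contra h
    simpa [Nat.eq_zero_of_not_pos h] using hiso' {v}
  set κ : ℝ := (pc H / 2) ^ rad with hκ
  have hκ0 : 0 < κ := by positivity
  set B : ℝ := (B₀ : ℝ) with hB
  have hB0 : 0 < B := by rw [hB]; exact_mod_cast hB₁
  refine ⟨κ ^ 2 / ((C₀ + 1) ^ 2 * B), by positivity, fun p h hp hp' hq => ?_⟩
  set X := size H p with hX
  have hX1 : 1 ≤ X := one_le_size hconn horb hp'
  obtain ⟨t, ht1, -, htl⟩ := hC p hp hp'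
  set M : ℝ := (C₀ + 1) * X ^ (1 / 4 : ℝ) with hM
  have hM0 : 0 < M := by positivity
  have hK := union_ge ht (H := H) (q := p) (κ := κ) (X := X) (M := M) (t := t) (by linarith) P₀ hκ0 hM0
    (by linarith) (fun x => ?_) (fun x => by rw [ofReal_size hconn horb hp']; exact chi_le_top x)
    (fun x => (tilt_tsum ht (by linarith) (htl X hX1 (suscLe_size hconn horb hp')) P₀ x).trans
      (ENNReal.ofReal_le_ofReal (mul_le_mul_of_nonneg_right (by linarith) (by positivity))))
  swap
  · rw [ENNReal.ofReal_mul hκ0.le, ofReal_size hconn horb hp']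
    exact le_trans (mul_le_mul_left (ENNReal.ofReal_le_ofReal
      (pow_le_pow_left₀ (by linarith) hp _)) _) (hrad p x)
  obtain ⟨x, hx⟩ := exists_top hconn horb (q := p)
  have hb := boost (H := H) (p := p) (h := h) hiso' (K := κ ^ 2 * X / M ^ 2)
    (toInf_null_below hconn horb hp' x) hK hB₁
  rw [hx, ← ofReal_size hconn horb hp'] at hb
  replace hb := hb.trans (add_le_add_left (chi_le_top x) _)
  rw [← ofReal_size hconn horb hq, ← hB] at hb
  have hM2 : M ^ 2 = (C₀ + 1) ^ 2 * √X := by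
    rw [hM, mul_pow, Real.sqrt_eq_rpow, ← Real.rpow_natCast (X ^ (1 / 4 : ℝ)) 2,
      ← Real.rpow_mul (by linarith)]
    norm_num
  have hc : κ ^ 2 * X / M ^ 2 / B = κ ^ 2 / ((C₀ + 1) ^ 2 * B) * √X := by
    rw [hM2]
    field_simp
    rw [Real.sq_sqrt (by linarith : (0 : ℝ) ≤ X)]
  rw [hc] at hb
  have h0 : (0 : ℝ) ≤ h := h.2.1
  have hs0 : 0 ≤ κ ^ 2 / ((C₀ + 1) ^ 2 * B) * √X := by positivity
  rw [← ENNReal.ofReal_one, ← ENNReal.ofReal_mul h0, ← ENNReal.ofReal_add zero_le_one
    (mul_nonneg h0 hs0), ← ENNReal.ofReal_mul (by linarith : (0 : ℝ) ≤ X),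
    ← ENNReal.ofReal_mul h0, ← ENNReal.ofReal_add (zero_le_one.trans (one_le_size hconn horb hq))
    (mul_nonneg h0 (by linarith)),
    ENNReal.ofReal_le_ofReal_iff (add_nonneg (zero_le_one.trans (one_le_size hconn horb hq))
    (mul_nonneg h0 (by linarith)))] at hb
  nlinarith [hb]

/-- Iterated sprinkling bounds the susceptibility near the critical point. -/
theorem blowup [Nonempty C] (hconn : H.Connected)
    (horb : ∃ O : Finset V, ∀ v, ∃ φ : H ≃g H, φ v ∈ O)
    (hiso : ∃ K : ℕ, ∀ S : Finset V, S.card ≤ K * (outer H (S : Set V)).ncard)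
    (hbound : TiltBound H ht) : ∃ A : ℝ, 0 < A ∧ ∀ p : unitInterval,
    pc H / 2 ≤ p → (p : ℝ) < pc H →
      √(size H p) * ((pc H - p) / (1 - p)) ≤ A := by
  obtain ⟨a, ha, hgrow⟩ := grow hconn horb hiso hbound
  refine ⟨16 / a, by positivity, fun p hp hp' => ?_⟩
  by_contra hlt
  rw [not_le, div_lt_iff₀ ha] at hlt
  have hpc1 : pc H ≤ 1 := csInf_le ⟨0, by
    rintro r (rfl | ⟨z, -, rfl⟩)
    · exact zero_le_one
    · exact z.2.1⟩ (Set.mem_insert _ _)
  set ε := pc H - p with hε
  have hε0 : 0 < ε := by linarith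
  let r : ℕ → ℝ := fun k => (p : ℝ) + ε / 2 * (1 - (3 / 4 : ℝ) ^ k)
  have hr : ∀ k, (p : ℝ) ≤ r k ∧ r k ≤ p + ε / 2 := fun k => by
    have h1 : (3 / 4 : ℝ) ^ k ≤ 1 := pow_le_one₀ (by norm_num) (by norm_num)
    have h2 : 0 < (3 / 4 : ℝ) ^ k := by positivity
    constructor <;> simp only [r] <;> nlinarith
  let P : ℕ → unitInterval := fun k => ⟨r k, le_trans p.2.1 (hr k).1, by linarith [(hr k).2]⟩
  have hP : ∀ k, pc H / 2 ≤ P k ∧ (P k : ℝ) < pc H := fun k =>
    ⟨le_trans hp (hr k).1, lt_of_le_of_lt (hr k).2 (by linarith)⟩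
  have hX0 : 1 ≤ size H p := one_le_size hconn horb hp'
  have hmain : ∀ k, (16 / 9 : ℝ) ^ k * size H p ≤ size H (P k) := by
    intro k
    induction k with
    | zero =>
      have : P 0 = p := Subtype.ext (by simp [P, r])
      rw [this]; simp
    | succ k ih =>
      obtain ⟨h1, h2⟩ := hP k
      have hle : (P k : ℝ) ≤ P (k + 1) := by
        show r k ≤ r (k + 1)
        simp only [r, pow_succ]
        nlinarith [show 0 < (3 / 4 : ℝ) ^ k by positivity]
      obtain ⟨h, hh⟩ := Product.exists_orQ hle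
      have hval : (h : ℝ) * (1 - r k) = ε / 8 * (3 / 4) ^ k := by
        have := congrArg (fun u : unitInterval => (u : ℝ)) hh
        simp only [Product.coe_orQ, P, r, pow_succ] at this ⊢
        linarith
      have hlow : ε / 8 * (3 / 4) ^ k ≤ (h : ℝ) * (1 - p) := by
        rw [← hval]
        exact mul_le_mul_of_nonneg_left (by linarith [(hr k).1]) h.2.1
      have hsq : (4 / 3 : ℝ) ^ k * √(size H p) ≤ √(size H (P k)) := by
        refine le_trans (le_of_eq ?_) (Real.sqrt_le_sqrt ih)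
        rw [Real.sqrt_mul (by positivity),
          show (16 / 9 : ℝ) ^ k = ((4 / 3) ^ k) ^ 2 by rw [← pow_mul, mul_comm k, pow_mul]; norm_num,
          Real.sqrt_sq (by positivity)]
      have hp1 : 0 < 1 - (p : ℝ) := by linarith
      have h2le : 2 ≤ (h : ℝ) * (a * √(size H (P k))) := by
        have hpow : (3 / 4 : ℝ) ^ k * (4 / 3) ^ k = 1 := by rw [← mul_pow]; norm_num
        have h4 := mul_le_mul hlow (mul_le_mul_of_nonneg_left hsq ha.le) (by positivity)
          (mul_nonneg h.2.1 hp1.le)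
        have h5 : ε / 8 * (3 / 4) ^ k * (a * ((4 / 3) ^ k * √(size H p)))
            = ε * a * √(size H p) / 8 := by
          linear_combination (ε * a * √(size H p) / 8) * hpow
        have h6 : 2 * (1 - (p : ℝ)) ≤ ε * a * √(size H p) / 8 := by
          have h7 : √(size H p) * (ε / (1 - p)) * a * (1 - (p : ℝ)) = ε * a * √(size H p) := by
            field_simp
          nlinarith [mul_le_mul_of_nonneg_right hlt.le hp1.le]
        refine le_of_mul_le_mul_right ?_ hp1
        calc 2 * (1 - (p : ℝ)) ≤ (h : ℝ) * (1 - p) * (a * √(size H (P k))) := by linarith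
          _ = _ := by ring
      have hg := hgrow (P k) h h1 h2 (by rw [hh]; exact (hP (k + 1)).2)
      rw [hh] at hg
      have hpos : 0 ≤ size H (P k) := zero_le_one.trans (one_le_size hconn horb h2)
      calc (16 / 9 : ℝ) ^ (k + 1) * size H p = 16 / 9 * ((16 / 9) ^ k * size H p) := by ring
        _ ≤ 2 * size H (P k) := by nlinarith
        _ ≤ _ := by nlinarith [h.2.2]
  let Q : unitInterval := ⟨p + ε / 2, by linarith [p.2.1], by linarith⟩
  obtain ⟨k, hk⟩ := pow_unbounded_of_one_lt (size H Q) (by norm_num : (1 : ℝ) < 16 / 9)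
  have hQ : (Q : ℝ) < pc H := by simp only [Q]; linarith
  have h8 : size H (P k) ≤ size H Q :=
    ENNReal.toReal_mono (top_ne_top hconn horb hQ) (top_mono (hr k).2)
  nlinarith [hmain k, show 0 < (16 / 9 : ℝ) ^ k by positivity]

/-- The critical point is below one. -/
theorem pc_lt_one [Nonempty C] (hconn : H.Connected)
    (horb : ∃ O : Finset V, ∀ v, ∃ φ : H ≃g H, φ v ∈ O)
    (hiso : ∃ K : ℕ, ∀ S : Finset V, S.card ≤ K * (outer H (S : Set V)).ncard)
    (hinf : ∀ m : ℕ, ∃ Y : Finset V, Y.card = m)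
    (hbound : TiltBound H ht) : pc H < 1 := by
  classical
  by_contra hge
  rw [not_lt] at hge
  have hpc1 : pc H ≤ 1 := csInf_le ⟨0, by
    rintro r (rfl | ⟨z, -, rfl⟩)
    · exact zero_le_one
    · exact z.2.1⟩ (Set.mem_insert _ _)
  have heq : pc H = 1 := le_antisymm hpc1 hge
  obtain ⟨A, hA, hblow⟩ := blowup hconn horb hiso hbound
  obtain ⟨N, hN⟩ := exists_nat_gt (2 * A ^ 2)
  obtain ⟨Y, hY⟩ := hinf N
  obtain ⟨o⟩ := hconn.nonempty
  have := countable_of_connected hconn
  choose w hw using fun y : V => hconn.preconnected o y |>.exists_path_of_dist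
  let n : ℕ := Y.sup fun k => (w k).length
  have hn : (0 : ℝ) < n + 1 := by positivity
  let p : unitInterval := ⟨1 - 1 / (2 * (n + 1)), by
      rw [sub_nonneg, div_le_one (by positivity)]; linarith,
    by linarith [show (0 : ℝ) < 1 / (2 * (n + 1)) by positivity]⟩
  have hp1 : (p : ℝ) < pc H := by
    rw [heq]; simp only [p]; linarith [show (0 : ℝ) < 1 / (2 * (n + 1)) by positivity]
  have hp2 : pc H / 2 ≤ p := by
    rw [heq]
    have h3 : 1 / (2 * ((n : ℝ) + 1)) ≤ 1 / 2 :=
      one_div_le_one_div_of_le (by norm_num) (by linarith)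
    simp only [p]; linarith
  have hpn : 1 / 2 ≤ (p : ℝ) ^ n := by
    refine le_trans ?_ (one_add_mul_le_pow (a := -(1 / (2 * ((n : ℝ) + 1))))
      (by linarith [p.2.1, show (p : ℝ) = 1 - 1 / (2 * ((n : ℝ) + 1)) from rfl]) n)
    have h4 : (n : ℝ) * (1 / (2 * ((n : ℝ) + 1))) ≤ 1 / 2 := by
      rw [mul_one_div, div_le_iff₀ (by positivity)]; linarith
    linarith
  have hchi : ENNReal.ofReal ((p : ℝ) ^ n) * N ≤ top H p := by
    refine le_trans ?_ (chi_le_top o)
    refine le_trans ?_ (ENNReal.sum_le_tsum Y)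
    refine le_trans (le_of_eq (by rw [sum_const, hY, nsmul_eq_mul, mul_comm]))
      (sum_le_sum (f := fun _ => ENNReal.ofReal ((p : ℝ) ^ n)) fun k hk => ?_)
    have h := walk_joins (p := p) (w k) (le_sup (f := fun k => (w k).length) hk) {k}
    rw [joins_singleton, joins_singleton, perc_conn_self k, mul_one] at h
    exact h
  have hsz : (p : ℝ) ^ n * N ≤ size H p := by
    refine (ENNReal.ofReal_le_ofReal_iff (zero_le_one.trans (one_le_size hconn horb hp1))).1 ?_
    rw [ofReal_size hconn horb hp1, ENNReal.ofReal_mul (by positivity), ENNReal.ofReal_natCast]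
    exact hchi
  have hb := hblow p hp2 hp1
  rw [heq, div_self (by linarith : (1 : ℝ) - p ≠ 0), mul_one] at hb
  have hsz2 : size H p ≤ A ^ 2 := by
    rw [← Real.sq_sqrt (zero_le_one.trans (one_le_size hconn horb hp1))]
    exact pow_le_pow_left₀ (Real.sqrt_nonneg _) hb 2
  nlinarith

end Vale.Agent.P165.TreeAct.Crit
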