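import Mathlib
import Vale.Agent.P165.TreeAct.Blowup
import Vale.Agent.P165.Unique

/-!
The bound on the tilted susceptibility puts the critical point strictly below the uniqueness point.
-/

namespace Vale.Agent.P165.TreeAct

open MeasureTheory Finset
open Product (orQ)
open scoped ENNReal

namespace Crit

/-- No uniqueness when every orbit has many points with small mutual connection probabilities. -/
theorem not_unique_of_separated {W : Type} [Countable W] {H : SimpleGraph W} [H.LocallyFinite]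
    [DecidableEq W] {p : unitInterval}
    (hsep : ∀ (x : W) (m : ℕ) (ε : ℝ), 0 < ε → ∃ Y : Finset W, Y.card = m ∧
      (∀ z ∈ Y, ∃ φ : H ≃g H, φ x = z) ∧
      ∀ a ∈ Y, ∀ b ∈ Y, a ≠ b → (perc W p).real (conn H a b) ≤ ε) :
    perc W p {ω | ∃! C : (openGraph H ω).ConnectedComponent, C.supp.Infinite} ≠ 1 := by
  intro hS
  set S := {ω | ∃! C : (openGraph H ω).ConnectedComponent, C.supp.Infinite} with hSdef
  have hsupp : ∀ ω x, ((openGraph H ω).connectedComponentMk x).supp
      = {y | (openGraph H ω).Reachable x y} := fun ω x => by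
    ext y
    simp [SimpleGraph.ConnectedComponent.eq, SimpleGraph.reachable_comm]
  have hpair : ∀ x y, (perc W p).real ((toInf H x ∩ toInf H y) \ conn H x y) = 0 := by
    intro x y
    have hm : MeasurableSet ((toInf H x ∩ toInf H y) \ conn H x y) :=
      ((measurableSet_toInf x).inter (measurableSet_toInf y)).diff (measurableSet_conn x y)
    have hsub : S ⊆ ((toInf H x ∩ toInf H y) \ conn H x y)ᶜ := by
      rintro ω ⟨C, hC, huniq⟩ ⟨⟨hx, hy⟩, hn⟩
      have h1 := huniq ((openGraph H ω).connectedComponentMk x)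
        (show Set.Infinite _ by rw [hsupp]; exact hx)
      have h2 := huniq ((openGraph H ω).connectedComponentMk y)
        (show Set.Infinite _ by rw [hsupp]; exact hy)
      exact hn (SimpleGraph.ConnectedComponent.eq.1 (h1.trans h2.symm))
    have h := measure_mono (μ := perc W p) hsub
    rw [hS, prob_compl_eq_one_sub hm] at h
    have : perc W p ((toInf H x ∩ toInf H y) \ conn H x y) = 0 := by
      by_contra hne
      exact absurd h (not_le.2 (ENNReal.sub_lt_self ENNReal.one_ne_top one_ne_zero hne))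
    simp [measureReal_def, this]
  obtain ⟨x, hx⟩ : ∃ x, perc W p (toInf H x) ≠ 0 := by
    by_contra h
    push Not at h
    have hsub : S ⊆ ⋃ x, toInf H x := by
      rintro ω ⟨C, hC, -⟩
      induction C using SimpleGraph.ConnectedComponent.ind with
      | _ v => exact Set.mem_iUnion.2 ⟨v, by rw [toInf, Set.mem_ofPred_eq, ← hsupp]; exact hC⟩
    have := measure_mono_null hsub (measure_iUnion_null h)
    rw [hS] at this
    exact one_ne_zero this
  set θ := (perc W p).real (toInf H x) with hθ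
  have hθ0 : 0 < θ := ENNReal.toReal_pos hx (measure_ne_top _ _)
  obtain ⟨m, hm⟩ := exists_nat_gt (2 / θ)
  have hmθ : 2 < m * θ := by rwa [div_lt_iff₀ hθ0] at hm
  obtain ⟨Y, hY, hYO, hfar⟩ := hsep x m (1 / ((m : ℝ) * m + 1)) (by positivity)
  have hbon := sum_sub_pairs_le (perc W p) (fun z => toInf H z) (fun z => measurableSet_toInf z) Y
  have h1 : ∑ z ∈ Y, (perc W p).real (toInf H z) = m * θ := by
    rw [sum_congr rfl (g := fun _ => θ) fun z hz => ?_, sum_const, hY, nsmul_eq_mul]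
    obtain ⟨φ, rfl⟩ := hYO z hz
    exact real_toInf_map φ x
  have h2 : ∑ i ∈ Y, ∑ j ∈ Y.erase i, (perc W p).real (toInf H i ∩ toInf H j)
      ≤ m * (m * (1 / ((m : ℝ) * m + 1))) := by
    refine (sum_le_card_nsmul Y _ _ fun i hi => ?_).trans_eq (by rw [hY, nsmul_eq_mul])
    refine (sum_le_card_nsmul (Y.erase i) _ (1 / ((m : ℝ) * m + 1)) fun j hj => ?_).trans ?_
    · calc (perc W p).real (toInf H i ∩ toInf H j)
          ≤ (perc W p).real (conn H i j ∪ ((toInf H i ∩ toInf H j) \ conn H i j)) :=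
            measureReal_mono fun ω h => (em (ω ∈ conn H i j)).imp id fun h' => ⟨h, h'⟩
        _ ≤ _ := (measureReal_union_le _ _).trans (le_of_eq (by rw [hpair, add_zero]))
        _ ≤ _ := hfar i hi j (mem_of_mem_erase hj) (ne_of_mem_erase hj).symm
    · rw [nsmul_eq_mul]
      exact mul_le_mul_of_nonneg_right
        (by exact_mod_cast (card_erase_le.trans hY.le)) (by positivity)
  have h3 : (m : ℝ) * (m * (1 / ((m : ℝ) * m + 1))) < 1 := by
    rw [← mul_assoc, mul_one_div, div_lt_one (by positivity)]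
    linarith
  linarith [measureReal_le_one (μ := perc W p) (s := ⋃ z ∈ Y, toInf H z)]

variable {V C : Type} {H : SimpleGraph V} [H.LocallyFinite] {ht : C → V → ℤ}

/-- Below a parameter with bounded tilted two-point function there is no uniqueness. -/
theorem le_pu_of_tilt [Countable V]
    (hfar : ∀ (x : V) (m L : ℕ), ∃ Y : Finset V, Y.card = m ∧ (∀ z ∈ Y, ∃ φ : H ≃g H, φ x = z) ∧
      ∀ a ∈ Y, ∀ b ∈ Y, a ≠ b → ∃ c : C, (L : ℤ) < ht c b - ht c a)
    {q : unitInterval} {t M : ℝ} (ht1 : 1 < t)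
    (hM : ∀ P x y, perc V q (conn H x y) * rho ht t P x y ≤ ENNReal.ofReal M) :
    (q : ℝ) ≤ pu H := by
  classical
  refine le_csInf (Set.insert_nonempty _ _) ?_
  rintro r (rfl | ⟨p, hp, rfl⟩)
  · exact q.2.2
  by_contra hlt
  rw [not_le] at hlt
  refine not_unique_of_separated (fun x m ε hε => ?_) hp
  obtain ⟨L, hL⟩ := pow_unbounded_of_one_lt ((|M| + 1) / ε) ht1
  obtain ⟨Y, hY, hYO, hfar⟩ := hfar x m L
  refine ⟨Y, hY, hYO, fun a ha b hb hne => ?_⟩
  obtain ⟨c, hc⟩ := hfar a ha b hb hne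
  have h := (mul_le_mul_left (perc_conn_mono hlt.le a b) (rho ht t c a b)).trans (hM c a b)
  rw [rho, ← ENNReal.ofReal_toReal (measure_ne_top (perc V p) _), ← measureReal_def,
    ← ENNReal.ofReal_mul measureReal_nonneg] at h
  have h' : (perc V p).real (conn H a b) * t ^ (ht c b - ht c a) ≤ |M| + 1 :=
    (ENNReal.ofReal_le_ofReal_iff (by positivity)).1
      (h.trans (ENNReal.ofReal_le_ofReal (by linarith [le_abs_self M])))
  rw [div_lt_iff₀ hε] at hL
  have htn : t ^ L ≤ t ^ (ht c b - ht c a) := by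
    rw [← zpow_natCast]
    exact zpow_le_zpow_right₀ ht1.le hc.le
  refine le_of_mul_le_mul_right ?_ (pow_pos (zero_lt_one.trans ht1) L)
  nlinarith [measureReal_nonneg (μ := perc V p) (s := conn H a b)]

end Crit

open Crit

/-- The main estimate gives `pc < pu`. -/
theorem pc_lt_pu_of_tilt {V P : Type} (H : SimpleGraph V) [H.LocallyFinite] (hconn : H.Connected)
    (horb : ∃ O : Finset V, ∀ v, ∃ φ : H ≃g H, φ v ∈ O)
    (ht : P → V → ℤ) (L : ℕ) (hL : ∀ c u v, H.Adj u v → ht c v - ht c u ≤ L)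
    (hiso : ∃ K : ℕ, ∀ S : Finset V, S.card ≤ K * (outer H (S : Set V)).ncard)
    (hfar : ∀ (x : V) (m L : ℕ), ∃ Y : Finset V, Y.card = m ∧ (∀ z ∈ Y, ∃ φ : H ≃g H, φ x = z) ∧
      ∀ a ∈ Y, ∀ b ∈ Y, a ≠ b → ∃ c : P, (L : ℤ) < ht c b - ht c a)
    (hbound : TiltBound H ht) : pc H < pu H := by
  classical
  have := countable_of_connected hconn
  obtain ⟨v₀⟩ := hconn.nonempty
  have : Nonempty P := by
    obtain ⟨Y, hY, -, hY2⟩ := hfar v₀ 2 0
    obtain ⟨a, ha, b, hb, hne⟩ := one_lt_card.1 (show 1 < Y.card by omega)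
    exact ⟨(hY2 a ha b hb hne).choose⟩
  have hinf : ∀ m : ℕ, ∃ Y : Finset V, Y.card = m := fun m =>
    (hfar v₀ m 0).imp fun Y h => h.1
  obtain ⟨D, hD1, hD⟩ := exists_degree horb
  obtain ⟨A, hA, hblow⟩ := blowup hconn horb hiso hbound
  obtain ⟨C, hC0, hC⟩ := id hbound
  have hpc0 := pc_pos_of_cofinite H hconn horb
  have hpc1 := pc_lt_one hconn horb hiso hinf hbound
  set c : ℝ := pc H
  set K : ℝ := 2 * D * 2 ^ L * (C + 1) * √A / (1 - c) with hK
  have hK0 : 0 < K := by
    have : (0 : ℝ) < D := by exact_mod_cast hD1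
    have : 0 < 1 - c := by linarith
    positivity
  set ε : ℝ := min (c / 2) (min (1 - c) (1 / (2 * K) ^ 2)) with hε
  have hε0 : 0 < ε := lt_min (by linarith) (lt_min (by linarith) (by positivity))
  have hε1 : ε ≤ c / 2 := min_le_left _ _
  have hε2 : ε ≤ 1 - c := le_trans (min_le_right _ _) (min_le_left _ _)
  have hε3 : ε ≤ 1 / (2 * K) ^ 2 := le_trans (min_le_right _ _) (min_le_right _ _)
  let p : unitInterval := ⟨c - ε, by linarith, by linarith⟩
  let q : unitInterval := ⟨c + ε, by linarith, by linarith⟩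
  have hp : (p : ℝ) < c := by simp only [p]; linarith
  have hp2 : c / 2 ≤ p := by simp only [p]; linarith
  obtain ⟨h, hh⟩ := Product.exists_orQ (p := p) (q := q) (by simp only [p, q]; linarith)
  obtain ⟨t, ht1, ht2, htl⟩ := hC p hp2 hp
  set X := size H p with hX
  have hX1 : 1 ≤ X := one_le_size hconn horb hp
  have htilt : TiltLe H ht p t ((C + 1) * X ^ (1 / 4 : ℝ)) := fun c x T =>
    (htl X hX1 (suscLe_size hconn horb hp) c x T).trans
      (mul_le_mul_of_nonneg_right (by linarith) (by positivity))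
  have hh1 : (h : ℝ) * (1 - p) = 2 * ε := by
    have := congrArg (fun u : unitInterval => (u : ℝ)) hh
    simp only [Product.coe_orQ, p, q] at this ⊢
    linarith
  have hsX : √X * ε ≤ A := by
    have h1 := hblow p hp2 hp
    have hp1 : 0 < 1 - (p : ℝ) := by linarith
    refine le_trans (mul_le_mul_of_nonneg_left ?_ (Real.sqrt_nonneg _)) h1
    rw [le_div_iff₀ hp1, show c - (p : ℝ) = ε by simp [p]]
    nlinarith [p.2.1]
  have hquart : X ^ (1 / 4 : ℝ) * √ε ≤ √A := by
    have : X ^ (1 / 4 : ℝ) = √(√X) := by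
      rw [Real.sqrt_eq_rpow, Real.sqrt_eq_rpow, ← Real.rpow_mul (by linarith)]
      norm_num
    rw [this, ← Real.sqrt_mul (Real.sqrt_nonneg _)]
    exact Real.sqrt_le_sqrt hsX
  have hsqε : √ε * K ≤ 1 / 2 := by
    have h1 : √ε ≤ √(1 / (2 * K) ^ 2) := Real.sqrt_le_sqrt hε3
    rw [Real.sqrt_div' _ (sq_nonneg _), Real.sqrt_one, Real.sqrt_sq (by positivity)] at h1
    calc √ε * K ≤ 1 / (2 * K) * K := mul_le_mul_of_nonneg_right h1 hK0.le
      _ = 1 / 2 := by field_simp
  have hsmall : (h : ℝ) * D * 2 ^ L * ((C + 1) * X ^ (1 / 4 : ℝ)) ≤ 1 / 2 := by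
    refine le_trans ?_ hsqε
    have hhle : (h : ℝ) * (1 - c) ≤ 2 * ε :=
      le_trans (mul_le_mul_of_nonneg_left (by linarith) h.2.1) hh1.le
    have hc' : 0 < 1 - c := by linarith
    rw [hK, ← mul_div_assoc, le_div_iff₀ hc']
    have hεε : √ε * √ε = ε := Real.mul_self_sqrt hε0.le
    calc (h : ℝ) * D * 2 ^ L * ((C + 1) * X ^ (1 / 4 : ℝ)) * (1 - c)
        = (h : ℝ) * (1 - c) * (D * 2 ^ L * (C + 1) * X ^ (1 / 4 : ℝ)) := by ring
      _ ≤ 2 * ε * (D * 2 ^ L * (C + 1) * X ^ (1 / 4 : ℝ)) :=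
          mul_le_mul_of_nonneg_right hhle (by positivity)
      _ = √ε * (2 * D * 2 ^ L * (C + 1)) * (X ^ (1 / 4 : ℝ) * √ε) := by
          linear_combination (-(2 * D * 2 ^ L * (C + 1) * X ^ (1 / 4 : ℝ))) * hεε
      _ ≤ √ε * (2 * D * 2 ^ L * (C + 1)) * √A :=
          mul_le_mul_of_nonneg_left hquart (by positivity)
      _ = _ := by ring
  have hq := le_pu_of_tilt hfar (q := orQ p h) (M := 2 * ((C + 1) * X ^ (1 / 4 : ℝ))) ht1
    fun c x y => tilt_extend ht hD hL ht1.le ht2 htilt hsmall c x y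
  rw [hh] at hq
  simp only [q] at hq
  linarith

end Vale.Agent.P165.TreeAct
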