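import Mathlib
import Vale.Agent.P165.TreeAct.Defs

/-!
Half-trees of an arbitrary tree: crossing an edge, nesting, the four positions of two half-trees,
and the half-trees separating two points.
-/

namespace Vale.Agent.P165.TreeAct

open SimpleGraph

variable {τ : Type} {T : SimpleGraph τ}

/-- Paths of a tree are shortest. -/
lemma path_length_eq_dist (hT : T.IsTree) {x y : τ} {p : T.Walk x y} (hp : p.IsPath) :
    p.length = T.dist x y := by
  obtain ⟨q, hq, hl⟩ := hT.connected.exists_path_of_dist x y
  rw [(hT.existsUnique_path x y).unique hp hq, hl]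

/-- A vertex of a shortest walk splits the distance. -/
lemma dist_add_of_mem_support (hT : T.IsTree) {x y u : τ} {p : T.Walk x y}
    (hp : p.length = T.dist x y) (hu : u ∈ p.support) :
    T.dist x u + T.dist u y = T.dist x y := by
  classical
  refine le_antisymm ?_ hT.connected.dist_triangle
  have h1 := dist_le (p.takeUntil u hu)
  have h2 := dist_le (p.dropUntil u hu)
  have h3 := congrArg Walk.length (p.take_spec hu)
  rw [Walk.length_append] at h3
  omega

namespace Half

variable {h k : Half T}

lemma mem_side {x : τ} : x ∈ h.side ↔ T.dist x h.snd < T.dist x h.fst := Iff.rfl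

lemma snd_mem (h : Half T) : h.snd ∈ h.side := by
  rw [mem_side, dist_self, SimpleGraph.dist_eq_one_iff_adj.2 h.adj.symm]
  exact one_pos

lemma fst_notMem (h : Half T) : h.fst ∉ h.side := by
  rw [mem_side, dist_self]
  exact Nat.not_lt_zero _

lemma op_op (h : Half T) : h.op.op = h := rfl

lemma op_fst (h : Half T) : h.op.fst = h.snd := rfl

lemma op_snd (h : Half T) : h.op.snd = h.fst := rfl

lemma side_nonempty (h : Half T) : h.side.Nonempty := ⟨_, h.snd_mem⟩

variable (hT : T.IsTree)
include hT

lemma mem_iff_succ {x : τ} : x ∈ h.side ↔ T.dist x h.fst = T.dist x h.snd + 1 := by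
  rw [mem_side]
  rcases hT.dist_eq_dist_add_one_of_adj x h.adj with h' | h' <;> omega

lemma notMem_iff_succ {x : τ} : x ∉ h.side ↔ T.dist x h.snd = T.dist x h.fst + 1 := by
  rw [mem_side]
  rcases hT.dist_eq_dist_add_one_of_adj x h.adj with h' | h' <;> omega

lemma op_side (h : Half T) : h.op.side = h.sideᶜ := by
  ext x
  rw [Set.mem_compl_iff, mem_side, mem_side]
  rcases hT.dist_eq_dist_add_one_of_adj x h.adj with h' | h' <;>
    simp only [op_fst, op_snd] <;> omega

lemma mem_op {x : τ} : x ∈ h.op.side ↔ x ∉ h.side := by rw [op_side hT]; rfl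

lemma support_subset {x u : τ} (hx : x ∈ h.side) {p : T.Walk x h.snd}
    (hp : p.length = T.dist x h.snd) (hu : u ∈ p.support) : u ∈ h.side := by
  by_contra hn
  have h1 := (notMem_iff_succ hT).1 hn
  have h2 := (mem_iff_succ hT).1 hx
  have h3 := dist_add_of_mem_support hT hp hu
  have h4 := hT.connected.dist_triangle (u := x) (v := u) (w := h.fst)
  omega

/-- Going from one side of an edge to the other passes through the edge. -/
lemma dist_cross {x y : τ} (hx : x ∈ h.side) (hy : y ∉ h.side) :
    T.dist x y = T.dist x h.snd + 1 + T.dist h.fst y := by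
  obtain ⟨p, hp, hpl⟩ := hT.connected.exists_path_of_dist x h.snd
  obtain ⟨q, hq, hql⟩ := hT.connected.exists_path_of_dist y h.fst
  have hy' : y ∈ h.op.side := (mem_op hT).2 hy
  have hqs : ∀ u ∈ q.support, u ∉ h.side := fun u hu =>
    (mem_op hT).1 (support_subset (h := h.op) hT hy' (p := q) hql hu)
  have hps : ∀ u ∈ p.support, u ∈ h.side := fun u hu => support_subset hT hx hpl hu
  have hr : (p.append (Walk.cons h.adj.symm q.reverse)).IsPath := by
    rw [Walk.isPath_def, Walk.support_append]
    refine List.Nodup.append (Walk.isPath_def _ |>.1 hp) ?_ ?_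
    · simpa using Walk.isPath_def _ |>.1 hq.reverse
    · intro u hu hu'
      simp only [Walk.support_cons, List.tail_cons, Walk.support_reverse, List.mem_reverse] at hu'
      exact hqs u hu' (hps u hu)
  have hl := path_length_eq_dist hT hr
  rw [Walk.length_append, Walk.length_cons, Walk.length_reverse, hpl, hql] at hl
  rw [← hl, T.dist_comm (u := y)]
  ring

lemma dist_fst {x : τ} (hx : x ∈ h.side) : T.dist h.fst x = T.dist h.snd x + 1 := by
  rw [T.dist_comm, (mem_iff_succ hT).1 hx, T.dist_comm]

/-- An edge with ends on the two sides of `h` is `h`. -/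
lemma eq_of_adj {x y : τ} (hxy : T.Adj x y) (hx : x ∈ h.side) (hy : y ∉ h.side) :
    x = h.snd ∧ y = h.fst := by
  have h1 := dist_cross hT hx hy
  rw [SimpleGraph.dist_eq_one_iff_adj.2 hxy] at h1
  exact ⟨hT.connected.dist_eq_zero_iff.1 (by omega),
    (hT.connected.dist_eq_zero_iff.1 (by omega)).symm⟩

/-- A half-tree which starts inside another and points away from its base lies inside it. -/
lemma nested (h1 : k.fst ∈ h.side) (h2 : h.fst ∉ k.side) :
    k.side ⊆ h.side ∧
      ∀ u ∈ k.side, T.dist h.fst u = T.dist h.fst k.fst + T.dist k.fst u := by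
  have key : ∀ u ∈ k.side, T.dist h.fst u = T.dist h.fst k.fst + T.dist k.fst u := by
    intro u hu
    have h3 := dist_cross hT hu h2
    rw [dist_fst hT hu, T.dist_comm (u := h.fst), h3, T.dist_comm (u := u),
      T.dist_comm (u := k.fst)]
    omega
  refine ⟨fun u hu => ?_, key⟩
  rw [mem_side]
  have h4 := key u hu
  have h5 := dist_fst hT h1
  have h6 := hT.connected.dist_triangle (u := u) (v := k.fst) (w := h.snd)
  rw [T.dist_comm (u := u) (v := k.fst), T.dist_comm (u := k.fst) (v := h.snd)] at h6
  rw [T.dist_comm (u := u) (v := h.fst)]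
  omega

lemma subset_iff : k.side ⊆ h.side ↔ k = h ∨ (k.fst ∈ h.side ∧ h.fst ∉ k.side) := by
  constructor
  · intro hs
    by_cases h1 : k.fst ∈ h.side
    · exact Or.inr ⟨h1, fun h2 => h.fst_notMem (hs h2)⟩
    · obtain ⟨e1, e2⟩ := eq_of_adj hT k.adj.symm (hs k.snd_mem) h1
      exact Or.inl (Half.ext e2 e1)
  · rintro (rfl | ⟨h1, h2⟩)
    · exact Set.Subset.rfl
    · exact (nested hT h1 h2).1

lemma side_injective : Function.Injective (Half.side (T := T)) := by
  intro k h e
  rcases (subset_iff hT).1 e.subset with rfl | ⟨h1, h2⟩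
  · rfl
  · exact absurd (e ▸ h1) k.fst_notMem

/-- Deeper half-trees see a point at a smaller depth. -/
lemma dist_le_of_subset (hs : k.side ⊆ h.side) {u : τ} (hu : u ∈ k.side) :
    T.dist k.fst u ≤ T.dist h.fst u := by
  rcases (subset_iff hT).1 hs with rfl | ⟨h1, h2⟩
  · rfl
  · exact (Nat.le_add_left _ _).trans ((nested hT h1 h2).2 u hu).ge

/-- The four positions of two half-trees. -/
lemma cases (h k : Half T) : k.side ⊆ h.side ∨ h.side ⊆ k.side ∨ Disjoint h.side k.side ∨
    h.sideᶜ ⊆ k.side := by
  by_cases h1 : k.fst ∈ h.side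
  · by_cases h2 : h.fst ∈ k.side
    · refine Or.inr (Or.inr (Or.inr ?_))
      by_cases h3 : k.snd ∈ h.side
      · have := (nested hT (k := k.op) h3 (fun hh => (mem_op hT).1 hh h2)).1
        rw [op_side hT, Set.compl_subset_comm] at this
        exact this
      · obtain ⟨e1, e2⟩ := eq_of_adj hT k.adj h1 h3
        rw [← op_side hT]
        exact (congrArg Half.side (show h.op = k from Half.ext e1.symm e2.symm)).subset
    · exact Or.inl (nested hT h1 h2).1
  · by_cases h3 : k.snd ∈ h.side
    · obtain ⟨e1, e2⟩ := eq_of_adj hT k.adj.symm h3 h1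
      exact Or.inl (congrArg Half.side (show k = h from Half.ext e2 e1)).subset
    · by_cases h2 : h.snd ∈ k.side
      · refine Or.inr (Or.inl ?_)
        have := (nested hT (h := h.op) (k := k.op) ((mem_op hT).2 h3)
          (fun hh => (mem_op hT).1 hh h2)).1
        rw [op_side hT, op_side hT, Set.compl_subset_compl] at this
        exact this
      · refine Or.inr (Or.inr (Or.inl ?_))
        have := (nested hT (h := h.op) (k := k) ((mem_op hT).2 h1) h2).1
        rw [op_side hT] at this
        exact disjoint_compl_right.mono_right this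

lemma subset_or_subset {u c : τ} (hu : u ∈ h.side) (hu' : u ∈ k.side) (hc : c ∉ h.side)
    (hc' : c ∉ k.side) : k.side ⊆ h.side ∨ h.side ⊆ k.side := by
  rcases cases hT h k with h' | h' | h' | h'
  · exact Or.inl h'
  · exact Or.inr h'
  · exact absurd hu' (Set.disjoint_left.1 h' hu)
  · exact absurd (h' hc) hc'

/-- Going into a smaller half-tree from outside moves its base away. -/
lemma dist_lt_of_ssubset (hs : k.side ⊆ h.side) (hne : k ≠ h) {c : τ} (hc : c ∉ h.side) :
    T.dist c h.fst < T.dist c k.fst := by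
  rcases (subset_iff hT).1 hs with rfl | ⟨h1, -⟩
  · exact absurd rfl hne
  · rw [T.dist_comm (u := c) (v := k.fst), dist_cross hT h1 hc, T.dist_comm (u := h.fst)]
    omega

/-- Two half-trees with a common point, away from `c` and at one distance from it, are equal. -/
lemma eq_of_dist_eq {u c : τ} (hu : u ∈ h.side) (hu' : u ∈ k.side) (hc : c ∉ h.side)
    (hc' : c ∉ k.side) (hd : T.dist c h.fst = T.dist c k.fst) : h = k := by
  by_contra hne
  rcases subset_or_subset hT hu hu' hc hc' with h' | h'
  · exact absurd (dist_lt_of_ssubset hT h' (Ne.symm hne) hc) hd.not_lt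
  · exact absurd (dist_lt_of_ssubset hT h' hne hc') hd.not_gt

lemma dist_fst_lt {u c : τ} (hu : u ∈ h.side) (hc : c ∉ h.side) :
    T.dist c h.fst < T.dist c u := by
  rw [T.dist_comm (u := c) (v := u), dist_cross hT hu hc, T.dist_comm (u := c)]
  omega

/-- At most `dist c u` half-trees contain `u` and not `c`. -/
lemma card_sep_le {u c : τ} (A : Finset (Half T))
    (hA : ∀ k ∈ A, u ∈ k.side ∧ c ∉ k.side) : A.card ≤ T.dist c u := by
  classical
  have := Finset.card_le_card_of_injOn (s := A) (t := Finset.range (T.dist c u))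
    (fun k => T.dist c k.fst)
    (fun k hk => Finset.mem_range.2 (dist_fst_lt hT (hA k hk).1 (hA k hk).2))
    (fun k hk l hl e => eq_of_dist_eq hT (hA k hk).1 (hA l hl).1 (hA k hk).2 (hA l hl).2 e)
  simpa using this

lemma sep_finite (u c : τ) : {k : Half T | u ∈ k.side ∧ c ∉ k.side}.Finite := by
  refine Set.Finite.of_finite_image (f := fun k => T.dist c k.fst)
    ((Set.finite_lt_nat (T.dist c u)).subset ?_) ?_
  · rintro _ ⟨k, ⟨h1, h2⟩, rfl⟩
    exact dist_fst_lt hT h1 h2
  · exact fun k hk l hl e => eq_of_dist_eq hT hk.1 hl.1 hk.2 hl.2 e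

/-- The half-tree at each place of the geodesic from `c` to `x`. -/
lemma exists_node {c x : τ} {i : ℕ} (hi : i < T.dist c x) :
    ∃ k : Half T, x ∈ k.side ∧ c ∉ k.side ∧ T.dist c k.fst = i ∧
      T.dist k.fst x = T.dist c x - i := by
  obtain ⟨p, -, hl⟩ := hT.connected.exists_path_of_dist c x
  set n := T.dist c x
  have hd : ∀ j ≤ n, T.dist c (p.getVert j) = j ∧ T.dist (p.getVert j) x = n - j := by
    intro j hj
    have h1 : T.dist c (p.getVert j) ≤ j := (dist_le (p.take j)).trans (by simp)
    have h2 : T.dist (p.getVert j) x ≤ n - j := (dist_le (p.drop j)).trans (by simp [hl])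
    have h3 : n ≤ T.dist c (p.getVert j) + T.dist (p.getVert j) x := hT.connected.dist_triangle
    omega
  obtain ⟨a1, a2⟩ := hd i hi.le
  obtain ⟨b1, b2⟩ := hd (i + 1) hi
  refine ⟨⟨p.getVert i, p.getVert (i + 1), p.adj_getVert_succ (by omega)⟩, ?_, ?_, a1, a2⟩
  · rw [mem_side, T.dist_comm (u := x), T.dist_comm (u := x)]
    dsimp only
    omega
  · rw [mem_side]
    dsimp only
    omega

end Half

end Vale.Agent.P165.TreeAct
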