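import Mathlib
import Vale.Agent.P165.TreeAct.TreeGeom
import Vale.Agent.P165.Large.Ev

/-!
The action of the group of a frame: on the tree, on half-trees, on the graph and on events.
-/

namespace Vale.Agent.P165.TreeAct

open MeasureTheory SimpleGraph
open Large (joins mem_joins)

variable {V τ Γ : Type} [Group Γ] [MulAction Γ V] [MulAction Γ τ] (f : Frame V τ Γ)

include f in
lemma Frame.countable : Countable V := countable_of_connected f.connected

/-- Translation of the tree as an isomorphism. -/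
def Frame.tIso (g : Γ) : f.T ≃g f.T where
  toEquiv := MulAction.toPerm g
  map_rel_iff' := by
    intro a b
    refine ⟨fun h => ?_, f.tadj g a b⟩
    have := f.tadj g⁻¹ _ _ h
    simpa using this

/-- Translation of the graph as an isomorphism. -/
def Frame.hIso (g : Γ) : f.H ≃g f.H where
  toEquiv := MulAction.toPerm g
  map_rel_iff' := by
    intro a b
    refine ⟨fun h => ?_, f.hadj g a b⟩
    have := f.hadj g⁻¹ _ _ h
    simpa using this

lemma Frame.dist_smul (g : Γ) (x y : τ) : f.T.dist (g • x) (g • y) = f.T.dist x y := by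
  have key : ∀ (g : Γ) (x y : τ), f.T.dist (g • x) (g • y) ≤ f.T.dist x y := fun g x y => by
    obtain ⟨q, hq⟩ := f.tree.connected.exists_walk_length_eq_dist x y
    have := dist_le (q.map (f.tIso g).toHom)
    rw [Walk.length_map, hq] at this
    exact this
  refine le_antisymm (key g x y) ?_
  have := key g⁻¹ (g • x) (g • y)
  simpa using this

lemma Frame.mem_sm {g : Γ} {h : Half f.T} {x : τ} :
    x ∈ (f.sm g h).side ↔ g⁻¹ • x ∈ h.side := by
  have e : ∀ y, f.T.dist x (g • y) = f.T.dist (g⁻¹ • x) y := fun y => by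
    rw [← f.dist_smul g (g⁻¹ • x) y, smul_inv_smul]
  simp only [Half.mem_side, Frame.sm, e]

lemma Frame.smul_mem_sm {g : Γ} {h : Half f.T} {x : τ} :
    g • x ∈ (f.sm g h).side ↔ x ∈ h.side := by
  rw [f.mem_sm, inv_smul_smul]

lemma Frame.sm_side (g : Γ) (h : Half f.T) :
    (f.sm g h).side = (fun x : τ => g • x) '' h.side := by
  ext x
  rw [f.mem_sm]
  exact ⟨fun hx => ⟨_, hx, smul_inv_smul g x⟩, fun ⟨y, hy, e⟩ => by
    rw [← e, inv_smul_smul]; exact hy⟩

lemma Frame.sm_one (h : Half f.T) : f.sm 1 h = h := by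
  ext <;> simp [Frame.sm]

lemma Frame.sm_mul (a b : Γ) (h : Half f.T) : f.sm (a * b) h = f.sm a (f.sm b h) := by
  ext <;> simp [Frame.sm, mul_smul]

lemma Frame.sm_inv_sm (g : Γ) (h : Half f.T) : f.sm g⁻¹ (f.sm g h) = h := by
  rw [← f.sm_mul, inv_mul_cancel, f.sm_one]

lemma Frame.sm_sm_inv (g : Γ) (h : Half f.T) : f.sm g (f.sm g⁻¹ h) = h := by
  rw [← f.sm_mul, mul_inv_cancel, f.sm_one]

lemma Frame.sm_op (g : Γ) (h : Half f.T) : f.sm g h.op = (f.sm g h).op := rfl

lemma Frame.sm_subset {g : Γ} {h k : Half f.T} (hs : k.side ⊆ h.side) :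
    (f.sm g k).side ⊆ (f.sm g h).side := by
  rw [f.sm_side, f.sm_side]
  exact Set.image_mono hs

lemma Frame.sm_disjoint {g : Γ} {h k : Half f.T} (hd : Disjoint h.side k.side) :
    Disjoint (f.sm g h).side (f.sm g k).side :=
  Set.disjoint_left.2 fun _ hx hy => Set.disjoint_left.1 hd (f.mem_sm.1 hx) (f.mem_sm.1 hy)

lemma Frame.exists_sm (h : Half f.T) : ∃ g : Γ, h = f.sm g f.e₀ ∨ h = f.sm g f.e₀.op := by
  obtain ⟨g, ⟨h1, h2⟩ | ⟨h1, h2⟩⟩ := f.trans h
  · exact ⟨g, Or.inl (Half.ext h1.symm h2.symm)⟩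
  · exact ⟨g, Or.inr (Half.ext h2.symm h1.symm)⟩

/-- The largest displacement in the tree along an edge. -/
noncomputable def Frame.L : ℕ :=
  f.O.sup fun o => (f.H.neighborFinset o).sup fun u => f.T.dist (f.pr o) (f.pr u)

lemma Frame.hL {u v : V} (h : f.H.Adj u v) : f.T.dist (f.pr u) (f.pr v) ≤ f.L := by
  obtain ⟨o, ho, g, rfl⟩ := f.hO u
  have hv : f.H.Adj o (g⁻¹ • v) := by simpa using f.hadj g⁻¹ _ _ h
  refine le_trans (le_of_eq ?_) ((Finset.le_sup (f := fun u => f.T.dist (f.pr o) (f.pr u))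
    ((mem_neighborFinset _ _ _).2 hv)).trans
      (Finset.le_sup (f := fun o => (f.H.neighborFinset o).sup
        fun u => f.T.dist (f.pr o) (f.pr u)) ho))
  rw [f.equiv g⁻¹ v, ← f.dist_smul g (f.pr o), smul_inv_smul, f.equiv]

lemma Frame.walk_dist {u v : V} (q : f.H.Walk u v) :
    f.T.dist (f.pr u) (f.pr v) ≤ f.L * q.length := by
  induction q with
  | nil => simp
  | @cons a b c hab q ih =>
    rw [Walk.length_cons]
    have h1 := f.hL hab
    have h2 := f.tree.connected.dist_triangle (u := f.pr a) (v := f.pr b) (w := f.pr c)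
    rw [Nat.mul_succ]
    omega

lemma Frame.dist_support {u v w : V} (q : f.H.Walk u v) (hw : w ∈ q.support) :
    f.T.dist (f.pr u) (f.pr w) ≤ f.L * q.length := by
  classical
  exact (f.walk_dist (q.takeUntil w hw)).trans
    (Nat.mul_le_mul_left _ (q.length_takeUntil_le_length hw))

/-- Translated walks. -/
def Frame.moveWalk (g : Γ) {u v : V} (q : f.H.Walk u v) : f.H.Walk (g • u) (g • v) :=
  q.map (f.hIso g).toHom

lemma Frame.length_moveWalk (g : Γ) {u v : V} (q : f.H.Walk u v) :
    (f.moveWalk g q).length = q.length :=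
  Walk.length_map _ _

lemma Frame.mem_moveWalk (g : Γ) {u v w : V} (q : f.H.Walk u v) :
    w ∈ (f.moveWalk g q).support ↔ g⁻¹ • w ∈ q.support := by
  erw [Walk.support_map, List.mem_map]
  exact ⟨fun ⟨a, ha, e⟩ => by rw [← e]; simpa [Frame.hIso] using ha,
    fun h => ⟨_, h, by simp [Frame.hIso]⟩⟩

include f in
/-- Events read in translated coordinates have the same probability. -/
lemma Frame.perc_joins_smul {q : unitInterval} (g : Γ) {K K' : SimpleGraph V} (x : V) (U : Set V)
    (hK : ∀ a b, K.Adj a b ↔ K'.Adj (g • a) (g • b)) :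
    perc V q (joins K' (g • x) ((fun v : V => g • v) '' U)) = perc V q (joins K x U) := by
  classical
  have := f.countable
  have hm : ∀ (K : SimpleGraph V) x U, MeasurableSet (joins K x U) :=
    fun K x U => Large.measurableSet_joins K x U
  conv_rhs => rw [← perc_map (MulAction.toPerm (α := Γ) (β := V) g)]
  rw [Measure.map_apply (measurable_pi_lambda _ fun _ => measurable_pi_apply _) (hm K x U)]
  congr 1
  ext ω
  let e : openGraph K (fun a => ω (Sym2.map (MulAction.toPerm (α := Γ) (β := V) g) a))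
      ≃g openGraph K' ω :=
    { toEquiv := MulAction.toPerm g
      map_rel_iff' := by
        intro a b
        simp [openGraph, hK a b] }
  have hr : ∀ y, (openGraph K' ω).Reachable (g • x) (g • y) ↔
      (openGraph K (fun a => ω (Sym2.map (MulAction.toPerm (α := Γ) (β := V) g) a))).Reachable x y :=
    fun y => Iso.reachable_iff (φ := e)
  simp only [mem_joins, Set.mem_preimage, conn, Set.mem_ofPred_eq, Set.mem_image]
  constructor
  · rintro ⟨_, ⟨y, hy, rfl⟩, h⟩
    exact ⟨y, hy, (hr y).1 h⟩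
  · rintro ⟨y, hy, h⟩
    exact ⟨_, ⟨y, hy, rfl⟩, (hr y).2 h⟩

include f in
lemma Frame.perc_conn_smul {q : unitInterval} (g : Γ) {K K' : SimpleGraph V} (x y : V)
    (hK : ∀ a b, K.Adj a b ↔ K'.Adj (g • a) (g • b)) :
    perc V q (conn K' (g • x) (g • y)) = perc V q (conn K x y) := by
  have h := f.perc_joins_smul (q := q) g x {y} hK
  rwa [Set.image_singleton, Large.joins_singleton, Large.joins_singleton] at h

lemma Frame.hadj_iff (g : Γ) (a b : V) : f.H.Adj a b ↔ f.H.Adj (g • a) (g • b) :=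
  ((f.hIso g).map_adj_iff (v := a) (w := b)).symm

end Vale.Agent.P165.TreeAct
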