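import Mathlib
import Vale.Agent.P165.TreeAct.Frame

/-!
Translates of half-trees inside half-trees: every half-tree contains four disjoint translates of
each half-tree away from a given point, translates as deep as desired, and the four ends of two
ping-pong elements.
-/

namespace Vale.Agent.P165.TreeAct

open SimpleGraph

variable {V τ Γ : Type} [Group Γ] [MulAction Γ V] [MulAction Γ τ] (f : Frame V τ Γ)

lemma Frame.sub₁ : (f.sm f.γ₁ f.e₀).side ⊂ f.e₀.side := by rw [f.sm_side]; exact f.hγ₁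

lemma Frame.sub₂ : (f.sm f.γ₂ f.e₀).side ⊂ f.e₀.side := by rw [f.sm_side]; exact f.hγ₂

lemma Frame.disj₁₂ : Disjoint (f.sm f.γ₁ f.e₀).side (f.sm f.γ₂ f.e₀).side := by
  rw [f.sm_side, f.sm_side]; exact f.hγ

lemma Frame.subψ : (f.sm f.ψ f.e₀.op).side ⊂ f.e₀.side := by
  rw [f.sm_side, Half.op_side f.tree]; exact f.hψ

/-- A translate of the basic half-tree lies in every half-tree. -/
lemma Frame.exists_basic (g : Half f.T) : ∃ γ : Γ, (f.sm γ f.e₀).side ⊆ g.side := by
  obtain ⟨δ, rfl | rfl⟩ := f.exists_sm g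
  · exact ⟨δ, subset_rfl⟩
  · refine ⟨δ * (f.γ₁⁻¹ * f.γ₂), ?_⟩
    rw [f.sm_mul, f.sm_mul]
    refine f.sm_subset fun x hx => (Half.mem_op f.tree).2 fun he => ?_
    have h1 : f.γ₁ • x ∈ (f.sm f.γ₂ f.e₀).side := by
      have := f.mem_sm.1 hx
      rwa [inv_inv] at this
    exact Set.disjoint_left.1 f.disj₁₂ (f.smul_mem_sm.2 he) h1

/-- Five disjoint translates of the basic half-tree inside it. -/
lemma Frame.exists_five : ∃ η : Fin 5 → Γ,
    (∀ i, (f.sm (η i) f.e₀).side ⊂ f.e₀.side) ∧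
    ∀ i j, i ≠ j → Disjoint (f.sm (η i) f.e₀).side (f.sm (η j) f.e₀).side := by
  have down : ∀ {a b : Γ}, (f.sm b f.e₀).side ⊆ f.e₀.side →
      (f.sm (a * b) f.e₀).side ⊆ (f.sm a f.e₀).side := fun {a b} hb => by
    rw [f.sm_mul]; exact f.sm_subset hb
  have s1 := f.sub₁.subset
  have s2 := f.sub₂.subset
  have d12 := f.disj₁₂
  have i11 := down (a := f.γ₁) s1
  have i12 := down (a := f.γ₁) s2
  have i21 := down (a := f.γ₂) s1
  have i22 := down (a := f.γ₂) s2
  have i111 := down (a := f.γ₁ * f.γ₁) s1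
  have i112 := down (a := f.γ₁ * f.γ₁) s2
  have dd : ∀ a : Γ, Disjoint (f.sm (a * f.γ₁) f.e₀).side (f.sm (a * f.γ₂) f.e₀).side :=
    fun a => by rw [f.sm_mul, f.sm_mul]; exact f.sm_disjoint d12
  refine ⟨![f.γ₁ * f.γ₁ * f.γ₁, f.γ₁ * f.γ₁ * f.γ₂, f.γ₁ * f.γ₂, f.γ₂ * f.γ₁, f.γ₂ * f.γ₂],
    ?_, ?_⟩
  · simp only [Fin.forall_fin_succ, Matrix.cons_val_zero, Matrix.cons_val_succ,
      IsEmpty.forall_iff, and_true]
    exact ⟨(i111.trans i11).trans_ssubset f.sub₁, (i112.trans i11).trans_ssubset f.sub₁,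
      i12.trans_ssubset f.sub₁, i21.trans_ssubset f.sub₂, i22.trans_ssubset f.sub₂⟩
  · have e01 := dd (f.γ₁ * f.γ₁)
    have e02 := (dd f.γ₁).mono_left i111
    have e12' := (dd f.γ₁).mono_left i112
    have e03 := d12.mono (i111.trans i11) i21
    have e04 := d12.mono (i111.trans i11) i22
    have e13 := d12.mono (i112.trans i11) i21
    have e14 := d12.mono (i112.trans i11) i22
    have e23 := d12.mono i12 i21
    have e24 := d12.mono i12 i22
    have e34 := dd f.γ₂
    intro i j hne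
    fin_cases i <;> fin_cases j <;> first
      | exact absurd rfl hne
      | assumption
      | exact Disjoint.symm (by assumption)

/-- A half-tree has four disjoint proper translates of any half-tree away from a given point. -/
lemma Frame.exists_four (g h : Half f.T) (u : τ) : ∃ η : Fin 4 → Γ,
    (∀ i, (f.sm (η i) h).side ⊂ g.side ∧ u ∉ (f.sm (η i) h).side) ∧
    ∀ i j, i ≠ j → Disjoint (f.sm (η i) h).side (f.sm (η j) h).side := by
  obtain ⟨β, hβ⟩ := f.exists_basic g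
  obtain ⟨η, hη, hd⟩ := f.exists_five
  obtain ⟨ω, hω⟩ : ∃ ω : Γ, (f.sm ω h).side ⊆ f.e₀.side := by
    obtain ⟨δ, rfl | rfl⟩ := f.exists_sm h
    · exact ⟨δ⁻¹, by rw [f.sm_inv_sm]⟩
    · exact ⟨f.ψ * δ⁻¹, by rw [f.sm_mul, f.sm_inv_sm]; exact f.subψ.subset⟩
  have hin : ∀ i, (f.sm (β * η i * ω) h).side ⊆ (f.sm β (f.sm (η i) f.e₀)).side := fun i => by
    rw [f.sm_mul, f.sm_mul]
    exact f.sm_subset (f.sm_subset hω)
  have hdj : ∀ i j, i ≠ j →
      Disjoint (f.sm (β * η i * ω) h).side (f.sm (β * η j * ω) h).side :=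
    fun i j hij => (f.sm_disjoint (hd i j hij)).mono (hin i) (hin j)
  have hpr : ∀ i, (f.sm (β * η i * ω) h).side ⊂ g.side := fun i => by
    refine (hin i).trans_ssubset (lt_of_lt_of_le ?_ hβ)
    rw [f.sm_side β, f.sm_side β]
    exact (MulAction.injective β).image_strictMono (hη i)
  obtain ⟨s, hs⟩ : ∃ s : Fin 5, ∀ i, i ≠ s → u ∉ (f.sm (β * η i * ω) h).side := by
    by_cases hu : ∃ s, u ∈ (f.sm (β * η s * ω) h).side
    · obtain ⟨s, hs⟩ := hu
      exact ⟨s, fun i hi hi' => Set.disjoint_left.1 (hdj i s hi) hi' hs⟩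
    · exact ⟨0, fun i _ hi => hu ⟨i, hi⟩⟩
  exact ⟨fun i => β * η (s.succAbove i) * ω,
    fun i => ⟨hpr _, hs _ (Fin.succAbove_ne s i)⟩,
    fun i j hij => hdj _ _ fun e => hij (Fin.succAbove_right_injective e)⟩

/-- Translates of a half-tree as deep as desired in another. -/
lemma Frame.exists_deep (h : Half f.T) : ∀ (n : ℕ) (g : Half f.T) (u : τ), ∃ γ : Γ,
    (f.sm γ h).side ⊆ g.side ∧ u ∉ (f.sm γ h).side ∧
    n ≤ f.T.dist g.fst (f.sm γ h).fst ∧ (f.sm γ h).fst ∈ g.side := by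
  intro n
  induction n with
  | zero =>
    intro g u
    obtain ⟨η, hη, -⟩ := f.exists_four g h u
    obtain ⟨h1, h2⟩ := hη 0
    rcases (Half.subset_iff f.tree).1 h1.subset with e | ⟨h3, -⟩
    · exact absurd (congrArg Half.side e) h1.ne
    · exact ⟨_, h1.subset, h2, Nat.zero_le _, h3⟩
  | succ n ih =>
    intro g u
    obtain ⟨γ, hs, hu, hn, hf⟩ := ih g u
    obtain ⟨η, hη, -⟩ := f.exists_four (f.sm γ h) h u
    obtain ⟨h1, h2⟩ := hη 0
    rcases (Half.subset_iff f.tree).1 h1.subset with e | ⟨h3, -⟩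
    · exact absurd (congrArg Half.side e) h1.ne
    · have hgk : g.fst ∉ (f.sm γ h).side := fun h' => g.fst_notMem (hs h')
      have h4 := (Half.nested f.tree hf hgk).2 _ h3
      have h5 := Half.dist_fst f.tree h3
      exact ⟨_, h1.subset.trans hs, h2, by omega, hs h3⟩

/-- Every point of the tree has two branches. -/
lemma Frame.exists_branches (p : τ) : ∃ b : Fin 2 → Half f.T,
    (∀ i, (b i).fst = p) ∧ Disjoint (b 0).side (b 1).side := by
  have hnb : ∀ h : Half f.T, ∃ k : Half f.T, k.fst = h.snd ∧ k.snd ≠ h.fst ∧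
      Disjoint h.op.side k.side := by
    intro h
    obtain ⟨γ, -, -, hn, hf⟩ := f.exists_deep f.e₀ 2 h h.fst
    have hd := Half.dist_fst f.tree hf
    obtain ⟨k, hk1, hk2, hk3, -⟩ := Half.exists_node f.tree (c := h.snd)
      (x := (f.sm γ f.e₀).fst) (i := 0) (by omega)
    have e := f.tree.connected.dist_eq_zero_iff.1 hk3
    have hne : k.snd ≠ h.fst := by
      intro e'
      have hop : k = h.op := Half.ext e.symm e'
      rw [hop] at hk1
      exact (Half.mem_op f.tree).1 hk1 hf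
    refine ⟨k, e.symm, hne, ?_⟩
    have hk : k.fst ∈ h.side := e ▸ h.snd_mem
    have hh : h.fst ∉ k.side := by
      intro hh
      obtain ⟨e1, -⟩ := Half.eq_of_adj f.tree h.adj hh (e.symm ▸ k.fst_notMem)
      exact hne e1.symm
    rw [Half.op_side f.tree]
    exact disjoint_compl_left.mono_right (Half.nested f.tree hk hh).1
  obtain ⟨h, hh⟩ : ∃ h : Half f.T, h.snd = p := by
    rcases eq_or_ne f.e₀.fst p with e | hne
    · exact ⟨f.e₀.op, e⟩
    · obtain ⟨w⟩ := f.tree.connected.preconnected p f.e₀.fst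
      cases w with
      | nil => exact absurd rfl hne
      | cons hadj _ => exact ⟨⟨_, p, hadj.symm⟩, rfl⟩
  obtain ⟨k, hk, -, hd⟩ := hnb h
  exact ⟨![h.op, k], Fin.forall_fin_two.2 ⟨hh, hk.trans hh⟩, hd⟩

/-- Two ping-pong elements whose four ends avoid a given point. -/
lemma Frame.exists_pingpong (p : τ) : ∃ (k : Fin 4 → Half f.T) (c : Fin 4 → Γ),
    (∀ i j, i ≠ j → Disjoint (k i).side (k j).side) ∧ (∀ i, p ∉ (k i).side) ∧
    c 1 = (c 0)⁻¹ ∧ c 3 = (c 2)⁻¹ ∧
    ∀ i, ∀ n : ℕ, 1 ≤ n → (c i ^ n) • p ∈ (k i).side ∧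
      n ≤ f.T.dist (k i).fst ((c i ^ n) • p) := by
  obtain ⟨b, hb, -⟩ := f.exists_branches p
  obtain ⟨η, hη, hd⟩ := f.exists_four (b 0) f.e₀ p
  set k : Fin 4 → Half f.T := fun i => f.sm (η i) f.e₀ with hk
  have key : ∀ i j, i ≠ j → ∀ a : Γ, (f.sm a (k j).op).side ⊂ (k i).side → ∀ n : ℕ, 1 ≤ n →
      (a ^ n) • p ∈ (k i).side ∧ n ≤ f.T.dist (k i).fst ((a ^ n) • p) := by
    intro i j hij a ha
    have step : ∀ x, x ∉ (k j).side → a • x ∈ (k i).side ∧
        (x ∈ (k i).side → f.T.dist (k i).fst x < f.T.dist (k i).fst (a • x)) ∧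
        1 ≤ f.T.dist (k i).fst (a • x) := by
      intro x hx
      have hax : a • x ∈ (f.sm a (k j).op).side :=
        f.smul_mem_sm.2 ((Half.mem_op f.tree).2 hx)
      refine ⟨ha.subset hax, fun hxi => ?_, ?_⟩
      · rcases (Half.subset_iff f.tree).1 ha.subset with e | ⟨h1, h2⟩
        · exact absurd (congrArg Half.side e) ha.ne
        · have h3 := (Half.nested f.tree h1 h2).2 _ hax
          have h4 := Half.dist_fst f.tree h1
          have h5 : f.T.dist (f.sm a (k j).op).fst (a • x) = f.T.dist (k j).snd x :=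
            f.dist_smul a _ _
          have hjs : (k j).snd ∉ (k i).side := fun h' =>
            Set.disjoint_left.1 (hd i j hij) h' (k j).snd_mem
          have h6 := Half.dist_cross f.tree hxi hjs
          rw [f.T.dist_comm (u := x) (v := (k j).snd), ← (Half.mem_iff_succ f.tree).1 hxi,
            f.T.dist_comm (u := x) (v := (k i).fst)] at h6
          omega
      · have := Half.dist_fst f.tree (ha.subset hax)
        omega
    intro n hn
    induction n, hn using Nat.le_induction with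
    | base =>
      rw [pow_one]
      exact ⟨(step p (hη j).2).1, (step p (hη j).2).2.2⟩
    | succ n hn ih =>
      have hnj : (a ^ n) • p ∉ (k j).side := Set.disjoint_left.1 (hd i j hij) ih.1
      have h := step _ hnj
      rw [pow_succ', mul_smul]
      exact ⟨h.1, by have := h.2.1 ih.1; have := ih.2; omega⟩
  have mk : ∀ i j : Fin 4, (f.sm (η i * f.ψ * (η j)⁻¹) (k j).op).side ⊂ (k i).side ∧
      (f.sm (η i * f.ψ * (η j)⁻¹)⁻¹ (k i).op).side ⊂ (k j).side := by
    intro i j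
    have h1 : (f.sm f.ψ f.e₀.op).side ⊂ f.e₀.side := f.subψ
    constructor
    · rw [hk, ← f.sm_op (η j), f.sm_mul, f.sm_inv_sm, f.sm_mul, f.sm_side (η i),
        f.sm_side (η i)]
      exact (MulAction.injective (η i)).image_strictMono h1
    · have e : (η i * f.ψ * (η j)⁻¹)⁻¹ = η j * f.ψ⁻¹ * (η i)⁻¹ := by group
      rw [hk, e, ← f.sm_op (η i), f.sm_mul, f.sm_inv_sm, f.sm_mul, f.sm_side (η j),
        f.sm_side (η j)]
      refine (MulAction.injective (η j)).image_strictMono ?_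
      rw [f.sm_side, Half.op_side f.tree] at h1 ⊢
      have h2 := compl_lt_compl_iff_lt.2 ((MulAction.injective f.ψ⁻¹).image_strictMono h1)
      rw [← Set.image_comp, ← Set.image_compl_eq (MulAction.bijective f.ψ⁻¹)] at h2
      simpa [Function.comp_def] using h2
  refine ⟨k, ![η 0 * f.ψ * (η 1)⁻¹, (η 0 * f.ψ * (η 1)⁻¹)⁻¹,
    η 2 * f.ψ * (η 3)⁻¹, (η 2 * f.ψ * (η 3)⁻¹)⁻¹], hd, fun i => (hη i).2, rfl, rfl, ?_⟩
  intro i
  fin_cases i
  · exact key 0 1 (by decide) _ (mk 0 1).1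
  · exact key 1 0 (by decide) _ (mk 0 1).2
  · exact key 2 3 (by decide) _ (mk 2 3).1
  · exact key 3 2 (by decide) _ (mk 2 3).2

end Vale.Agent.P165.TreeAct
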