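import Mathlib
import Vale.Agent.P165.TreeAct.Defs

/-!
Mass transport for a group acting with finite stabiliser orbits which is unimodular on each orbit:
a sum over an orbit out of a point is a constant times a sum over an orbit into a point.
-/

namespace Vale.Agent.P165.TreeAct

open scoped ENNReal
open MulAction

variable {Γ V : Type} [Group Γ] [MulAction Γ V]

/-- The orbit of `w` under the stabiliser of `v`. -/
def stabOrbit (Γ : Type) {V : Type} [Group Γ] [MulAction Γ V] (v w : V) : Set V :=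
  {u | ∃ g : Γ, g • v = v ∧ g • w = u}

lemma stabOrbit_eq (v w : V) : stabOrbit Γ v w = orbit (stabilizer Γ v) w := by
  ext u
  exact ⟨fun ⟨g, h1, h2⟩ => ⟨⟨g, h1⟩, h2⟩, fun ⟨⟨g, h1⟩, h2⟩ => ⟨g, h1, h2⟩⟩

lemma ncard_stabOrbit (v w : V) :
    (stabOrbit Γ v w).ncard = (stabilizer Γ w).relIndex (stabilizer Γ v) := by
  rw [stabOrbit_eq, Subgroup.relIndex, ← MulAction.index_stabilizer]
  refine congrArg Subgroup.index ?_
  ext g
  rfl

lemma ncard_stabOrbit_smul (g : Γ) (v w : V) :
    (stabOrbit Γ (g • v) (g • w)).ncard = (stabOrbit Γ v w).ncard := by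
  have h : stabOrbit Γ (g • v) (g • w) = (g • ·) '' stabOrbit Γ v w := by
    ext u
    constructor
    · rintro ⟨k, h1, rfl⟩
      refine ⟨(g⁻¹ * k * g) • w, ⟨g⁻¹ * k * g, ?_, rfl⟩, ?_⟩
      · rw [mul_smul, mul_smul, h1, inv_smul_smul]
      · simp [mul_smul]
    · rintro ⟨u', ⟨k, h1, rfl⟩, rfl⟩
      exact ⟨g * k * g⁻¹, by simp [mul_smul, h1], by simp [mul_smul]⟩
  rw [h, Set.ncard_image_of_injective _ (MulAction.injective g)]

lemma stabOrbit_nonempty (v w : V) : (stabOrbit Γ v w).Nonempty := ⟨w, 1, by simp, by simp⟩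

/-- The ratio of the two orbit sizes of a pair is multiplicative. -/
lemma ncard_cocycle (hfin : ∀ v w : V, (stabOrbit Γ v w).Finite) (u v w : V) :
    (stabOrbit Γ u v).ncard * (stabOrbit Γ v w).ncard * (stabOrbit Γ w u).ncard =
      (stabOrbit Γ v u).ncard * (stabOrbit Γ w v).ncard * (stabOrbit Γ u w).ncard := by
  have ne : ∀ a b : V, (stabilizer Γ b).relIndex (stabilizer Γ a) ≠ 0 := fun a b => by
    rw [← ncard_stabOrbit]
    exact ((Set.ncard_pos (hfin a b)).2 (stabOrbit_nonempty a b)).ne'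
  set A := stabilizer Γ u
  set B := stabilizer Γ v
  set C := stabilizer Γ w
  have key : ∀ P Q R : Subgroup Γ, Q.relIndex P * R.relIndex (P ⊓ Q) = (Q ⊓ R).relIndex P :=
    fun P Q R => by
    have h := Subgroup.relIndex_mul_relIndex (P ⊓ Q ⊓ R) (P ⊓ Q) P inf_le_left inf_le_left
    rw [Subgroup.inf_relIndex_left, show P ⊓ Q ⊓ R = P ⊓ (Q ⊓ R) from inf_assoc _ _ _,
      Subgroup.inf_relIndex_left, Subgroup.inf_relIndex_left] at h
    rw [← h, mul_comm]
  have hne : ∀ P Q R : Subgroup Γ, Q.relIndex P ≠ 0 → R.relIndex P ≠ 0 → (Q ⊓ R).relIndex P ≠ 0 :=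
    fun P Q R h1 h2 => Subgroup.relIndex_inf_ne_zero h1 h2
  have step : ∀ P Q R : Subgroup Γ, Q.relIndex P * (P ⊓ R).relIndex Q =
      P.relIndex Q * (Q ⊓ R).relIndex P := fun P Q R => by
    rw [← key P Q R, ← key Q P R, inf_comm Q P]
    ring
  simp only [ncard_stabOrbit]
  have h1 := step A B C
  have h2 := step B C A
  have h3 := step C A B
  rw [inf_comm C A, inf_comm B A] at h2
  rw [inf_comm C B] at h3
  have hA : (B ⊓ C).relIndex A ≠ 0 := hne A B C (ne u v) (ne u w)
  have hB : (A ⊓ C).relIndex B ≠ 0 := hne B A C (ne v u) (ne v w)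
  have hC : (A ⊓ B).relIndex C ≠ 0 := hne C A B (ne w u) (ne w v)
  refine Nat.eq_of_mul_eq_mul_right
    (Nat.pos_of_ne_zero (mul_ne_zero (mul_ne_zero hA hB) hC)) ?_
  linear_combination
    (C.relIndex B * (A ⊓ B).relIndex C * (A.relIndex C * (B ⊓ C).relIndex A)) * h1 +
    (A.relIndex B * (B ⊓ C).relIndex A * (A.relIndex C * (B ⊓ C).relIndex A)) * h2 +
    (A.relIndex B * (B ⊓ C).relIndex A * (B.relIndex C * (A ⊓ C).relIndex B)) * h3

/-- Mass transport between two orbits. -/
theorem orbit_transport (hfin : ∀ v w : V, (stabOrbit Γ v w).Finite)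
    (huni : ∀ (g : Γ) (v : V), (stabOrbit Γ v (g • v)).ncard = (stabOrbit Γ (g • v) v).ncard)
    (F : V → V → ℝ≥0∞) (hF : ∀ (g : Γ) (a b : V), F (g • a) (g • b) = F a b) (o p : V) :
    ((stabOrbit Γ p o).ncard : ℝ≥0∞) * ∑' y : orbit Γ p, F o y =
      ((stabOrbit Γ o p).ncard : ℝ≥0∞) * ∑' x : orbit Γ o, F x p := by
  classical
  have pos : ∀ a b : V, (stabOrbit Γ a b).ncard ≠ 0 := fun a b =>
    ((Set.ncard_pos (hfin a b)).2 (stabOrbit_nonempty a b)).ne'
  set N : V → V → ℝ≥0∞ := fun a b => ((stabOrbit Γ a b).ncard : ℝ≥0∞) with hN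
  have N0 : ∀ a b, N a b ≠ 0 := fun a b => by simpa [hN] using pos a b
  have Nt : ∀ a b, N a b ≠ ⊤ := fun a b => ENNReal.natCast_ne_top _
  -- pairs in the same orbit of pairs
  let R : orbit Γ p → orbit Γ o → Prop := fun y x => ∃ g : Γ, g • o = (x : V) ∧ g • (y : V) = p
  have cardx : ∀ y : orbit Γ p, ∑' x : orbit Γ o, (if R y x then (1 : ℝ≥0∞) else 0) = N y o := by
    intro y
    obtain ⟨g₀, hg₀⟩ := mem_orbit_iff.1 y.2
    have e : {x : V | ∃ g : Γ, g • o = x ∧ g • (y : V) = p} = stabOrbit Γ p (g₀⁻¹ • o) := by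
      ext x
      constructor
      · rintro ⟨g, rfl, h⟩
        refine ⟨g * g₀, by rw [mul_smul, hg₀, h], by simp [mul_smul]⟩
      · rintro ⟨k, h1, rfl⟩
        refine ⟨k * g₀⁻¹, by simp [mul_smul], ?_⟩
        rw [← hg₀, mul_smul, inv_smul_smul, h1]
    have c : N y o = N p (g₀⁻¹ • o) := by
      simp only [hN]
      rw [← ncard_stabOrbit_smul g₀⁻¹ (y : V) o, ← hg₀, inv_smul_smul]
    have f := (hfin p (g₀⁻¹ • o))
    rw [c]
    simp only [hN]
    rw [← e] at f ⊢
    rw [Set.ncard_eq_toFinset_card _ f]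
    have sub : ∀ x ∈ f.toFinset, x ∈ orbit Γ o := fun x hx => by
      obtain ⟨g, h, -⟩ := f.mem_toFinset.1 hx
      exact ⟨g, h⟩
    rw [tsum_eq_sum (s := f.toFinset.subtype (· ∈ orbit Γ o))]
    · rw [Finset.sum_congr rfl (g := fun _ => (1 : ℝ≥0∞)) fun x hx => if_pos ?_]
      · simp [Finset.card_subtype, Finset.filter_true_of_mem sub]
      · exact f.mem_toFinset.1 (Finset.mem_subtype.1 hx)
    · intro x hx
      refine if_neg fun h => hx (Finset.mem_subtype.2 (f.mem_toFinset.2 h))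
  have cardy : ∀ x : orbit Γ o,
      ∑' y : orbit Γ p, (if R y x then (1 : ℝ≥0∞) / N o y else 0) = 1 := by
    intro x
    obtain ⟨g₀, hg₀⟩ := mem_orbit_iff.1 x.2
    have f := hfin o (g₀⁻¹ • p)
    have e : ∀ y : orbit Γ p, R y x ↔ (y : V) ∈ stabOrbit Γ o (g₀⁻¹ • p) := by
      intro y
      constructor
      · rintro ⟨g, h1, h2⟩
        refine ⟨g⁻¹ * g₀, ?_, ?_⟩
        · rw [mul_smul, hg₀, ← h1, inv_smul_smul]
        · rw [mul_smul, smul_inv_smul, inv_smul_eq_iff.2 h2.symm]
      · rintro ⟨k, h1, h2⟩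
        refine ⟨g₀ * k⁻¹, ?_, ?_⟩
        · rw [mul_smul, inv_smul_eq_iff.2 h1.symm, hg₀]
        · rw [← h2, mul_smul, inv_smul_smul, smul_inv_smul]
    have same : ∀ y : orbit Γ p, R y x → N o y = N o (g₀⁻¹ • p) := by
      intro y hy
      obtain ⟨k, h1, h2⟩ := (e y).1 hy
      simp only [hN]
      rw [← h2]
      conv_lhs => rw [← h1]
      rw [ncard_stabOrbit_smul]
    have sub : ∀ y ∈ f.toFinset, y ∈ orbit Γ p := fun y hy => by
      obtain ⟨k, -, rfl⟩ := f.mem_toFinset.1 hy
      exact ⟨k * g₀⁻¹, by simp [mul_smul]⟩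
    rw [tsum_eq_sum (s := f.toFinset.subtype (· ∈ orbit Γ p))]
    · rw [Finset.sum_congr rfl (g := fun _ => (1 : ℝ≥0∞) / N o (g₀⁻¹ • p)) fun y hy => ?_]
      · have hN' : N o (g₀⁻¹ • p) = (f.toFinset.card : ℝ≥0∞) := by
          simp only [hN]
          rw [Set.ncard_eq_toFinset_card _ f]
        rw [Finset.sum_const, Finset.card_subtype, Finset.filter_true_of_mem sub, nsmul_eq_mul, hN',
          mul_one_div, ENNReal.div_self ?_ (ENNReal.natCast_ne_top _)]
        rw [← hN']
        exact N0 _ _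
      · have hy' := (e y).2 (f.mem_toFinset.1 (Finset.mem_subtype.1 hy))
        rw [if_pos hy', same y hy']
    · intro y hy
      exact if_neg fun h => hy (Finset.mem_subtype.2 (f.mem_toFinset.2 ((e y).1 h)))
  have ratio : ∀ y : orbit Γ p, N p o * N o y = N o p * N y o := by
    intro y
    obtain ⟨g, hg⟩ := mem_orbit_iff.1 y.2
    have h := ncard_cocycle (Γ := Γ) hfin o (y : V) p
    have h2 : (stabOrbit Γ (y : V) p).ncard = (stabOrbit Γ p (y : V)).ncard := by
      rw [← hg]; exact (huni g p).symm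
    rw [h2] at h
    simp only [hN]
    exact_mod_cast Nat.eq_of_mul_eq_mul_left (Nat.pos_of_ne_zero (pos p (y : V)))
      (by linarith : (stabOrbit Γ p (y : V)).ncard *
        ((stabOrbit Γ p o).ncard * (stabOrbit Γ o (y : V)).ncard) = _ *
          ((stabOrbit Γ o p).ncard * (stabOrbit Γ (y : V) o).ncard))
  calc N p o * ∑' y : orbit Γ p, F o y
      = ∑' y : orbit Γ p, ∑' x : orbit Γ o,
          (if R y x then N o p * (F x p * (1 / N o y)) else 0) := by
        rw [← ENNReal.tsum_mul_left]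
        refine tsum_congr fun y => ?_
        have hc : ∀ x : orbit Γ o, (if R y x then N o p * (F x p * (1 / N o y)) else 0) =
            N o p * (F o y * (1 / N o y)) * (if R y x then (1 : ℝ≥0∞) else 0) := by
          intro x
          by_cases h : R y x
          · obtain ⟨g, h1, h2⟩ := h
            have hFy : F (x : V) p = F o (y : V) := by rw [← hF g o (y : V), h1, h2]
            rw [if_pos ⟨g, h1, h2⟩, if_pos ⟨g, h1, h2⟩, mul_one, hFy]
          · simp [if_neg h]
        rw [tsum_congr hc, ENNReal.tsum_mul_left, cardx y, one_div]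
        calc N p o * F o y = N p o * N o y * F o y * (N o y)⁻¹ := by
              rw [mul_right_comm (N p o * N o y), mul_assoc (N p o),
                ENNReal.mul_inv_cancel (N0 _ _) (Nt _ _), mul_one]
          _ = N o p * (F o y * (N o y)⁻¹) * N y o := by
              rw [ratio y]; ring
    _ = ∑' x : orbit Γ o, N o p * F x p := by
        rw [ENNReal.tsum_comm]
        refine tsum_congr fun x => ?_
        have hc : ∀ y : orbit Γ p, (if R y x then N o p * (F x p * (1 / N o y)) else 0) =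
            N o p * F x p * (if R y x then (1 : ℝ≥0∞) / N o y else 0) := fun y => by
          split <;> simp [mul_assoc]
        rw [tsum_congr hc, ENNReal.tsum_mul_left, cardy x, mul_one]
    _ = N o p * ∑' x : orbit Γ o, F x p := ENNReal.tsum_mul_left

/-- The stabiliser orbits of a connected locally finite graph are finite. -/
lemma stabOrbit_finite {H : SimpleGraph V} [H.LocallyFinite] (hconn : H.Connected)
    (hadj : ∀ (g : Γ) (u v : V), H.Adj u v → H.Adj (g • u) (g • v)) (v w : V) :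
    (stabOrbit Γ v w).Finite := by
  classical
  have hball : ∀ n : ℕ, {u | ∃ q : H.Walk v u, q.length ≤ n}.Finite := by
    intro n
    induction n with
    | zero =>
      refine (Set.finite_singleton v).subset ?_
      rintro u ⟨q, hq⟩
      exact (SimpleGraph.Walk.eq_of_length_eq_zero (Nat.le_zero.1 hq)).symm
    | succ n ih =>
      refine ((ih.union (ih.biUnion fun u _ => (H.neighborSet u).toFinite))).subset ?_
      rintro u ⟨q, hq⟩
      rcases Nat.lt_or_ge q.length (n + 1) with h | h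
      · exact Or.inl ⟨q, by omega⟩
      · have hp : ¬ q.reverse.Nil := fun h' => by
          rw [← SimpleGraph.Walk.length_eq_zero_iff, SimpleGraph.Walk.length_reverse] at h'
          omega
        refine Or.inr (Set.mem_biUnion (x := q.reverse.snd) ?_
          (q.reverse.adj_snd hp).symm)
        refine ⟨q.reverse.tail.reverse, ?_⟩
        have := q.reverse.length_tail_add_one hp
        rw [SimpleGraph.Walk.length_reverse] at this ⊢
        omega
  obtain ⟨q⟩ := hconn.preconnected v w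
  refine (hball q.length).subset ?_
  rintro u ⟨g, hg, rfl⟩
  exact ⟨(q.map ⟨fun z => g • z, fun {a b} h => hadj g a b h⟩).copy hg rfl, by simp⟩

variable {τ : Type} [MulAction Γ τ]

/-- Mass transport on the graph of a frame. -/
theorem Frame.transport (f : Frame V τ Γ) :
    ∃ C : ℕ, ∀ F : V → V → ℝ≥0∞, (∀ (g : Γ) (x y : V), F (g • x) (g • y) = F x y) →
      ∀ x, ∑' y, F x y ≤ C * ∑ o ∈ f.O, ∑' v, F v o := by
  classical
  refine ⟨(f.O ×ˢ f.O).sup fun a => (stabOrbit Γ a.1 a.2).ncard, fun F hF x => ?_⟩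
  set C := (f.O ×ˢ f.O).sup fun a => (stabOrbit Γ a.1 a.2).ncard
  have hfin := stabOrbit_finite (Γ := Γ) f.connected f.hadj
  have huni : ∀ (g : Γ) (v : V),
      (stabOrbit Γ v (g • v)).ncard = (stabOrbit Γ (g • v) v).ncard := fun g v => by
    rw [stabOrbit_eq, stabOrbit_eq]
    exact f.unim g v
  obtain ⟨o, ho, g, rfl⟩ := f.hO x
  have hmove : ∑' y, F (g • o) y = ∑' y, F o y := by
    rw [← (MulAction.toPerm g).tsum_eq (fun y => F (g • o) y)]
    exact tsum_congr fun y => hF g o y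
  rw [hmove]
  calc ∑' y, F o y = ∑' y : (⋃ p ∈ f.O, orbit Γ p : Set V), F o y := by
        refine (tsum_subtype_eq_of_support_subset fun y _ => ?_).symm
        obtain ⟨p, hp, k, hk⟩ := f.hO y
        exact Set.mem_biUnion hp ⟨k, hk⟩
    _ ≤ ∑ p ∈ f.O, ∑' y : orbit Γ p, F o y := ENNReal.tsum_biUnion_le (fun y => F o y) _ _
    _ ≤ ∑ p ∈ f.O, (C : ℝ≥0∞) * ∑' v, F v p := by
        refine Finset.sum_le_sum fun p hp => ?_
        have h1 : 1 ≤ ((stabOrbit Γ p o).ncard : ℝ≥0∞) := by
          exact_mod_cast (Set.ncard_pos (hfin p o)).2 (stabOrbit_nonempty p o)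
        calc ∑' y : orbit Γ p, F o y
            = 1 * ∑' y : orbit Γ p, F o y := (one_mul _).symm
          _ ≤ ((stabOrbit Γ p o).ncard : ℝ≥0∞) * ∑' y : orbit Γ p, F o y := by gcongr
          _ = ((stabOrbit Γ o p).ncard : ℝ≥0∞) * ∑' z : orbit Γ o, F z p :=
              orbit_transport hfin huni F hF o p
          _ ≤ (C : ℝ≥0∞) * ∑' v, F v p := by
              refine mul_le_mul' (Nat.cast_le.2 ?_) (ENNReal.tsum_comp_le_tsum_of_injective
                Subtype.val_injective fun v => F v p)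
              exact Finset.le_sup (f := fun a : V × V => (stabOrbit Γ a.1 a.2).ncard)
                (b := (o, p)) (Finset.mem_product.2 ⟨ho, hp⟩)
    _ = (C : ℝ≥0∞) * ∑ o ∈ f.O, ∑' v, F v o := (Finset.mul_sum _ _ _).symm

end Vale.Agent.P165.TreeAct
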