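import Mathlib
import Vale.Agent.P165.TreeAct.PingPong
import Vale.Agent.P165.TreeAct.Transport

/-!
The isoperimetric inequality on the graph of a frame, from a symmetric kernel which moves away from
every point of the tree on average, and far apart points in one orbit.
-/

namespace Vale.Agent.P165.TreeAct

open SimpleGraph
open Finset hiding card

variable {V τ Γ : Type} [Group Γ] [MulAction Γ V] [MulAction Γ τ] (f : Frame V τ Γ)

/-- The pairing of the four moves. -/
def partner : Fin 4 → Fin 4 := ![1, 0, 3, 2]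

lemma partner_partner : ∀ i, partner (partner i) = i := by decide

include f in
/-- Four moves by which every point of the tree recedes on average. -/
lemma Frame.exists_moves (p : τ) : ∃ a : Fin 4 → Γ, (∀ i, a (partner i) = (a i)⁻¹) ∧
    ∀ q : τ, 4 * (f.T.dist q p : ℤ) + 1 ≤ ∑ i, (f.T.dist q (a i • p) : ℤ) := by
  obtain ⟨k, c, hd, hp, h1, h3, hk⟩ := f.exists_pingpong p
  set M := Finset.univ.sup fun i => f.T.dist p (k i).fst
  refine ⟨fun i => c i ^ (2 * M + 1), ?_, fun q => ?_⟩
  · intro i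
    fin_cases i <;> simp [partner, h1, h3]
  set n := 2 * M + 1
  have hpair : ∀ i, f.T.dist p (c (partner i) ^ n • p) = f.T.dist p (c i ^ n • p) := by
    intro i
    have hinv : c (partner i) ^ n = (c i ^ n)⁻¹ := by
      fin_cases i <;> simp [partner, h1, h3]
    conv_lhs => rw [← f.dist_smul (c i ^ n), hinv, smul_inv_smul]
    exact f.T.dist_comm
  have good : ∀ i, q ∉ (k i).side →
      (f.T.dist q p : ℤ) + f.T.dist p (c i ^ n • p) ≤ f.T.dist q (c i ^ n • p) + 2 * M ∧
      (f.T.dist q p : ℤ) + n ≤ f.T.dist q (c i ^ n • p) + M := by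
    intro i hq
    obtain ⟨hx, hn⟩ := hk i n (by omega)
    have e1 := Half.dist_cross f.tree hx hq
    have e2 := Half.dist_cross f.tree hx (hp i)
    have e3 := Half.dist_fst f.tree hx
    have hM : f.T.dist p (k i).fst ≤ M :=
      Finset.le_sup (f := fun i => f.T.dist p (k i).fst) (Finset.mem_univ i)
    have tri := f.tree.connected.dist_triangle (u := q) (v := (k i).fst) (w := p)
    rw [f.T.dist_comm (u := c i ^ n • p) (v := q), f.T.dist_comm (u := c i ^ n • p) (v := (k i).snd),
      f.T.dist_comm (u := (k i).fst) (v := q)] at e1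
    rw [f.T.dist_comm (u := c i ^ n • p) (v := p), f.T.dist_comm (u := c i ^ n • p) (v := (k i).snd)]
      at e2
    rw [f.T.dist_comm (u := (k i).fst) (v := p)] at e2 tri
    omega
  have bad : ∀ i, (f.T.dist q p : ℤ) ≤ f.T.dist q (c i ^ n • p) + f.T.dist p (c i ^ n • p) := by
    intro i
    have := f.tree.connected.dist_triangle (u := q) (v := c i ^ n • p) (w := p)
    rw [f.T.dist_comm (u := c i ^ n • p) (v := p)] at this
    exact_mod_cast this
  obtain ⟨s, hs⟩ : ∃ s : Fin 4, ∀ i, i ≠ s → q ∉ (k i).side := by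
    by_cases h : ∃ s, q ∈ (k s).side
    · obtain ⟨s, hs⟩ := h
      exact ⟨s, fun i hi h' => Set.disjoint_left.1 (hd i s hi) h' hs⟩
    · exact ⟨0, fun i _ h' => h ⟨i, h'⟩⟩
  rw [Fin.sum_univ_four]
  have b := bad s
  fin_cases s
  · have := good 1 (hs 1 (by decide)); have := good 2 (hs 2 (by decide))
    have := good 3 (hs 3 (by decide))
    have e : f.T.dist p (c 1 ^ n • p) = f.T.dist p (c 0 ^ n • p) := hpair 0
    simp only [Fin.zero_eta, Fin.isValue] at b ⊢
    omega
  · have := good 0 (hs 0 (by decide)); have := good 2 (hs 2 (by decide))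
    have := good 3 (hs 3 (by decide))
    have e : f.T.dist p (c 1 ^ n • p) = f.T.dist p (c 0 ^ n • p) := hpair 0
    simp only [Fin.mk_one, Fin.isValue] at b ⊢
    omega
  · have := good 0 (hs 0 (by decide)); have := good 1 (hs 1 (by decide))
    have := good 3 (hs 3 (by decide))
    have e : f.T.dist p (c 3 ^ n • p) = f.T.dist p (c 2 ^ n • p) := hpair 2
    simp only [Fin.reduceFinMk, Fin.isValue] at b ⊢
    omega
  · have := good 0 (hs 0 (by decide)); have := good 1 (hs 1 (by decide))
    have := good 2 (hs 2 (by decide))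
    have e : f.T.dist p (c 3 ^ n • p) = f.T.dist p (c 2 ^ n • p) := hpair 2
    simp only [Fin.reduceFinMk, Fin.isValue] at b ⊢
    omega

include f in
/-- Balls of a given radius have boundedly many points. -/
lemma Frame.exists_ball (ℓ : ℕ) : ∃ B : ℕ, ∀ v : V,
    {u | ∃ q : f.H.Walk v u, q.length ≤ ℓ}.Finite ∧
      {u | ∃ q : f.H.Walk v u, q.length ≤ ℓ}.ncard ≤ B := by
  classical
  have hfin : ∀ (ℓ : ℕ) (v : V), {u | ∃ q : f.H.Walk v u, q.length ≤ ℓ}.Finite := by
    intro ℓ
    induction ℓ with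
    | zero =>
      intro v
      refine (Set.finite_singleton v).subset ?_
      rintro u ⟨q, hq⟩
      exact (Walk.eq_of_length_eq_zero (Nat.le_zero.1 hq)).symm
    | succ n ih =>
      intro v
      refine ((f.H.neighborSet v).toFinite.biUnion fun u _ => ih u).union
        (Set.finite_singleton v) |>.subset ?_
      rintro u ⟨q, hq⟩
      cases q with
      | nil => exact Or.inr rfl
      | @cons _ z _ e q =>
        exact Or.inl (Set.mem_biUnion (x := z) e ⟨q, by rw [Walk.length_cons] at hq; omega⟩)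
  refine ⟨f.O.sup fun o => {u | ∃ q : f.H.Walk o u, q.length ≤ ℓ}.ncard, fun v => ⟨hfin ℓ v, ?_⟩⟩
  obtain ⟨o, ho, g, rfl⟩ := f.hO v
  refine le_trans ?_ (Finset.le_sup (f := fun o => {u | ∃ q : f.H.Walk o u, q.length ≤ ℓ}.ncard) ho)
  refine Set.ncard_le_ncard_of_injOn (g⁻¹ • ·) ?_
    (MulAction.injective g⁻¹).injOn (hfin ℓ o)
  rintro u ⟨q, hq⟩
  exact ⟨(f.moveWalk g⁻¹ q).copy (inv_smul_smul g o) rfl,
    by rw [Walk.length_copy, f.length_moveWalk]; exact hq⟩

include f in
/-- In each orbit a finite set is small against its boundary. -/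
lemma Frame.exists_iso_orbit (o : V) : ∃ K : ℕ, ∀ (S A : Finset V), A ⊆ S →
    (∀ v, v ∈ A ↔ v ∈ S ∧ ∃ g : Γ, g • o = v) →
      A.card ≤ K * (outer f.H (S : Set V)).ncard := by
  classical
  obtain ⟨a, hpart, hgain⟩ := f.exists_moves (f.pr o)
  have huni : ∀ (g : Γ) (v : V),
      (stabOrbit Γ v (g • v)).ncard = (stabOrbit Γ (g • v) v).ncard := fun g v => by
    rw [stabOrbit_eq, stabOrbit_eq]
    exact f.unim g v
  -- the tuples of moves out of a point
  let T : V → Set (Fin 4 → V) := fun v =>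
    {t | ∃ δ : Γ, δ • o = v ∧ t = fun i => δ • a i • o}
  have hTfin : ∀ v, (T v).Finite := by
    intro v
    by_cases hv : ∃ g : Γ, g • o = v
    · obtain ⟨g, rfl⟩ := hv
      refine (Set.Finite.pi (t := fun i => (g • ·) '' stabOrbit Γ o (a i • o))
        fun i => (stabOrbit_finite f.connected f.hadj o _).image _).subset ?_
      rintro t ⟨δ, hδ, rfl⟩ i -
      exact ⟨(g⁻¹ * δ) • a i • o, ⟨g⁻¹ * δ, by rw [mul_smul, hδ, inv_smul_smul], rfl⟩,
        by simp [mul_smul]⟩
    · refine Set.finite_empty.subset ?_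
      rintro t ⟨δ, hδ, -⟩
      exact absurd ⟨δ, hδ⟩ hv
  let TF : V → Finset (Fin 4 → V) := fun v => (hTfin v).toFinset
  have memT : ∀ {v t}, t ∈ TF v ↔ ∃ δ : Γ, δ • o = v ∧ t = fun i => δ • a i • o :=
    fun {v t} => (hTfin v).mem_toFinset
  -- invariance of the counts
  have hmove : ∀ (g : Γ) (v : V), TF (g • v) = (TF v).image (fun t i => g • t i) := by
    intro g v
    ext t
    rw [Finset.mem_image]
    simp only [memT]
    constructor
    · rintro ⟨δ, hδ, rfl⟩
      refine ⟨fun i => (g⁻¹ * δ) • a i • o, ⟨g⁻¹ * δ, ?_, rfl⟩, ?_⟩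
      · rw [mul_smul, hδ, inv_smul_smul]
      · funext i; simp [mul_smul]
    · rintro ⟨_, ⟨δ, hδ, rfl⟩, rfl⟩
      exact ⟨g * δ, by rw [mul_smul, hδ], by funext i; simp [mul_smul]⟩
  have ginj : ∀ g : Γ, Function.Injective (fun (t : Fin 4 → V) i => g • t i) := fun g t t' h => by
    funext i
    exact MulAction.injective g (congrFun h i)
  let m : Fin 4 → V → V → ℕ := fun i v w => ((TF v).filter fun t => t i = w).card
  have hm : ∀ (g : Γ) i v w, m i (g • v) (g • w) = m i v w := by
    intro g i v w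
    show ((TF (g • v)).filter fun t => t i = g • w).card = _
    rw [hmove, Finset.filter_image, Finset.card_image_of_injective _ (ginj g)]
    simp only [smul_left_cancel_iff]
    rfl
  set N := (TF o).card with hN
  have hN0 : 0 < N := Finset.card_pos.2 ⟨fun i => a i • o, memT.2 ⟨1, by simp, by simp⟩⟩
  have hcardT : ∀ g : Γ, (TF (g • o)).card = N := fun g => by
    rw [hmove, Finset.card_image_of_injective _ (ginj g)]
  have hμ : ∀ i, N = (stabOrbit Γ o (a i • o)).ncard * m i o (a i • o) := by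
    intro i
    have hf := stabOrbit_finite f.connected f.hadj o (a i • o) (Γ := Γ)
    rw [Set.ncard_eq_toFinset_card _ hf, hN,
      Finset.card_eq_sum_card_fiberwise (f := fun t => t i) (t := hf.toFinset) fun t ht => ?_]
    · rw [← smul_eq_mul]
      refine Finset.sum_eq_card_nsmul fun w hw => ?_
      obtain ⟨h, h1, rfl⟩ := hf.mem_toFinset.1 hw
      have := hm h i o (a i • o)
      rw [h1] at this
      exact this
    · obtain ⟨δ, hδ, rfl⟩ := memT.1 ht
      exact hf.mem_toFinset.2 ⟨δ, hδ, rfl⟩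
  have hsym : ∀ i v w, m i v w = m (partner i) w v := by
    intro i v w
    have hμeq : m i o (a i • o) = m (partner i) o (a (partner i) • o) := by
      have h1 := hμ i
      have h2 := hμ (partner i)
      have e : (stabOrbit Γ o (a (partner i) • o)).ncard = (stabOrbit Γ o (a i • o)).ncard := by
        rw [huni (a i) o, ← ncard_stabOrbit_smul (a i) o (a (partner i) • o), hpart, smul_inv_smul]
      rw [e] at h2
      exact Nat.eq_of_mul_eq_mul_left ((Set.ncard_pos (stabOrbit_finite f.connected f.hadj _ _)).2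
        (stabOrbit_nonempty _ _)) (h1.symm.trans h2)
    have half : ∀ i v w, m i v w ≠ 0 → ∃ δ : Γ, δ • o = v ∧ δ • a i • o = w := by
      intro i v w h
      obtain ⟨t, ht⟩ := Finset.card_ne_zero.1 h
      rw [Finset.mem_filter] at ht
      obtain ⟨δ, hδ, rfl⟩ := memT.1 ht.1
      exact ⟨δ, hδ, ht.2⟩
    by_cases h : m i v w = 0
    · rw [h]
      by_contra h'
      obtain ⟨δ, hδ, hw⟩ := half (partner i) w v (Ne.symm h')
      refine absurd h (Finset.card_ne_zero.2 ⟨fun j => (δ * a (partner i)) • a j • o, ?_⟩)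
      refine Finset.mem_filter.2 ⟨memT.2 ⟨_, by rw [mul_smul, hw], rfl⟩, ?_⟩
      show (δ * a (partner i)) • a i • o = w
      rw [hpart, mul_smul, inv_smul_smul, hδ]
    · obtain ⟨δ, rfl, rfl⟩ := half i v w h
      rw [hm δ i o (a i • o), ← mul_smul, hμeq]
      have := hm (δ * a i) (partner i) o (a (partner i) • o)
      rw [mul_smul δ (a i) (a (partner i) • o), hpart, smul_inv_smul] at this
      rw [this, hpart]
  -- the walks along the moves
  choose wk hwk using fun i => f.connected.exists_walk_length_eq_dist o (a i • o)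
  set ℓ := Finset.univ.sup fun i => (wk i).length
  obtain ⟨B, hB⟩ := f.exists_ball ℓ
  refine ⟨4 * f.L * ℓ * B, fun S A hAS hA => ?_⟩
  set φ : V → ℤ := fun v => (f.T.dist (f.pr o) (f.pr v) : ℤ)
  set Y : Finset V := A.filter fun v => ∃ w, w ∉ S ∧ ∃ q : f.H.Walk v w, q.length ≤ ℓ with hY
  have hout : (outer f.H (S : Set V)).Finite :=
    ((S.finite_toSet.biUnion fun v _ => (f.H.neighborSet v).toFinite)).subset
      fun b ⟨_, v, hv, e⟩ => Set.mem_biUnion hv e
  have hYcard : Y.card ≤ B * (outer f.H (S : Set V)).ncard := by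
    rw [Set.ncard_eq_toFinset_card _ hout]
    calc Y.card ≤ (hout.toFinset.biUnion fun b => (hB b).1.toFinset).card := by
          refine Finset.card_le_card fun v hv => ?_
          obtain ⟨hvA, w, hw, q, hq⟩ := Finset.mem_filter.1 hv
          suffices ∀ {v w : V} (q : f.H.Walk v w), v ∈ S → w ∉ S →
              ∃ b ∈ outer f.H (S : Set V), ∃ q' : f.H.Walk v b, q'.length ≤ q.length by
            obtain ⟨b, hb, q', hq'⟩ := this q (hAS hvA) hw
            exact Finset.mem_biUnion.2 ⟨b, hout.mem_toFinset.2 hb,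
              (hB b).1.mem_toFinset.2 ⟨q'.reverse, by rw [Walk.length_reverse]; omega⟩⟩
          intro v w q
          induction q with
          | nil => exact fun h h' => absurd h h'
          | @cons u z _ e q ih =>
            intro hu hw
            by_cases hz : z ∈ S
            · obtain ⟨b, hb, q', hq'⟩ := ih hz hw
              exact ⟨b, hb, Walk.cons e q', by simp only [Walk.length_cons]; omega⟩
            · exact ⟨z, ⟨hz, u, hu, e⟩, Walk.cons e Walk.nil, by simp⟩
      _ ≤ ∑ b ∈ hout.toFinset, (hB b).1.toFinset.card := Finset.card_biUnion_le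
      _ ≤ ∑ _b ∈ hout.toFinset, B := Finset.sum_le_sum fun b _ => by
          rw [← Set.ncard_eq_toFinset_card _ (hB b).1]; exact (hB b).2
      _ = B * hout.toFinset.card := by rw [Finset.sum_const, smul_eq_mul, mul_comm]
  have lower : (A.card : ℤ) * N ≤ ∑ i, ∑ v ∈ A, ∑ t ∈ TF v, (φ (t i) - φ v) := by
    rw [Finset.sum_comm]
    have : ∀ v ∈ A, (N : ℤ) ≤ ∑ i, ∑ t ∈ TF v, (φ (t i) - φ v) := by
      intro v hv
      obtain ⟨g, rfl⟩ := ((hA v).1 hv).2
      rw [Finset.sum_comm]
      calc (N : ℤ) = ∑ _t ∈ TF (g • o), (1 : ℤ) := by simp [hcardT g]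
        _ ≤ _ := Finset.sum_le_sum fun t ht => by
          obtain ⟨δ, hδ, rfl⟩ := memT.1 ht
          have := hgain (δ⁻¹ • f.pr o)
          have e : ∀ x : τ, f.T.dist (δ⁻¹ • f.pr o) x = f.T.dist (f.pr o) (δ • x) := fun x => by
            rw [← f.dist_smul δ, smul_inv_smul]
          simp only [e] at this
          simp only [φ, ← hδ, f.equiv, Finset.sum_sub_distrib, Finset.sum_const, Finset.card_univ,
            Fintype.card_fin, nsmul_eq_mul]
          push_cast
          linarith
    refine le_trans (le_of_eq ?_) (Finset.sum_le_sum this)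
    simp
  have inner : ∀ i, ∑ v ∈ A, ∑ t ∈ (TF v).filter (fun t => t i ∈ A), (φ (t i) - φ v) =
      ∑ v ∈ A, ∑ w ∈ A, (m i v w : ℤ) * (φ w - φ v) := by
    intro i
    refine Finset.sum_congr rfl fun v _ => ?_
    rw [← Finset.sum_fiberwise_of_maps_to (s := (TF v).filter fun t => t i ∈ A) (g := fun t => t i) (t := A)
      fun t ht => (Finset.mem_filter.1 ht).2]
    refine Finset.sum_congr rfl fun w hw => ?_
    rw [Finset.filter_filter]
    have hset : (TF v).filter (fun t => t i ∈ A ∧ t i = w) = (TF v).filter fun t => t i = w :=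
      Finset.filter_congr fun t _ => ⟨fun h => h.2, fun h => ⟨h ▸ hw, h⟩⟩
    rw [hset, Finset.sum_congr rfl (g := fun _ => φ w - φ v) fun t ht => by
      rw [(Finset.mem_filter.1 ht).2]]
    simp [m, mul_sub]
  have cancel : ∑ i, ∑ v ∈ A, ∑ w ∈ A, (m i v w : ℤ) * (φ w - φ v) = 0 := by
    have h : ∀ i, ∑ v ∈ A, ∑ w ∈ A, (m (partner i) v w : ℤ) * (φ w - φ v) =
        -∑ v ∈ A, ∑ w ∈ A, (m i v w : ℤ) * (φ w - φ v) := by
      intro i
      rw [Finset.sum_comm, ← Finset.sum_neg_distrib]
      refine Finset.sum_congr rfl fun v _ => ?_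
      rw [← Finset.sum_neg_distrib]
      refine Finset.sum_congr rfl fun w _ => ?_
      rw [hsym i v w]
      ring
    rw [Fin.sum_univ_four]
    have h0 := h 0
    have h2 := h 2
    simp only [partner, Matrix.cons_val] at h0 h2
    rw [h0, h2]
    ring
  have upper : ∀ i, ∑ v ∈ A, ∑ t ∈ (TF v).filter (fun t => t i ∉ A), (φ (t i) - φ v) ≤
      (Y.card : ℤ) * (N * (f.L * ℓ)) := by
    intro i
    have hv0 : ∀ v ∈ A, v ∉ Y → (TF v).filter (fun t => t i ∉ A) = ∅ := by
      intro v hv hvY
      refine Finset.filter_eq_empty_iff.2 fun t ht hti => hvY ?_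
      obtain ⟨δ, hδ, rfl⟩ := memT.1 ht
      refine Finset.mem_filter.2 ⟨hv, δ • a i • o, fun hs => hti ((hA _).2 ⟨hs, δ * a i, ?_⟩),
        (f.moveWalk δ (wk i)).copy hδ rfl, ?_⟩
      · rw [mul_smul]
      · rw [Walk.length_copy, f.length_moveWalk]
        exact Finset.le_sup (f := fun i => (wk i).length) (Finset.mem_univ i)
    rw [← Finset.sum_subset (Finset.filter_subset _ A : Y ⊆ A)
      (fun v hv hvY => by rw [hv0 v hv hvY]; simp), ← nsmul_eq_mul]
    refine Finset.sum_le_card_nsmul _ _ _ fun v hv => ?_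
    obtain ⟨hvA, -⟩ := Finset.mem_filter.1 hv
    obtain ⟨g, rfl⟩ := ((hA v).1 hvA).2
    calc ∑ t ∈ (TF (g • o)).filter (fun t => t i ∉ A), (φ (t i) - φ (g • o))
        ≤ ((TF (g • o)).filter fun t => t i ∉ A).card • ((f.L * ℓ : ℕ) : ℤ) := by
          refine Finset.sum_le_card_nsmul _ _ _ fun t ht => ?_
          obtain ⟨δ, hδ, rfl⟩ := memT.1 (Finset.mem_filter.1 ht).1
          have h1 := f.walk_dist ((f.moveWalk δ (wk i)).copy hδ rfl)
          rw [Walk.length_copy, f.length_moveWalk] at h1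
          have h2 : f.L * (wk i).length ≤ f.L * ℓ := Nat.mul_le_mul_left _
            (Finset.le_sup (f := fun i => (wk i).length) (Finset.mem_univ i))
          have h3 := f.tree.connected.dist_triangle (u := f.pr o) (v := f.pr (g • o))
            (w := f.pr (δ • a i • o))
          simp only [φ]
          omega
      _ ≤ (N : ℤ) * (f.L * ℓ) := by
          rw [nsmul_eq_mul]
          push_cast
          gcongr
          exact_mod_cast (Finset.card_filter_le _ _).trans (hcardT g).le
  have key : (A.card : ℤ) * N ≤ (4 * (Y.card * (f.L * ℓ)) : ℕ) * (N : ℤ) := by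
    refine lower.trans ?_
    have split : ∀ i v, ∑ t ∈ TF v, (φ (t i) - φ v) =
        ∑ t ∈ (TF v).filter (fun t => t i ∈ A), (φ (t i) - φ v) +
          ∑ t ∈ (TF v).filter (fun t => t i ∉ A), (φ (t i) - φ v) := fun i v =>
      (Finset.sum_filter_add_sum_filter_not _ _ _).symm
    simp only [split, Finset.sum_add_distrib, inner, cancel, zero_add]
    refine (Finset.sum_le_card_nsmul _ _ _ fun i _ => upper i).trans (le_of_eq ?_)
    simp
    ring
  have h4 : A.card ≤ 4 * (Y.card * (f.L * ℓ)) := by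
    exact_mod_cast le_of_mul_le_mul_right key (by exact_mod_cast hN0)
  refine h4.trans ?_
  calc 4 * (Y.card * (f.L * ℓ)) ≤ 4 * (B * (outer f.H (S : Set V)).ncard * (f.L * ℓ)) := by gcongr
    _ = _ := by ring

include f in
/-- The graph of a frame is nonamenable. -/
theorem Frame.exists_iso : ∃ K : ℕ, ∀ S : Finset V,
    S.card ≤ K * (outer f.H (S : Set V)).ncard := by
  classical
  choose K hK using f.exists_iso_orbit
  refine ⟨∑ o ∈ f.O, K o, fun S => ?_⟩
  rw [Finset.sum_mul]
  calc S.card ≤ (f.O.biUnion fun o => S.filter fun v => ∃ g : Γ, g • o = v).card := by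
        refine Finset.card_le_card fun v hv => ?_
        obtain ⟨o, ho, g, hg⟩ := f.hO v
        exact Finset.mem_biUnion.2 ⟨o, ho, Finset.mem_filter.2 ⟨hv, g, hg⟩⟩
    _ ≤ ∑ o ∈ f.O, (S.filter fun v => ∃ g : Γ, g • o = v).card := Finset.card_biUnion_le
    _ ≤ _ := Finset.sum_le_sum fun o _ =>
        hK o S _ (Finset.filter_subset _ _) fun v => Finset.mem_filter

include f in
/-- Every orbit has many points which are far apart in the tree. -/
theorem Frame.exists_far (x : V) (m L : ℕ) : ∃ Y : Finset V, Y.card = m ∧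
    (∀ z ∈ Y, ∃ g : Γ, g • x = z) ∧
    ∀ a ∈ Y, ∀ b ∈ Y, a ≠ b → L < f.T.dist (f.pr a) (f.pr b) := by
  classical
  obtain ⟨k, c, -, hp, -, -, hk⟩ := f.exists_pingpong (f.pr x)
  have hfar : ∀ n : ℕ, 1 ≤ n → n ≤ f.T.dist (f.pr x) ((c 0 ^ n) • f.pr x) := by
    intro n hn
    obtain ⟨hx, hd⟩ := hk 0 n hn
    have e := Half.dist_cross f.tree hx (hp 0)
    have e3 := Half.dist_fst f.tree hx
    rw [f.T.dist_comm (u := (c 0 ^ n) • f.pr x) (v := f.pr x),
      f.T.dist_comm (u := (c 0 ^ n) • f.pr x) (v := (k 0).snd)] at e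
    omega
  set z : ℕ → V := fun j => (c 0 ^ (j * (L + 1))) • x
  have hlt : ∀ i j, i < j → L < f.T.dist (f.pr (z i)) (f.pr (z j)) := by
    intro i j hij
    obtain ⟨d, rfl⟩ : ∃ d, j = i + (d + 1) := ⟨j - i - 1, by omega⟩
    simp only [z, f.equiv, add_mul i (d + 1) (L + 1), pow_add (c 0) (i * (L + 1)), mul_smul,
      f.dist_smul]
    have h1 : L + 1 ≤ (d + 1) * (L + 1) := Nat.le_mul_of_pos_left _ (Nat.succ_pos d)
    have := hfar ((d + 1) * (L + 1)) (by omega)
    omega
  have hne : ∀ i j, i ≠ j → L < f.T.dist (f.pr (z i)) (f.pr (z j)) := fun i j h => by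
    rcases Nat.lt_or_gt_of_ne h with h | h
    · exact hlt i j h
    · rw [f.T.dist_comm]; exact hlt j i h
  have hinj : Function.Injective z := fun i j e => by
    by_contra h
    have := hne i j h
    rw [e, SimpleGraph.dist_self] at this
    omega
  refine ⟨(Finset.range m).image z, by rw [Finset.card_image_of_injective _ hinj, Finset.card_range],
    fun w hw => ?_, fun a ha b hb hab => ?_⟩
  · obtain ⟨j, -, rfl⟩ := Finset.mem_image.1 hw
    exact ⟨_, rfl⟩
  · obtain ⟨i, -, rfl⟩ := Finset.mem_image.1 ha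
    obtain ⟨j, -, rfl⟩ := Finset.mem_image.1 hb
    exact hne i j fun e => hab (congrArg z e)

end Vale.Agent.P165.TreeAct
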