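import Mathlib
import Vale.Agent.P165.TreeAct.Crit
import Vale.Agent.P165.TreeAct.Iso

/-!
A tilt bound on the graph of a frame puts the critical point below the uniqueness point.
-/

namespace Vale.Agent.P165.TreeAct

open SimpleGraph

variable {V τ Γ : Type} [Group Γ] [MulAction Γ V] [MulAction Γ τ] (f : Frame V τ Γ)

include f in
lemma Frame.cofinite : ∃ O : Finset V, ∀ v, ∃ φ : f.H ≃g f.H, φ v ∈ O := by
  refine ⟨f.O, fun v => ?_⟩
  obtain ⟨o, ho, g, rfl⟩ := f.hO v
  exact ⟨f.hIso g⁻¹, by simpa [Frame.hIso] using ho⟩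

/-- The tilt bound gives a nonuniqueness phase. -/
theorem Frame.pc_lt_pu (hb : TiltBound f.H f.ht) : pc f.H < pu f.H := by
  refine pc_lt_pu_of_tilt f.H f.connected f.cofinite f.ht f.L (fun c u v e => ?_) f.exists_iso
    (fun x m L => ?_) hb
  · have h1 := f.hL e
    have h2 := f.tree.connected.dist_triangle (u := f.pr u) (v := f.pr v) (w := c)
    simp only [Frame.ht]
    omega
  · obtain ⟨Y, h1, h2, h3⟩ := f.exists_far x m L
    refine ⟨Y, h1, fun z hz => ?_, fun a ha b hb hab => ⟨f.pr b, ?_⟩⟩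
    · obtain ⟨g, rfl⟩ := h2 z hz
      exact ⟨f.hIso g, rfl⟩
    · have := h3 a ha b hb hab
      simp only [Frame.ht, SimpleGraph.dist_self]
      omega

end Vale.Agent.P165.TreeAct
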