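import Mathlib
import Vale.Agent.P165.Large.Ev

/-!
Disjointified unions of events and a form of the concavity of powers.
-/

namespace Vale.Agent.P165.TreeAct

open MeasureTheory
open Large (Meas)
open scoped ENNReal

variable {W κ : Type} {p : unitInterval}

/-- A finite union of events as a disjoint union of smaller events. -/
lemma exists_disjointed {S : Set (Sym2 W)} (I : Finset κ) :
    ∀ A : κ → Set (Sym2 W → Bool), (∀ k ∈ I, Meas S (A k)) →
      ∃ D : κ → Set (Sym2 W → Bool), (∀ k ∈ I, D k ⊆ A k ∧ Meas S (D k)) ∧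
        (I : Set κ).PairwiseDisjoint D ∧
        perc W p (⋃ k ∈ I, A k) = ∑ k ∈ I, perc W p (D k) := by
  classical
  induction I using Finset.induction with
  | empty => exact fun A _ => ⟨A, by simp, by simp, by simp⟩
  | @insert j I hj ih =>
    intro A hA
    have hAj := hA j (Finset.mem_insert_self j I)
    obtain ⟨D, hD, hdisj, hsum⟩ := ih (fun k => A k \ A j) fun k hk =>
      MeasurableSet.diff (hA k (Finset.mem_insert_of_mem hk)) hAj
    refine ⟨Function.update D j (A j), fun k hk => ?_, ?_, ?_⟩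
    · rcases Finset.mem_insert.1 hk with rfl | hk'
      · rw [Function.update_self]; exact ⟨subset_rfl, hAj⟩
      · rw [Function.update_of_ne (fun e : k = j => hj (by rwa [← e]))]
        exact ⟨(hD k hk').1.trans Set.sdiff_subset, (hD k hk').2⟩
    · rw [Finset.coe_insert, Set.pairwiseDisjoint_insert]
      refine ⟨fun a ha b hb hab => ?_, fun k hk _ => ?_⟩
      · simp only [Function.onFun]
        rw [Function.update_of_ne (fun e : a = j => hj (by rw [← e]; exact ha)),
          Function.update_of_ne (fun e : b = j => hj (by rw [← e]; exact hb))]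
        exact hdisj ha hb hab
      · rw [Function.update_self, Function.update_of_ne (fun e : k = j => hj (by rw [← e]; exact hk))]
        exact Set.disjoint_left.2 fun ω h1 h2 => ((hD k hk).1 h2).2 h1
    · have h1 : (⋃ k ∈ insert j I, A k) = A j ∪ ⋃ k ∈ I, (A k \ A j) := by
        ext ω
        simp only [Finset.set_biUnion_insert, Set.mem_union, Set.mem_iUnion, Set.mem_sdiff,
          exists_prop]
        constructor
        · rintro (h | ⟨k, hk, h⟩)
          · exact Or.inl h
          · exact (em (ω ∈ A j)).imp id fun hn => ⟨k, hk, h, hn⟩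
        · rintro (h | ⟨k, hk, h, -⟩)
          · exact Or.inl h
          · exact Or.inr ⟨k, hk, h⟩
      rw [h1, measure_union ?_ (I.measurableSet_biUnion fun k hk =>
        (hA k (Finset.mem_insert_of_mem hk)).measurableSet.diff hAj.measurableSet), hsum,
        Finset.sum_insert hj, Function.update_self]
      · congr 1
        exact Finset.sum_congr rfl fun k hk => by
          rw [Function.update_of_ne (fun e : k = j => hj (by rwa [← e]))]
      · simp only [Set.disjoint_iUnion_right]
        exact fun k _ => Set.disjoint_sdiff_right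

/-- Half of a countable union of events is carried by finitely many disjoint smaller events. -/
lemma exists_landing [Countable κ] {S : Set (Sym2 W)} (A : κ → Set (Sym2 W → Bool))
    (hA : ∀ k, Meas S (A k)) :
    ∃ (I : Finset κ) (D : κ → Set (Sym2 W → Bool)), (∀ k ∈ I, D k ⊆ A k ∧ Meas S (D k)) ∧
      (I : Set κ).PairwiseDisjoint D ∧ perc W p (⋃ k, A k) ≤ 2 * ∑ k ∈ I, perc W p (D k) := by
  classical
  obtain ⟨I, hI⟩ : ∃ I : Finset κ, perc W p (⋃ k, A k) ≤ 2 * perc W p (⋃ k ∈ I, A k) := by
    rcases eq_or_ne (perc W p (⋃ k, A k)) 0 with h0 | h0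
    · exact ⟨∅, by simp [h0]⟩
    have hlt : perc W p (⋃ k, A k) / 2 < perc W p (⋃ k, A k) :=
      ENNReal.half_lt_self h0 (measure_ne_top _ _)
    have hdir : perc W p (⋃ k, A k) = ⨆ I : Finset κ, perc W p (⋃ k ∈ I, A k) := by
      rw [← Directed.measure_iUnion]
      · congr 1
        rw [Set.iUnion_eq_iUnion_finset]
      · exact fun a b => ⟨a ∪ b, Set.biUnion_subset_biUnion_left (by simp),
          Set.biUnion_subset_biUnion_left (by simp)⟩
    conv_rhs at hlt => rw [hdir]
    obtain ⟨I, hI⟩ := lt_iSup_iff.1 hlt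
    refine ⟨I, le_trans (le_of_eq ?_) (mul_le_mul_right hI.le 2)⟩
    rw [ENNReal.mul_div_cancel two_ne_zero ENNReal.ofNat_ne_top]
  obtain ⟨D, hD, hdisj, hsum⟩ := exists_disjointed (p := p) I A fun k _ => hA k
  exact ⟨I, D, hD, hdisj, hsum ▸ hI⟩

/-- Disjoint first steps followed by independent second steps. -/
lemma indep_sum {S T : Set (Sym2 W)} (hST : Disjoint S T) (I : Finset κ)
    {A B : κ → Set (Sym2 W → Bool)} (hA : ∀ k ∈ I, Meas S (A k)) (hB : ∀ k ∈ I, Meas T (B k))
    (hd : (I : Set κ).PairwiseDisjoint A) {b : κ → ℝ≥0∞} (hb : ∀ k ∈ I, b k ≤ perc W p (B k)) :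
    ∑ k ∈ I, perc W p (A k) * b k ≤ perc W p (⋃ k ∈ I, A k ∩ B k) := by
  rw [measure_biUnion_finset (fun i hi j hj hij =>
      (hd hi hj hij).mono Set.inter_subset_left Set.inter_subset_left)
    fun k hk => (hA k hk).measurableSet.inter (hB k hk).measurableSet]
  exact Finset.sum_le_sum fun k hk =>
    (mul_le_mul_right (hb k hk) _).trans ((hA k hk).inter_eq (hB k hk) hST).ge

/-- Weighted concavity of a power. -/
lemma sum_mul_rpow_le {σ : ℝ} (hσ : 0 < σ) (hσ1 : σ ≤ 1) (s : Finset κ) (d x : κ → ℝ≥0∞) :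
    ∑ k ∈ s, d k * x k ^ σ ≤ (∑ k ∈ s, d k) ^ (1 - σ) * (∑ k ∈ s, d k * x k) ^ σ := by
  have h := ENNReal.inner_le_weight_mul_Lp_of_nonneg s (p := σ⁻¹)
    (one_le_inv_iff₀.2 ⟨hσ, hσ1⟩) d fun k => x k ^ σ
  rw [inv_inv] at h
  refine h.trans (le_of_eq ?_)
  congr 2
  exact Finset.sum_congr rfl fun k _ => by
    rw [← ENNReal.rpow_mul, mul_inv_cancel₀ hσ.ne', ENNReal.rpow_one]

end Vale.Agent.P165.TreeAct
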