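import Mathlib
import Vale.Agent.P165.TreeAct.PingPong

/-!
The part of the graph over a half-tree: deep vertices, ports, the graphs avoiding it, and their
invariance under translations.
-/

namespace Vale.Agent.P165.TreeAct

open SimpleGraph

variable {V τ Γ : Type} [Group Γ] [MulAction Γ V] [MulAction Γ τ] (f : Frame V τ Γ)

lemma Half.near {T : SimpleGraph τ} (hT : T.IsTree) {h : Half T} {a b : τ} (ha : a ∈ h.side)
    (hd : T.dist a b < T.dist h.fst a) : b ∈ h.side := by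
  by_contra hb
  have h1 := Half.dist_cross hT ha hb
  have h2 := Half.dist_fst hT ha
  rw [T.dist_comm (u := a) (v := h.snd)] at h1
  omega

/-- A short walk moves away from the base of a half-tree. -/
lemma Frame.exists_step : ∃ M : ℕ, ∀ (v : V) (h : Half f.T), f.pr v ∈ h.side →
    ∃ u, ∃ q : f.H.Walk v u, q.length ≤ M ∧ f.pr u ∈ h.side ∧
      f.T.dist h.fst (f.pr v) < f.T.dist h.fst (f.pr u) := by
  classical
  choose b hb hdisj using fun o : V => f.exists_branches (f.pr o)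
  choose γ hγ using fun (o : V) (i : Fin 2) => f.exists_deep (b o i).op 0 (b o i) (f.pr o)
  refine ⟨f.O.sup fun o => Finset.univ.sup fun i => f.H.dist o (γ o i • o), fun v h hv => ?_⟩
  obtain ⟨o, ho, δ, rfl⟩ := f.hO v
  rw [f.equiv] at hv ⊢
  have hp : f.pr o ∈ (f.sm δ⁻¹ h).side := by
    rw [f.mem_sm, inv_inv]; exact hv
  obtain ⟨i, hi⟩ : ∃ i, (f.sm δ⁻¹ h).fst ∉ (b o i).side := by
    by_contra hall
    push Not at hall
    exact Set.disjoint_left.1 (hdisj o) (hall 0) (hall 1)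
  have hsub := Half.nested f.tree (h := f.sm δ⁻¹ h) (k := b o i) (by rw [hb o i]; exact hp) hi
  have hm : γ o i • f.pr o ∈ (b o i).side := (hγ o i).1 (f.smul_mem_sm.2
    ((Half.mem_op f.tree).2 (by rw [← hb o i]; exact (b o i).fst_notMem)))
  obtain ⟨q, hq⟩ := f.connected.exists_walk_length_eq_dist o (γ o i • o)
  refine ⟨δ • (γ o i • o), f.moveWalk δ q, ?_, ?_, ?_⟩
  · rw [f.length_moveWalk, hq]
    exact le_trans (Finset.le_sup (f := fun i => f.H.dist o (γ o i • o)) (Finset.mem_univ i))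
      (Finset.le_sup (f := fun o => Finset.univ.sup fun i => f.H.dist o (γ o i • o)) ho)
  · rw [f.equiv, f.equiv]
    have := (hsub.1 hm : γ o i • f.pr o ∈ (f.sm δ⁻¹ h).side)
    rwa [f.mem_sm, inv_inv] at this
  · rw [f.equiv, f.equiv]
    have h1 := hsub.2 _ hm
    have h2 := Half.dist_fst f.tree hm
    have e : ∀ x, f.T.dist (f.sm δ⁻¹ h).fst x = f.T.dist h.fst (δ • x) := fun x => by
      rw [← f.dist_smul δ (f.sm δ⁻¹ h).fst x]
      simp [Frame.sm]
    rw [e, e, hb o i] at h1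
    rw [hb o i] at h2
    omega

/-- The length of the steps. -/
noncomputable def Frame.rad : ℕ := f.exists_step.choose

/-- The margin beyond which a point of a half-tree counts as deep. -/
noncomputable def Frame.depth : ℕ := f.L * f.rad + f.L + 1

/-- The vertices over a half-tree which are joined over it to deep vertices. -/
def Frame.Vs (h : Half f.T) : Set V :=
  {v | f.pr v ∈ h.side ∧ ∃ w, ∃ q : f.H.Walk v w,
    (∀ u ∈ q.support, f.pr u ∈ h.side) ∧ f.depth < f.T.dist h.fst (f.pr w)}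

/-- The boundary vertices of `Vs`. -/
def Frame.port (h : Half f.T) : Set V :=
  {v | v ∈ f.Vs h ∧ ∃ u, f.H.Adj v u ∧ u ∉ f.Vs h}

/-- The graph without the edges inside `Vs h`. -/
def Frame.avoid (h : Half f.T) : SimpleGraph V where
  Adj u v := f.H.Adj u v ∧ ¬(u ∈ f.Vs h ∧ v ∈ f.Vs h)
  symm := ⟨fun _ _ ⟨a, b⟩ => ⟨a.symm, fun c => b c.symm⟩⟩
  loopless := ⟨fun _ ⟨a, _⟩ => a.ne rfl⟩

/-- The graph without the edges that meet the preimage of the half-tree. -/
def Frame.avoidSide (h : Half f.T) : SimpleGraph V where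
  Adj u v := f.H.Adj u v ∧ f.pr u ∉ h.side ∧ f.pr v ∉ h.side
  symm := ⟨fun _ _ ⟨a, b, c⟩ => ⟨a.symm, c, b⟩⟩
  loopless := ⟨fun _ ⟨a, _⟩ => a.ne rfl⟩

/-- The inner edges of `Vs h`. -/
def Frame.inner (h : Half f.T) : SimpleGraph V where
  Adj u v := f.H.Adj u v ∧ u ∈ f.Vs h ∧ v ∈ f.Vs h
  symm := ⟨fun _ _ ⟨a, b, c⟩ => ⟨a.symm, c, b⟩⟩
  loopless := ⟨fun _ ⟨a, _⟩ => a.ne rfl⟩

lemma Frame.avoid_le (h : Half f.T) : f.avoid h ≤ f.H := fun _ _ a => a.1

lemma Frame.avoidSide_le (h : Half f.T) : f.avoidSide h ≤ f.H := fun _ _ a => a.1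

lemma Frame.inner_le (h : Half f.T) : f.inner h ≤ f.H := fun _ _ a => a.1

lemma Frame.avoidSide_le_avoid (h : Half f.T) : f.avoidSide h ≤ f.avoid h :=
  fun _ _ a => ⟨a.1, fun c => a.2.1 c.1.1⟩

lemma Frame.disjoint_inner_avoid (h : Half f.T) :
    Disjoint (f.inner h).edgeSet (f.avoid h).edgeSet := by
  refine Set.disjoint_left.2 fun e => ?_
  induction e using Sym2.ind with
  | _ x y => exact fun a b => b.2 ⟨a.2.1, a.2.2⟩

lemma Frame.mem_Vs_of_walk {h : Half f.T} {v w : V} (q : f.H.Walk v w)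
    (hq : ∀ u ∈ q.support, f.pr u ∈ h.side) (hd : f.depth < f.T.dist h.fst (f.pr w)) :
    ∀ u ∈ q.support, u ∈ f.Vs h := by
  classical
  exact fun u hu => ⟨hq u hu, w, q.dropUntil u hu,
    fun z hz => hq z (q.support_dropUntil_subset_support hu hz), hd⟩

lemma Frame.deep_mem_Vs {h : Half f.T} {v : V} (hs : f.pr v ∈ h.side)
    (hd : f.depth < f.T.dist h.fst (f.pr v)) : v ∈ f.Vs h :=
  ⟨hs, v, .nil, by simpa using hs, hd⟩

lemma Frame.Vs_of_adj {h : Half f.T} {u v : V} (hv : v ∈ f.Vs h) (ha : f.H.Adj u v)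
    (hu : f.pr u ∈ h.side) : u ∈ f.Vs h := by
  obtain ⟨-, w, p, hp, hd⟩ := hv
  exact ⟨hu, w, .cons ha p, by simpa [hu] using hp, hd⟩

lemma Frame.port_sub {h : Half f.T} : f.port h ⊆ f.Vs h := fun _ hv => hv.1

lemma Frame.port_out {h : Half f.T} {v : V} (hv : v ∈ f.port h) :
    ∃ u, f.H.Adj v u ∧ f.pr u ∉ h.side := by
  obtain ⟨hv, u, ha, hu⟩ := hv
  exact ⟨u, ha, fun hs => hu (f.Vs_of_adj hv ha.symm hs)⟩

lemma Frame.port_dist {h : Half f.T} {v : V} (hv : v ∈ f.port h) :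
    f.T.dist h.fst (f.pr v) ≤ f.L := by
  obtain ⟨u, ha, hu⟩ := f.port_out hv
  have h1 := Half.dist_cross f.tree hv.1.1 hu
  have h2 := Half.dist_fst f.tree hv.1.1
  rw [f.T.dist_comm (u := f.pr v) (v := h.snd)] at h1
  have := f.hL ha
  omega

lemma Frame.Vs_mono {k h : Half f.T} (hk : k.side ⊆ h.side) : f.Vs k ⊆ f.Vs h := by
  rintro v ⟨hv, w, p, hp, hd⟩
  exact ⟨hk hv, w, p, fun u hu => hk (hp u hu),
    hd.trans_le (Half.dist_le_of_subset f.tree hk (hp w p.end_mem_support))⟩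

lemma Frame.avoid_anti {k h : Half f.T} (hk : k.side ⊆ h.side) : f.avoid h ≤ f.avoid k :=
  fun _ _ a => ⟨a.1, fun c => a.2 ⟨f.Vs_mono hk c.1, f.Vs_mono hk c.2⟩⟩

lemma Frame.inner_le_avoid {g h : Half f.T} (hd : Disjoint g.side h.side) :
    f.inner g ≤ f.avoid h :=
  fun _ _ hab => ⟨hab.1, fun hh => Set.disjoint_left.1 hd hab.2.1.1 hh.1.1⟩

/-- Deep vertices climb to any depth. -/
lemma Frame.exists_climb (h : Half f.T) : ∀ (n : ℕ) (v : V), f.pr v ∈ h.side →
    f.depth < f.T.dist h.fst (f.pr v) → ∃ u, ∃ q : f.H.Walk v u, q.length ≤ n * f.rad ∧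
      (∀ z ∈ q.support, f.pr z ∈ h.side) ∧ f.T.dist h.fst (f.pr v) + n ≤ f.T.dist h.fst (f.pr u) := by
  intro n
  induction n with
  | zero => exact fun v hv _ => ⟨v, .nil, by simp, by simpa using hv, le_rfl⟩
  | succ n ih =>
    intro v hv hd
    obtain ⟨u, q, hl, hu, hlt⟩ := f.exists_step.choose_spec v h hv
    have hin : ∀ z ∈ q.support, f.pr z ∈ h.side := fun z hz => by
      refine Half.near f.tree hv ?_
      have h1 := f.dist_support q hz
      have h2 : f.L * q.length ≤ f.L * f.rad := Nat.mul_le_mul_left _ hl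
      rw [Frame.depth] at hd
      omega
    obtain ⟨w, q', hl', hin', hw⟩ := ih u hu (hd.trans hlt)
    refine ⟨w, q.append q', ?_, fun z hz => ?_, by omega⟩
    · rw [Walk.length_append, Nat.succ_mul]
      have : q.length ≤ f.rad := hl
      omega
    · rcases (Walk.mem_support_append_iff _ _).1 hz with hz | hz
      · exact hin z hz
      · exact hin' z hz

/-- Every orbit has vertices deep in every half-tree. -/
lemma Frame.exists_deep_vertex (h : Half f.T) (n : ℕ) (o : V) :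
    ∃ γ : Γ, f.pr (γ • o) ∈ h.side ∧ n ≤ f.T.dist h.fst (f.pr (γ • o)) := by
  obtain ⟨b, hb, -⟩ := f.exists_branches (f.pr o)
  obtain ⟨γ, hs, -, hn, hf⟩ := f.exists_deep (b 0).op n h h.fst
  have hm : γ • f.pr o ∈ (f.sm γ (b 0).op).side :=
    f.smul_mem_sm.2 ((Half.mem_op f.tree).2 (by rw [← hb 0]; exact (b 0).fst_notMem))
  rw [← f.equiv] at hm
  refine ⟨γ, hs hm, ?_⟩
  have := (Half.nested f.tree hf fun h' => h.fst_notMem (hs h')).2 _ hm
  omega

/-! ### Translations -/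

lemma Frame.dist_sm (g : Γ) (h : Half f.T) (v : V) :
    f.T.dist (f.sm g h).fst (f.pr (g • v)) = f.T.dist h.fst (f.pr v) := by
  rw [f.equiv]
  exact f.dist_smul g h.fst (f.pr v)

lemma Frame.pr_mem_sm (g : Γ) (h : Half f.T) (v : V) :
    f.pr (g • v) ∈ (f.sm g h).side ↔ f.pr v ∈ h.side := by
  rw [f.equiv, f.smul_mem_sm]

lemma Frame.Vs_smul (g : Γ) (h : Half f.T) (v : V) :
    g • v ∈ f.Vs (f.sm g h) ↔ v ∈ f.Vs h := by
  have key : ∀ (g : Γ) (h : Half f.T) (v : V), v ∈ f.Vs h → g • v ∈ f.Vs (f.sm g h) := by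
    rintro g h v ⟨hv, w, p, hp, hd⟩
    refine ⟨(f.pr_mem_sm g h v).2 hv, g • w, f.moveWalk g p, fun u hu => ?_, by
      rwa [f.dist_sm]⟩
    rw [← smul_inv_smul g u, f.pr_mem_sm]
    exact hp _ ((f.mem_moveWalk g p).1 hu)
  refine ⟨fun hv => ?_, key g h v⟩
  simpa [f.sm_inv_sm] using key g⁻¹ _ _ hv

lemma Frame.port_smul (g : Γ) (h : Half f.T) (v : V) :
    g • v ∈ f.port (f.sm g h) ↔ v ∈ f.port h := by
  have key : ∀ (g : Γ) (h : Half f.T) (v : V), v ∈ f.port h → g • v ∈ f.port (f.sm g h) := by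
    rintro g h v ⟨hv, u, ha, hu⟩
    exact ⟨(f.Vs_smul g h v).2 hv, g • u, f.hadj g _ _ ha, fun h' => hu ((f.Vs_smul g h u).1 h')⟩
  refine ⟨fun hv => ?_, key g h v⟩
  simpa [f.sm_inv_sm] using key g⁻¹ _ _ hv

lemma Frame.port_sm (g : Γ) (h : Half f.T) :
    f.port (f.sm g h) = (fun v : V => g • v) '' f.port h := by
  ext v
  refine ⟨fun hv => ⟨g⁻¹ • v, ?_, smul_inv_smul g v⟩, ?_⟩
  · rw [← f.port_smul g, smul_inv_smul]; exact hv
  · rintro ⟨u, hu, rfl⟩
    exact (f.port_smul g h u).2 hu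

lemma Frame.avoid_smul (g : Γ) (h : Half f.T) (u v : V) :
    (f.avoid h).Adj u v ↔ (f.avoid (f.sm g h)).Adj (g • u) (g • v) :=
  and_congr (f.hadj_iff g u v)
    (not_congr (and_congr (f.Vs_smul g h u).symm (f.Vs_smul g h v).symm))

lemma Frame.avoidSide_smul (g : Γ) (h : Half f.T) (u v : V) :
    (f.avoidSide h).Adj u v ↔ (f.avoidSide (f.sm g h)).Adj (g • u) (g • v) :=
  and_congr (f.hadj_iff g u v)
    (and_congr (not_congr (f.pr_mem_sm g h u).symm) (not_congr (f.pr_mem_sm g h v).symm))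

lemma Frame.inner_smul (g : Γ) (h : Half f.T) (u v : V) :
    (f.inner h).Adj u v ↔ (f.inner (f.sm g h)).Adj (g • u) (g • v) :=
  and_congr (f.hadj_iff g u v) (and_congr (f.Vs_smul g h u).symm (f.Vs_smul g h v).symm)

end Vale.Agent.P165.TreeAct
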