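import Mathlib
import Vale.Agent.P165.TreeAct.Geo
import Vale.Agent.P165.Sus.Events

/-!
Ports up to translation, their multiplicity, and re-rooting: from a port of a half-tree a short
walk inside it reaches the port of a translate of any other root, whose avoiding graph lies inside
the first half-tree.
-/

namespace Vale.Agent.P165.TreeAct

open SimpleGraph

variable {V τ Γ : Type} [Group Γ] [MulAction Γ V] [MulAction Γ τ] (f : Frame V τ Γ)

/-- Up to translation there are finitely many ports. -/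
lemma Frame.exists_pairs : ∃ P : Finset (V × Half f.T), (∀ c ∈ P, c.1 ∈ f.port c.2) ∧
    ∀ (g : Half f.T), ∀ v ∈ f.port g, ∃ γ : Γ, ∃ c ∈ P, γ • c.1 = v ∧ f.sm γ c.2 = g := by
  classical
  refine ⟨(f.O.biUnion fun o => (f.H.neighborFinset o).biUnion fun u =>
    ((Half.sep_finite f.tree (f.pr o) (f.pr u)).toFinset.filter fun k => o ∈ f.port k).image
      fun k => (o, k)), fun c hc => ?_, fun g v hv => ?_⟩
  · simp only [Finset.mem_biUnion, Finset.mem_image, Finset.mem_filter] at hc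
    obtain ⟨o, -, u, -, k, ⟨-, hk⟩, rfl⟩ := hc
    exact hk
  · obtain ⟨o, ho, γ, rfl⟩ := f.hO v
    have hk : o ∈ f.port (f.sm γ⁻¹ g) := by
      rw [← f.port_smul γ, f.sm_sm_inv]; exact hv
    obtain ⟨u, hu, hus⟩ := f.port_out hk
    refine ⟨γ, (o, f.sm γ⁻¹ g), ?_, rfl, f.sm_sm_inv γ g⟩
    simp only [Finset.mem_biUnion, Finset.mem_image, Finset.mem_filter]
    exact ⟨o, ho, u, (mem_neighborFinset _ _ _).2 hu, _,
      ⟨(Set.Finite.mem_toFinset _).2 ⟨hk.1.1, hus⟩, hk⟩, rfl⟩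

/-- The degrees are bounded. -/
lemma Frame.exists_degree : ∃ D : ℕ, 1 ≤ D ∧ ∀ v, (f.H.neighborFinset v).card ≤ D := by
  classical
  refine ⟨1 + ∑ o ∈ f.O, (f.H.neighborFinset o).card, Nat.le_add_right 1 _, fun v => ?_⟩
  obtain ⟨o, ho, γ, rfl⟩ := f.hO v
  refine le_add_left (le_trans (le_of_eq ?_)
    (Finset.single_le_sum (f := fun o => (f.H.neighborFinset o).card) (fun _ _ => Nat.zero_le _) ho))
  rw [card_neighborFinset_eq_degree, card_neighborFinset_eq_degree]
  exact Iso.degree_eq (f.hIso γ) o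

/-- A vertex is in boundedly many ports. -/
lemma Frame.exists_mult : ∃ D : ℕ, ∀ (v : V) (A : Finset (Half f.T)),
    (∀ g ∈ A, v ∈ f.port g) → A.card ≤ D := by
  classical
  obtain ⟨D, -, hD⟩ := f.exists_degree
  refine ⟨D * f.L, fun v A hA => ?_⟩
  have hsub : A ⊆ (f.H.neighborFinset v).biUnion fun u => A.filter fun g => f.pr u ∉ g.side :=
    fun g hg => by
      obtain ⟨u, hu, hus⟩ := f.port_out (hA g hg)
      exact Finset.mem_biUnion.2 ⟨u, (mem_neighborFinset _ _ _).2 hu,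
        Finset.mem_filter.2 ⟨hg, hus⟩⟩
  refine (Finset.card_le_card hsub).trans ((Finset.card_biUnion_le_card_mul _ _ f.L fun u hu => ?_).trans
    (Nat.mul_le_mul_right _ (hD v)))
  refine (Half.card_sep_le f.tree (u := f.pr v) (c := f.pr u) _ fun g hg => ?_).trans
    (f.hL ((mem_neighborFinset _ _ _).1 hu).symm)
  obtain ⟨hgA, hgu⟩ := Finset.mem_filter.1 hg
  exact ⟨(hA g hgA).1.1, hgu⟩

/-- A walk into `Vs g` enters it at a port without using an inner edge. -/
lemma Frame.first_port (g : Half f.T) {a b : V} (q : f.H.Walk a b) (ha : a ∉ f.Vs g)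
    (hb : b ∈ f.Vs g) : ∃ y ∈ f.port g, ∃ r : (f.avoid g).Walk a y, r.length ≤ q.length := by
  classical
  obtain ⟨u, c, r, hc, huc, hedge, hr, hre⟩ := Sus.exists_first_hit (f.Vs g) q.bypass hb ha
  have hu : u ∉ f.Vs g := hr u r.end_mem_support
  have htr : ∀ e ∈ (r.concat huc).edges, e ∈ (f.avoid g).edgeSet := fun e he => by
    simp only [Walk.edges_concat, List.concat_eq_append, List.mem_append,
      List.mem_singleton] at he
    rcases he with he | rfl
    · induction e using Sym2.ind with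
      | _ x y => exact ⟨r.adj_of_mem_edges he,
          fun h => hr x (r.fst_mem_support_of_mem_edges he) h.1⟩
    · exact ⟨huc, fun h => hu h.1⟩
  refine ⟨c, ⟨hc, u, huc.symm, hu⟩, ((r.concat huc).transfer _ htr).bypass, ?_⟩
  have hsub : ((r.concat huc).transfer _ htr).bypass.edges ⊆ q.bypass.edges := fun x hx => by
    have := (Walk.edges_bypass_subset_edges _) hx
    rw [Walk.edges_transfer, Walk.edges_concat, List.concat_eq_append, List.mem_append,
      List.mem_singleton] at this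
    exact this.elim (hre x) fun h => h ▸ hedge
  have := ((Walk.bypass_isPath _).isTrail.edges_nodup).subperm hsub
  have h2 := q.length_bypass_le_length
  have := this.length_le
  simp only [Walk.length_edges] at this
  omega

lemma Frame.port_nonempty (g : Half f.T) : (f.port g).Nonempty := by
  obtain ⟨o⟩ := f.connected.nonempty
  obtain ⟨γ, hγ, hd⟩ := f.exists_deep_vertex g (f.depth + 1) o
  obtain ⟨δ, hδ, -⟩ := f.exists_deep_vertex g.op 0 o
  obtain ⟨q⟩ := f.connected.preconnected (δ • o) (γ • o)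
  obtain ⟨y, hy, -⟩ := f.first_port g q (fun h => (Half.mem_op f.tree).1 hδ h.1)
    (f.deep_mem_Vs hγ hd)
  exact ⟨y, hy⟩

/-- The avoiding graph of a root whose opposite half-tree is deep in `g` lies inside `g`. -/
lemma Frame.avoid_le_inner {g k : Half f.T} (hk : k.fst ∈ g.side) (hk' : g.fst ∉ k.side)
    (hd : 2 * f.depth + 2 * f.L + 3 ≤ f.T.dist g.fst k.fst) :
    f.avoid k.op ≤ f.inner g := by
  have tri := fun a b c => f.tree.connected.dist_triangle (u := a) (v := b) (w := c)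
  have key : ∀ a b, f.H.Adj a b → a ∉ f.Vs k.op → a ∈ f.Vs g ∧ b ∈ f.Vs g := by
    intro a b hab ha
    suffices h : f.pr a ∈ g.side ∧ f.depth + f.L < f.T.dist g.fst (f.pr a) by
      refine ⟨f.deep_mem_Vs h.1 (by omega), f.deep_mem_Vs ?_ ?_⟩
      · exact Half.near f.tree h.1 (lt_of_le_of_lt (f.hL hab) (by omega))
      · have h1 := tri g.fst (f.pr b) (f.pr a)
        have h2 := f.hL hab.symm
        omega
    by_cases hs : f.pr a ∈ k.side
    · obtain ⟨h1, h2⟩ := Half.nested f.tree hk hk'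
      exact ⟨h1 hs, by have := h2 _ hs; omega⟩
    · have h1 : f.T.dist k.snd (f.pr a) ≤ f.depth :=
        not_lt.1 fun h => ha (f.deep_mem_Vs ((Half.mem_op f.tree).2 hs) h)
      have h2 := (Half.notMem_iff_succ f.tree).1 hs
      rw [f.T.dist_comm (u := f.pr a) (v := k.snd),
        f.T.dist_comm (u := f.pr a) (v := k.fst)] at h2
      refine ⟨Half.near f.tree hk (by omega), ?_⟩
      have h3 := tri g.fst (f.pr a) k.fst
      rw [f.T.dist_comm (u := f.pr a) (v := k.fst)] at h3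
      omega
  intro a b h
  by_cases ha : a ∈ f.Vs k.op
  · obtain ⟨h1, h2⟩ := key b a h.1.symm fun hb => h.2 ⟨ha, hb⟩
    exact ⟨h.1, h2, h1⟩
  · obtain ⟨h1, h2⟩ := key a b h.1 ha
    exact ⟨h.1, h1, h2⟩

/-- From a port a short inner walk reaches any depth. -/
lemma Frame.port_climb (n : ℕ) : ∃ M : ℕ, ∀ (g : Half f.T), ∀ z ∈ f.port g,
    ∃ w, ∃ q : f.H.Walk z w, q.length ≤ M ∧ (∀ u ∈ q.support, f.pr u ∈ g.side) ∧
      n ≤ f.T.dist g.fst (f.pr w) ∧ f.depth < f.T.dist g.fst (f.pr w) := by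
  classical
  obtain ⟨P, hP, hPc⟩ := f.exists_pairs
  choose w₀ q₀ hq₀ hd₀ using fun c (hc : c ∈ P) => (hP c hc).1.2
  refine ⟨(P.attach.sup fun c => (q₀ c c.2).length) + n * f.rad, fun g z hz => ?_⟩
  obtain ⟨γ, c, hc, rfl, rfl⟩ := hPc g z hz
  have hs : ∀ u ∈ (f.moveWalk γ (q₀ c hc)).support, f.pr u ∈ (f.sm γ c.2).side := fun u hu => by
    rw [← smul_inv_smul γ u, f.pr_mem_sm]
    exact hq₀ c hc _ ((f.mem_moveWalk γ _).1 hu)
  have hd : f.depth < f.T.dist (f.sm γ c.2).fst (f.pr (γ • w₀ c hc)) := by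
    rw [f.dist_sm]; exact hd₀ c hc
  obtain ⟨w, q, hl, hin, hw⟩ :=
    f.exists_climb (f.sm γ c.2) n _ (hs _ (Walk.end_mem_support _)) hd
  refine ⟨w, (f.moveWalk γ (q₀ c hc)).append q, ?_, fun u hu => ?_, by omega, by omega⟩
  · rw [Walk.length_append, f.length_moveWalk]
    exact Nat.add_le_add (Finset.le_sup (f := fun c : P => (q₀ c c.2).length)
      (Finset.mem_attach _ ⟨c, hc⟩)) hl
  · rcases (Walk.mem_support_append_iff _ _).1 hu with hu | hu
    · exact hs u hu
    · exact hin u hu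

/-- Re-rooting from a port. -/
lemma Frame.exists_reroot (m : ℕ) : ∃ R M : ℕ, ∀ (g : Half f.T), ∀ z ∈ f.port g,
    ∀ (h : Half f.T), ∀ y ∈ f.port h, ∀ u : τ, ∃ γ : Γ,
      (f.sm γ h.op).fst ∈ g.side ∧ g.fst ∉ (f.sm γ h.op).side ∧
      m ≤ f.T.dist g.fst (f.sm γ h.op).fst ∧ f.T.dist g.fst (f.sm γ h.op).fst ≤ R ∧
      u ∉ (f.sm γ h.op).side ∧ f.avoid (f.sm γ h) ≤ f.inner g ∧
      ∃ p : (f.inner g).Walk z (γ • y), p.length ≤ M := by
  classical
  obtain ⟨P, hP, hPc⟩ := f.exists_pairs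
  choose b hb hbd using fun o : V => f.exists_branches (f.pr o)
  choose η hη hdj using fun (o : V) (c : V × Half f.T) => f.exists_four (b o 0) c.2.op (f.pr o)
  let ℓ : V → V × Half f.T → Fin 4 → ℕ := fun o c i => f.H.dist o (η o c i • c.1)
  let δ : V → V × Half f.T → Fin 4 → ℕ := fun o c i =>
    f.T.dist (f.pr o) (f.sm (η o c i) c.2.op).fst
  let M₁ := f.O.sup fun o => P.sup fun c => Finset.univ.sup (ℓ o c)
  let C₁ := f.O.sup fun o => P.sup fun c => Finset.univ.sup (δ o c)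
  have hℓ : ∀ o ∈ f.O, ∀ c ∈ P, ∀ i, ℓ o c i ≤ M₁ := fun o ho c hc i =>
    ((Finset.le_sup (f := ℓ o c) (Finset.mem_univ i)).trans
      (Finset.le_sup (f := fun c => Finset.univ.sup (ℓ o c)) hc)).trans
      (Finset.le_sup (f := fun o => P.sup fun c => Finset.univ.sup (ℓ o c)) ho)
  have hδ : ∀ o ∈ f.O, ∀ c ∈ P, ∀ i, δ o c i ≤ C₁ := fun o ho c hc i =>
    ((Finset.le_sup (f := δ o c) (Finset.mem_univ i)).trans
      (Finset.le_sup (f := fun c => Finset.univ.sup (δ o c)) hc)).trans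
      (Finset.le_sup (f := fun o => P.sup fun c => Finset.univ.sup (δ o c)) ho)
  set n := m + C₁ + f.L * M₁ + 2 * f.depth + 2 * f.L + 4 with hn
  obtain ⟨M₀, hM₀⟩ := f.port_climb n
  refine ⟨f.L * (M₀ + 1) + C₁, M₀ + M₁, fun g z hz h y hy u => ?_⟩
  obtain ⟨w, q₁, hl₁, hin₁, hwn, -⟩ := hM₀ g z hz
  have hup : f.T.dist g.fst (f.pr w) ≤ f.L * (M₀ + 1) := by
    have h1 := f.tree.connected.dist_triangle (u := g.fst) (v := f.pr z) (w := f.pr w)
    have h2 := f.port_dist hz
    have h3 := f.walk_dist q₁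
    have h4 : f.L * q₁.length ≤ f.L * M₀ := Nat.mul_le_mul_left _ hl₁
    rw [Nat.mul_add, Nat.mul_one]
    omega
  obtain ⟨β, c, hc, rfl, rfl⟩ := hPc h y hy
  obtain ⟨o, ho, α, rfl⟩ := f.hO w
  obtain ⟨i, hi1, hi2⟩ : ∃ i, g.fst ∉ (f.sm α (f.sm (η o c i) c.2.op)).side ∧
      u ∉ (f.sm α (f.sm (η o c i) c.2.op)).side := by
    by_contra hall
    simp only [not_exists, not_and_or, not_not] at hall
    have hd : ∀ i j, i ≠ j → Disjoint (f.sm α (f.sm (η o c i) c.2.op)).side
        (f.sm α (f.sm (η o c j) c.2.op)).side := fun i j hij => f.sm_disjoint (hdj o c i j hij)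
    have pick : ∀ i j : Fin 4, i ≠ j → ∀ x, x ∈ (f.sm α (f.sm (η o c i) c.2.op)).side →
        x ∉ (f.sm α (f.sm (η o c j) c.2.op)).side := fun i j hij x hx hx' =>
      Set.disjoint_left.1 (hd i j hij) hx hx'
    rcases hall 0 with a | a <;> rcases hall 1 with b | b <;> rcases hall 2 with d | d <;>
      first
        | exact pick 0 1 (by decide) _ a b
        | exact pick 0 2 (by decide) _ a d
        | exact pick 1 2 (by decide) _ b d
  refine ⟨α * η o c i * β⁻¹, ?_⟩
  have e : ∀ k : Half f.T, f.sm (α * η o c i * β⁻¹) (f.sm β k) = f.sm α (f.sm (η o c i) k) :=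
    fun k => by rw [← f.sm_mul, inv_mul_cancel_right, f.sm_mul]
  have ey : (α * η o c i * β⁻¹) • β • c.1 = α • η o c i • c.1 := by
    rw [smul_smul, inv_mul_cancel_right, mul_smul]
  rw [← f.sm_op β c.2, e, e, ey]
  set k := f.sm α (f.sm (η o c i) c.2.op) with hk
  have hwk : f.T.dist (f.pr (α • o)) k.fst ≤ C₁ := by
    rw [f.equiv]
    exact le_trans (le_of_eq (f.dist_smul α _ _)) (hδ o ho c hc i)
  have hk1 : k.fst ∈ g.side := Half.near f.tree (hin₁ _ q₁.end_mem_support) (by omega)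
  have t1 := f.tree.connected.dist_triangle (u := g.fst) (v := k.fst) (w := f.pr (α • o))
  have t2 := f.tree.connected.dist_triangle (u := g.fst) (v := f.pr (α • o)) (w := k.fst)
  rw [f.T.dist_comm (u := k.fst) (v := f.pr (α • o))] at t1
  refine ⟨hk1, hi1, by omega, by omega, hi2, ?_, ?_⟩
  · have h1 := f.avoid_le_inner hk1 hi1 (by omega)
    exact le_of_eq_of_le (by rw [hk, ← f.sm_op, ← f.sm_op, Half.op_op]) h1
  obtain ⟨q₂, hq₂⟩ := f.connected.exists_walk_length_eq_dist o (η o c i • c.1)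
  have hl₂ : (f.moveWalk α q₂).length ≤ M₁ := by
    rw [f.length_moveWalk, hq₂]; exact hℓ o ho c hc i
  have hin₂ : ∀ v ∈ (f.moveWalk α q₂).support, f.pr v ∈ g.side ∧
      f.depth < f.T.dist g.fst (f.pr v) := fun v hv => by
    have h1 := f.dist_support _ hv
    have h2 : f.L * (f.moveWalk α q₂).length ≤ f.L * M₁ := Nat.mul_le_mul_left _ hl₂
    refine ⟨Half.near f.tree (hin₁ _ q₁.end_mem_support) (by omega), ?_⟩
    have h3 := f.tree.connected.dist_triangle (u := g.fst) (v := f.pr v) (w := f.pr (α • o))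
    rw [f.T.dist_comm (u := f.pr v) (v := f.pr (α • o))] at h3
    omega
  set q := q₁.append (f.moveWalk α q₂)
  have hVs := f.mem_Vs_of_walk q (fun v hv => ((Walk.mem_support_append_iff _ _).1 hv).elim
    (hin₁ v) fun hv => (hin₂ v hv).1) (hin₂ _ (Walk.end_mem_support _)).2
  refine ⟨q.transfer _ fun e he => ?_, ?_⟩
  · induction e using Sym2.ind with
    | _ a b => exact ⟨q.adj_of_mem_edges he, hVs a (q.fst_mem_support_of_mem_edges he),
        hVs b (q.snd_mem_support_of_mem_edges he)⟩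
  · rw [Walk.length_transfer, Walk.length_append]
    omega

end Vale.Agent.P165.TreeAct
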