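import Mathlib
import Vale.Agent.P165.TreeAct.Reroot
import Vale.Agent.P165.TreeAct.Prob
import Vale.Agent.P165.Unique

/-!
Growth: when the powers of the crossing probabilities from a root are summable over all
half-trees, their sums over codes are at most a constant.
-/

namespace Vale.Agent.P165.TreeAct

open MeasureTheory SimpleGraph
open Large (joins mem_joins meas_conn meas_joins walk_joins joins_mono joins_eq_iUnion Meas)
open scoped ENNReal

variable {V τ Γ : Type} [Group Γ] [MulAction Γ V] [MulAction Γ τ] (f : Frame V τ Γ)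

/-- The probability that the root `y` of `h` is joined to the port of `g` away from `h` and `g`. -/
noncomputable def Frame.meet (q : unitInterval) (h g : Half f.T) (y : V) : ℝ≥0∞ :=
  perc V q (joins (f.avoid h ⊓ f.avoid g) y (f.port g))

/-- A finite family of half-trees with disjoint sides, all disjoint from the side of `h`. -/
def RootCode {T : SimpleGraph τ} (h : Half T) (A : Finset (Half T)) : Prop :=
  (A : Set (Half T)).PairwiseDisjoint Half.side ∧ ∀ g ∈ A, Disjoint g.side h.side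

/-- The largest sum of `σ`-powers of the crossing probabilities over a code at a root. -/
noncomputable def Frame.growth (q : unitInterval) (σ : ℝ) : ℝ≥0∞ :=
  ⨆ (h : Half f.T) (y : f.port h) (A : Finset (Half f.T)) (_ : RootCode h A),
    ∑ g ∈ A, f.meet q h g y ^ σ

/-- The largest such sum over all finite families of half-trees. -/
noncomputable def Frame.total (q : unitInterval) (σ : ℝ) : ℝ≥0∞ :=
  ⨆ (h : Half f.T) (y : f.port h) (A : Finset (Half f.T)) (_ : ∀ g ∈ A, Disjoint g.side h.side),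
    ∑ g ∈ A, f.meet q h g y ^ σ

lemma Frame.le_total (q : unitInterval) (σ : ℝ) {h : Half f.T} {y : V} (hy : y ∈ f.port h)
    {A : Finset (Half f.T)} (hA : ∀ g ∈ A, Disjoint g.side h.side) :
    ∑ g ∈ A, f.meet q h g y ^ σ ≤ f.total q σ :=
  le_iSup_of_le h (le_iSup_of_le ⟨y, hy⟩ (le_iSup₂_of_le A hA le_rfl))

lemma Frame.le_growth (q : unitInterval) (σ : ℝ) {h : Half f.T} {y : V} (hy : y ∈ f.port h)
    {A : Finset (Half f.T)} (hA : RootCode h A) :
    ∑ g ∈ A, f.meet q h g y ^ σ ≤ f.growth q σ :=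
  le_iSup_of_le h (le_iSup_of_le ⟨y, hy⟩ (le_iSup₂_of_le A hA le_rfl))

lemma Frame.meet_le_one (q : unitInterval) (h g : Half f.T) (y : V) : f.meet q h g y ≤ 1 :=
  prob_le_one

lemma Frame.meet_smul (q : unitInterval) (γ : Γ) (h g : Half f.T) (y : V) :
    f.meet q (f.sm γ h) (f.sm γ g) (γ • y) = f.meet q h g y := by
  rw [Frame.meet, Frame.meet, f.port_sm]
  exact f.perc_joins_smul γ y _ fun a b =>
    and_congr (f.avoid_smul γ h a b) (f.avoid_smul γ g a b)

/-- A crossing of a translated root continues a short walk inside a half-tree. -/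
lemma Frame.cross {q : unitInterval} {g h₁ g₂ : Half f.T} {v y₁ : V} {γ : Γ} {M : ℕ}
    (hav : f.avoid (f.sm γ h₁) ≤ f.inner g) (p : (f.inner g).Walk v (γ • y₁))
    (hp : p.length ≤ M) (hclear : ∀ u ∈ p.support, f.pr u ∉ (f.sm γ g₂).side) :
    ENNReal.ofReal ((q : ℝ) ^ M) * f.meet q h₁ g₂ y₁ ≤
      perc V q (joins (f.inner g ⊓ f.avoid (f.sm γ g₂)) v (f.port (f.sm γ g₂))) := by
  classical
  have := f.countable
  have htr : ∀ e ∈ p.edges, e ∈ (f.inner g ⊓ f.avoid (f.sm γ g₂)).edgeSet := fun e he => by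
    induction e using Sym2.ind with
    | _ a b => exact ⟨p.adj_of_mem_edges he, (p.adj_of_mem_edges he).1,
        fun h => hclear a (p.fst_mem_support_of_mem_edges he) h.1.1⟩
  refine le_trans (mul_le_mul_right ?_ _)
    (walk_joins (p := q) (p.transfer _ htr) (M := M) (by simpa using hp) _)
  rw [← f.meet_smul q γ]
  exact measure_mono (joins_mono (inf_le_inf hav le_rfl) _ subset_rfl)

/-- The vertices of a short walk to a translated vertex come from a fixed ball. -/
lemma Frame.mem_near_of_walk [DecidableEq V] {K : SimpleGraph V} (hK : K ≤ f.H) {γ : Γ} {v y : V} {M : ℕ}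
    (p : K.Walk v (γ • y)) (hp : p.length ≤ M) :
    ∀ u ∈ p.support, γ⁻¹ • u ∈ near f.H y M := by
  intro u hu
  have hu' : u ∈ (p.mapLe hK).support := by rwa [Walk.support_mapLe_eq_support]
  have hl := (p.mapLe hK).length_dropUntil_le_length hu'
  rw [show (p.mapLe hK).length = p.length from Walk.length_map _ _] at hl
  refine mem_near (((f.moveWalk γ⁻¹ ((p.mapLe hK).dropUntil u hu')).copy rfl
    (inv_smul_smul γ y)).reverse) ?_
  rw [Walk.length_reverse, Walk.length_copy, f.length_moveWalk]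
  exact hl.trans hp

/-- A ball consists of the ends of short walks. -/
lemma walk_of_mem_near {W : Type} [DecidableEq W] {H : SimpleGraph W} [H.LocallyFinite] {a : W} :
    ∀ {n : ℕ} {b : W}, b ∈ near H a n → ∃ q : H.Walk a b, q.length ≤ n := by
  intro n
  induction n with
  | zero =>
    intro b hb
    simp only [near, Finset.mem_singleton] at hb
    subst hb
    exact ⟨.nil, le_rfl⟩
  | succ n ih =>
    intro b hb
    simp only [near, Finset.mem_union, Finset.mem_biUnion, mem_neighborFinset] at hb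
    rcases hb with hb | ⟨c, hc, hcb⟩
    · obtain ⟨q, hq⟩ := ih hb
      exact ⟨q, hq.trans n.le_succ⟩
    · obtain ⟨q, hq⟩ := ih hc
      exact ⟨q.concat hcb, by rw [Walk.length_concat]; omega⟩

/-- Few half-trees away from the head of a root meet the ball about its vertex. -/
lemma Frame.card_bad [DecidableEq V] {D M : ℕ} (hD : ∀ v, (f.H.neighborFinset v).card ≤ D)
    {h : Half f.T} {y : V} (hy : y ∈ f.port h) (A : Finset (Half f.T))
    (hA : ∀ g ∈ A, h.snd ∉ g.side ∧ ∃ u ∈ near f.H y M, f.pr u ∈ g.side) :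
    A.card ≤ (D + 1) ^ M * (f.L * (M + 1) + 1) := by
  classical
  have hsub : A ⊆ (near f.H y M).biUnion fun u => A.filter fun g => f.pr u ∈ g.side :=
    fun g hg => by
      obtain ⟨-, u, hu, hus⟩ := hA g hg
      exact Finset.mem_biUnion.2 ⟨u, hu, Finset.mem_filter.2 ⟨hg, hus⟩⟩
  have hball : (near f.H y M).card ≤ (D + 1) ^ M := by
    clear hsub hA
    induction M with
    | zero => simp [near]
    | succ n ih =>
      have h2 := Finset.card_biUnion_le_card_mul (near f.H y n) (fun v => f.H.neighborFinset v) D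
        fun v _ => hD v
      calc (near f.H y (n + 1)).card
          ≤ (near f.H y n).card + ((near f.H y n).biUnion fun v => f.H.neighborFinset v).card :=
            Finset.card_union_le _ _
        _ ≤ (near f.H y n).card * (D + 1) := by rw [Nat.mul_succ]; omega
        _ ≤ _ := by rw [pow_succ]; exact Nat.mul_le_mul_right _ ih
  refine (Finset.card_le_card hsub).trans ((Finset.card_biUnion_le_card_mul _ _
    (f.L * (M + 1) + 1) fun u hu => ?_).trans (Nat.mul_le_mul_right _ hball))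
  refine (Half.card_sep_le f.tree (u := f.pr u) (c := h.snd) _ fun g hg =>
    ⟨(Finset.mem_filter.1 hg).2, (hA g (Finset.mem_filter.1 hg).1).1⟩).trans ?_
  obtain ⟨q, hq⟩ := walk_of_mem_near hu
  have h1 := (f.walk_dist q).trans (Nat.mul_le_mul_left _ hq)
  have h2 := f.port_dist hy
  have h3 := Half.dist_fst f.tree hy.1.1
  have h4 := f.tree.connected.dist_triangle (u := h.snd) (v := f.pr y) (w := f.pr u)
  rw [Nat.mul_add, Nat.mul_one]
  omega

/-- Disjoint landings continued inside the half-tree make a crossing. -/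
lemma Frame.relay {q : unitInterval} {h g g' : Half f.T} (hgh : Disjoint g.side h.side)
    (hs : g'.side ⊆ g.side) {y : V} {κ : Type} (I : Finset κ) (v : κ → V)
    {D : κ → Set (Sym2 V → Bool)}
    (hD : ∀ k ∈ I, D k ⊆ conn (f.avoid h ⊓ f.avoid g) y (v k) ∧
      Meas (f.avoid h ⊓ f.avoid g).edgeSet (D k))
    (hdisj : (I : Set κ).PairwiseDisjoint D) {b : κ → ℝ≥0∞}
    (hb : ∀ k ∈ I, b k ≤ perc V q (joins (f.inner g ⊓ f.avoid g') (v k) (f.port g'))) :
    ∑ k ∈ I, perc V q (D k) * b k ≤ f.meet q h g' y := by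
  classical
  have := f.countable
  have hST : Disjoint (f.avoid h ⊓ f.avoid g).edgeSet (f.inner g ⊓ f.avoid g').edgeSet :=
    (f.disjoint_inner_avoid g).symm.mono (edgeSet_mono inf_le_right) (edgeSet_mono inf_le_left)
  refine (indep_sum hST I (fun k hk => (hD k hk).2)
    (fun k _ => meas_joins _ (v k) (f.port g')) hdisj hb).trans
    (measure_mono (Set.iUnion₂_subset fun k hk ω hω => ?_))
  obtain ⟨w, hw, hc⟩ := mem_joins.1 hω.2
  have mono : ∀ {K K' : SimpleGraph V}, K ≤ K' → openGraph K ω ≤ openGraph K' ω :=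
    fun h' _ _ ha => ⟨h' ha.1, ha.2⟩
  exact mem_joins.2 ⟨w, hw, Reachable.trans
    (Reachable.mono (mono (inf_le_inf le_rfl (f.avoid_anti hs))) ((hD k hk).1 hω.1))
    (Reachable.mono (mono (inf_le_inf (f.inner_le_avoid hgh) le_rfl)) hc)⟩

/-- Crossing a half-tree and re-rooting inside it. -/
lemma Frame.spread {q : unitInterval} {σ : ℝ} (hσ : 0 < σ) (hσ1 : σ ≤ 1) {h g h₁ : Half f.T}
    (hgh : Disjoint g.side h.side) {y y₁ : V} {R M : ℕ}
    (hr : ∀ z ∈ f.port g, ∃ γ : Γ,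
      (f.sm γ h₁.op).fst ∈ g.side ∧ g.fst ∉ (f.sm γ h₁.op).side ∧
      f.T.dist g.fst (f.sm γ h₁.op).fst ≤ R ∧ f.avoid (f.sm γ h₁) ≤ f.inner g ∧
      ∃ p : (f.inner g).Walk z (γ • y₁), p.length ≤ M) [DecidableEq V]
    (A₃ : Finset (Half f.T)) (hA₃ : ∀ g₂ ∈ A₃, Disjoint g₂.side h₁.side)
    (hclear : ∀ g₂ ∈ A₃, ∀ u ∈ near f.H y₁ M, f.pr u ∉ g₂.side) :
    ∃ F : Finset (Half f.T), (∀ g' ∈ F, g'.side ⊆ g.side) ∧
      (ENNReal.ofReal ((q : ℝ) ^ M) / 2) ^ σ * f.meet q h g y ^ σ *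
        ∑ g₂ ∈ A₃, f.meet q h₁ g₂ y₁ ^ σ ≤ ∑ g' ∈ F, f.meet q h g' y ^ σ := by
  classical
  have := f.countable
  obtain ⟨I, D, hD, hdisj, hsum⟩ := exists_landing (p := q)
    (fun v : f.port g => conn (f.avoid h ⊓ f.avoid g) y v) fun v => meas_conn _ _ _
  choose γ hk₁ hk₂ hkR hav p hp using fun v : f.port g => hr v v.2
  set tg : f.port g × Half f.T → Half f.T := fun x => f.sm (γ x.1) x.2 with htg
  have hsub : ∀ x ∈ I ×ˢ A₃, (tg x).side ⊆ g.side := fun x hx => by
    refine subset_trans (f.sm_subset ?_) (Half.nested f.tree (hk₁ x.1) (hk₂ x.1)).1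
    rw [Half.op_side f.tree]
    exact Set.subset_compl_iff_disjoint_right.2 (hA₃ _ (Finset.mem_product.1 hx).2)
  refine ⟨(I ×ˢ A₃).image tg, fun g' hg' => ?_, ?_⟩
  · obtain ⟨x, hx, rfl⟩ := Finset.mem_image.1 hg'
    exact hsub x hx
  set Dm := ∑ v ∈ I, perc V q (D v) with hDm
  set Q := ENNReal.ofReal ((q : ℝ) ^ M) with hQ
  have hmeet : f.meet q h g y ≤ 2 * Dm := by
    refine le_trans (le_of_eq ?_) hsum
    rw [Frame.meet, joins_eq_iUnion, Set.biUnion_eq_iUnion]
  have hgroup : ∀ g' ∈ (I ×ˢ A₃).image tg,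
      ∑ x ∈ (I ×ˢ A₃).filter (fun x => tg x = g'),
        perc V q (D x.1) * (Q * f.meet q h₁ x.2 y₁) ^ σ ≤
      Dm ^ (1 - σ) * f.meet q h g' y ^ σ := by
    intro g' hg'
    obtain ⟨x₀, hx₀, rfl⟩ := Finset.mem_image.1 hg'
    set P := (I ×ˢ A₃).filter fun x => tg x = tg x₀
    have hinj : Set.InjOn (Prod.fst : f.port g × Half f.T → f.port g) P := by
      intro a ha b hb e
      have ha' : tg a = tg x₀ := (Finset.mem_filter.1 ha).2
      have hb' : tg b = tg x₀ := (Finset.mem_filter.1 hb).2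
      refine Prod.ext e ?_
      have h' := ha'.trans hb'.symm
      simp only [tg, e] at h'
      simpa [f.sm_inv_sm] using congrArg (f.sm (γ b.1)⁻¹) h'
    have hmem : ∀ x ∈ P, x.1 ∈ I ∧ x.2 ∈ A₃ ∧ tg x = tg x₀ := fun x hx => by
      obtain ⟨hx, he⟩ := Finset.mem_filter.1 hx
      exact ⟨(Finset.mem_product.1 hx).1, (Finset.mem_product.1 hx).2, he⟩
    refine (sum_mul_rpow_le hσ hσ1 P (fun x => perc V q (D x.1)) _).trans (mul_le_mul' ?_ ?_)
    · refine ENNReal.rpow_le_rpow ?_ (by linarith)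
      rw [← Finset.sum_image (f := fun v => perc V q (D v)) hinj]
      refine Finset.sum_le_sum_of_subset fun v hv => ?_
      obtain ⟨x, hx, rfl⟩ := Finset.mem_image.1 hv
      exact (hmem x hx).1
    · refine ENNReal.rpow_le_rpow (f.relay hgh (hsub x₀ hx₀) P (fun x => (x.1 : V))
        (fun x hx => hD x.1 (hmem x hx).1) (fun a ha b hb hne => hdisj (hmem a ha).1 (hmem b hb).1
          fun e => hne (hinj ha hb e)) fun x hx => ?_) hσ.le
      rw [← (hmem x hx).2.2]
      refine f.cross (hav x.1) (p x.1) (hp x.1) fun u hu hs => ?_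
      refine hclear _ (hmem x hx).2.1 _ (f.mem_near_of_walk (f.inner_le g) (p x.1) (hp x.1) u hu) ?_
      rw [← f.pr_mem_sm (γ x.1), smul_inv_smul]
      exact hs
  have htot : Dm * (Q ^ σ * ∑ g₂ ∈ A₃, f.meet q h₁ g₂ y₁ ^ σ) ≤
      Dm ^ (1 - σ) * ∑ g' ∈ (I ×ˢ A₃).image tg, f.meet q h g' y ^ σ := by
    rw [Finset.mul_sum (a := Q ^ σ), hDm, Finset.sum_mul_sum, ← Finset.sum_product',
      ← Finset.sum_fiberwise_of_maps_to (fun x hx => Finset.mem_image_of_mem tg hx),
      Finset.mul_sum]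
    refine Finset.sum_le_sum fun g' hg' => le_trans (le_of_eq ?_) (hgroup g' hg')
    exact Finset.sum_congr rfl fun x _ => by rw [ENNReal.mul_rpow_of_nonneg _ _ hσ.le]
  rcases eq_or_ne Dm 0 with h0 | h0
  · rw [nonpos_iff_eq_zero.1 (hmeet.trans_eq (by rw [h0, mul_zero])),
      ENNReal.zero_rpow_of_pos hσ]
    simp
  have htop : Dm ≠ ⊤ := ENNReal.sum_ne_top.2 fun v _ => measure_ne_top _ _
  set Z := ∑ g₂ ∈ A₃, f.meet q h₁ g₂ y₁ ^ σ
  have hcancel : Dm ^ σ * (Q ^ σ * Z) ≤ ∑ g' ∈ (I ×ˢ A₃).image tg, f.meet q h g' y ^ σ := by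
    refine (ENNReal.mul_le_mul_iff_right
      (ENNReal.rpow_pos (pos_iff_ne_zero.2 h0) htop).ne'
      (ENNReal.rpow_ne_top_of_nonneg (by linarith : (0 : ℝ) ≤ 1 - σ) htop)).1
      ((le_of_eq ?_).trans htot)
    rw [← mul_assoc, ← ENNReal.rpow_add _ _ h0 htop, sub_add_cancel, ENNReal.rpow_one]
  refine le_trans ?_ hcancel
  rw [← mul_assoc]
  refine mul_le_mul_left ?_ _
  rw [← ENNReal.mul_rpow_of_nonneg _ _ hσ.le, ← ENNReal.mul_rpow_of_nonneg _ _ hσ.le]
  refine ENNReal.rpow_le_rpow ?_ hσ.le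
  calc Q / 2 * f.meet q h g y ≤ Q / 2 * (2 * Dm) := mul_le_mul_right hmeet _
    _ = Dm * Q := by
        rw [← mul_assoc, ENNReal.div_mul_cancel two_ne_zero ENNReal.ofNat_ne_top, mul_comm]

/-- When the total is finite the growth is at most a constant. -/
theorem Frame.growth_le {a : ℝ} (ha : 0 < a) :
    ∃ K : ℝ≥0∞, K ≠ ⊤ ∧ ∀ (q : unitInterval) (σ : ℝ), a ≤ q → 0 < σ → σ ≤ 1 →
      f.total q σ ≠ ⊤ → f.growth q σ ≤ K := by
  classical
  obtain ⟨R, M, hr⟩ := f.exists_reroot 0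
  obtain ⟨Dg, -, hDg⟩ := f.exists_degree
  set B : ℕ := (Dg + 1) ^ M * (f.L * (M + 1) + 1)
  set c : ℝ≥0∞ := ENNReal.ofReal (a ^ M) / 2 with hc
  have hc0 : c ≠ 0 := by simp [c, ENNReal.div_eq_zero_iff, pow_pos ha M]
  have hct : c ≠ ⊤ := ENNReal.div_ne_top ENNReal.ofReal_ne_top two_ne_zero
  refine ⟨2 * (c⁻¹ + 1) + 2 * (B : ℝ≥0∞), by simp [hc0, ENNReal.mul_ne_top],
    fun q σ haq hσ hσ1 hfin => ?_⟩
  set E := f.total q σ with hE
  refine iSup_le fun h => iSup_le fun y => iSup₂_le fun A hA => ?_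
  set X := ∑ g ∈ A, f.meet q h g y ^ σ with hX
  have hXE : X ≤ E := f.le_total q σ y.2 hA.2
  have key : c ^ σ * X * E ≤ E + c ^ σ * X * B := by
    conv_lhs => rw [hE, Frame.total]
    simp only [ENNReal.mul_iSup]
    refine iSup_le fun h₁ => iSup_le fun y₁ => iSup₂_le fun A₂ hA₂ => ?_
    rw [← Finset.sum_filter_add_sum_filter_not A₂
      (fun g => ∃ u ∈ near f.H (y₁ : V) M, f.pr u ∈ g.side), mul_add, add_comm]
    refine add_le_add ?_ (mul_le_mul_right ?_ _)
    swap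
    · refine (Finset.sum_le_sum fun g _ => ENNReal.rpow_le_one (f.meet_le_one ..) hσ.le).trans ?_
      rw [Finset.sum_const, nsmul_one]
      refine Nat.cast_le.2 (f.card_bad hDg y₁.2 _ fun g hg => ?_)
      obtain ⟨hg, hu⟩ := Finset.mem_filter.1 hg
      exact ⟨fun hh => Set.disjoint_left.1 (hA₂ g hg) hh h₁.snd_mem, hu⟩
    set A₃ := A₂.filter fun g => ¬∃ u ∈ near f.H (y₁ : V) M, f.pr u ∈ g.side
    have hstep : ∀ g ∈ A, ∃ F : Finset (Half f.T), (∀ g' ∈ F, g'.side ⊆ g.side) ∧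
        c ^ σ * f.meet q h g y ^ σ * ∑ g₂ ∈ A₃, f.meet q h₁ g₂ y₁ ^ σ ≤
          ∑ g' ∈ F, f.meet q h g' y ^ σ := by
      intro g hg
      obtain ⟨F, hF, hFs⟩ := f.spread hσ hσ1 (hA.2 g hg) (y := (y : V)) (y₁ := (y₁ : V)) (R := R) (M := M)
        (fun z hz => by
          obtain ⟨γ, h1, h2, -, h4, -, h6, h7⟩ := hr g z hz h₁ y₁ y₁.2 g.fst
          exact ⟨γ, h1, h2, h4, h6, h7⟩)
        A₃ (fun g₂ hg₂ => hA₂ g₂ (Finset.mem_filter.1 hg₂).1)
        (fun g₂ hg₂ u hu hs => (Finset.mem_filter.1 hg₂).2 ⟨u, hu, hs⟩)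
      refine ⟨F, hF, le_trans (mul_le_mul_left (mul_le_mul_left ?_ _) _) hFs⟩
      exact ENNReal.rpow_le_rpow (ENNReal.div_le_div_right (ENNReal.ofReal_le_ofReal
        (pow_le_pow_left₀ ha.le haq M)) _) hσ.le
    choose! F hF hFsum using hstep
    have hd : (A : Set (Half f.T)).PairwiseDisjoint F := fun g hg g' hg' hne =>
      Finset.disjoint_left.2 fun k hk hk' => Set.disjoint_left.1
        ((hA.1 hg hg' hne).mono (hF g hg k hk) (hF g' hg' k hk')) k.snd_mem k.snd_mem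
    refine le_trans ?_ (f.le_total q σ y.2 (A := A.biUnion F) fun k hk => ?_)
    · rw [Finset.sum_biUnion hd, mul_assoc, hX, Finset.sum_mul, Finset.mul_sum]
      refine Finset.sum_le_sum fun g hg => le_trans (le_of_eq ?_) (hFsum g hg)
      ring
    · obtain ⟨g, hg, hk⟩ := Finset.mem_biUnion.1 hk
      exact (hA.2 g hg).mono_left (hF g hg k hk)
  rcases _root_.le_total E (2 * (B : ℝ≥0∞)) with h2 | h2
  · exact hXE.trans (h2.trans le_add_self)
  refine le_trans ?_ le_self_add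
  have hcσ : c ^ σ ≠ 0 := (ENNReal.rpow_pos (pos_iff_ne_zero.2 hc0) hct).ne'
  have hcσt : c ^ σ ≠ ⊤ := ENNReal.rpow_ne_top_of_nonneg hσ.le hct
  rcases eq_or_ne E 0 with hE0 | hE0
  · exact (hXE.trans_eq hE0).trans zero_le
  have hY : c ^ σ * X ≠ ⊤ := ENNReal.mul_ne_top hcσt (ne_top_of_le_ne_top hfin hXE)
  have h3 : c ^ σ * X * E + c ^ σ * X * E ≤ 2 * E + c ^ σ * X * E := by
    refine (add_le_add key key).trans (le_of_eq_of_le ?_ (add_le_add le_rfl
      (mul_le_mul_right h2 (c ^ σ * X))))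
    ring
  have h4 := (ENNReal.add_le_add_iff_right (ENNReal.mul_ne_top hY hfin)).1 h3
  have h5 := (ENNReal.mul_le_mul_iff_left hE0 hfin).1 h4
  calc X = (c ^ σ)⁻¹ * (c ^ σ * X) := by
        rw [← mul_assoc, ENNReal.inv_mul_cancel hcσ hcσt, one_mul]
    _ ≤ (c ^ σ)⁻¹ * 2 := mul_le_mul_right h5 _
    _ ≤ (c⁻¹ + 1) * 2 := by
        refine mul_le_mul_left ?_ _
        rw [← ENNReal.inv_rpow]
        rcases _root_.le_total c⁻¹ 1 with h' | h'
        · exact (ENNReal.rpow_le_one h' hσ.le).trans le_add_self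
        · exact ((ENNReal.rpow_le_rpow_of_exponent_le h' hσ1).trans
            (ENNReal.rpow_one _).le).trans le_self_add
    _ = _ := mul_comm _ _

end Vale.Agent.P165.TreeAct
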