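import Mathlib
import Vale.Agent.P165.TreeAct.Growth
import Vale.Agent.P165.TreeAct.Amp

/-!
The interfaces between the seed, the spreading of many port points to leaves, and the sums of
expected port counts over separated families.
-/

namespace Vale.Agent.P165.TreeAct

open MeasureTheory SimpleGraph
open Large (joins)
open P151 (openOcc)
open scoped ENNReal

variable {V τ Γ : Type} [Group Γ] [MulAction Γ V] [MulAction Γ τ] (f : Frame V τ Γ)

/-- The expected number of port vertices of `g` reached from `x` without using `Vs g`. -/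
noncomputable def Frame.Y (q : unitInterval) (x : V) (g : Half f.T) : ℝ≥0∞ :=
  ∑' z : f.port g, perc V q (conn (f.avoid g) x z)

/-- `p` is apart from `g`: disjoint from it, or deep inside it around the point `u`. -/
def Rel {T : SimpleGraph τ} (R : ℕ) (u : τ) (g p : Half T) : Prop :=
  Disjoint g.side p.side ∨ (p.side ⊆ g.side ∧ u ∈ p.side ∧ R < T.dist g.fst p.fst)

/-- Of any two members of the family one is apart from the other. -/
def Sep {T : SimpleGraph τ} (R : ℕ) (A : Finset (Half T)) (w : Half T → τ) : Prop :=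
  ∀ g ∈ A, ∀ g' ∈ A, g ≠ g' → Rel R (w g) g g' ∨ Rel R (w g') g' g

/-- A root and a code at one level, reached with probability at least `r` at a parameter below the
critical point, each landing re-rooting at one fixed distance. -/
structure Seed (σ₁ : ℝ) where
  q₀ : unitInterval
  q₀_pos : (0 : ℝ) < q₀
  q₀_lt : (q₀ : ℝ) < pc f.H
  h : Half f.T
  y : V
  hy : y ∈ f.port h
  A : Finset (Half f.T)
  code : RootCode h A
  n : ℕ
  level : ∀ g ∈ A, f.T.dist h.snd g.fst = n
  D₀ : ℕ
  M : ℕ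
  ℓ : ℕ
  Land : Half f.T → Finset V
  land : ∀ g ∈ A, ∀ v ∈ Land g, v ∈ f.port g
  entry : ∀ g ∈ A, ∀ v ∈ Land g, ∃ γ : Γ,
    (f.sm γ h.op).fst ∈ g.side ∧ g.fst ∉ (f.sm γ h.op).side ∧
    f.T.dist g.fst (f.sm γ h.op).fst = D₀ ∧ f.avoid (f.sm γ h) ≤ f.inner g ∧
    ∃ p : (f.inner g).Walk v (γ • y), p.length ≤ M
  clear : ∀ g ∈ A, ∀ (u : V) (p : f.H.Walk y u), p.length ≤ M → f.pr u ∉ g.side
  r : ℝ
  r_pos : 0 < r
  r_lt : r < 1
  count : 1 ≤ (A.card : ℝ) * r ^ σ₁
  prob : ∀ g ∈ A, ENNReal.ofReal r ≤ ENNReal.ofReal ((q₀ : ℝ) ^ M) *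
    perc V q₀ (openOcc (witUpTo (f.avoid h ⊓ f.avoid g) y (Land g : Set V) ℓ))

/-- From many port points of a half-tree, with total weight `b ^ (i + 1)` over disjoint leaves
inside it at nearly one depth, which keep apart from everything that is apart from it, the leaves
are reached with probability close to their weights. -/
def Frame.Spreads (q : unitInterval) (r : ℝ) (b R : ℕ) (m : ℝ) : Prop :=
  ∀ i : ℕ, ∃ N : ℕ,
    ∀ (g : Half f.T) (u : τ) (J : Finset V), (∀ z ∈ J, z ∈ f.port g) → J.Nonempty →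
    ∃ (F : Finset (Half f.T)) (π : Half f.T → ℝ≥0∞),
      (∀ w ∈ F, N ≤ f.T.dist g.fst w.fst ∧ f.T.dist g.fst w.fst ≤ N + R) ∧
      (∀ w ∈ F, w.side ⊆ g.side ∧ ∀ p : Half f.T, Rel R u g p → Disjoint w.side p.side) ∧
      (F : Set (Half f.T)).PairwiseDisjoint Half.side ∧ (∀ w ∈ F, π w ≤ 1) ∧
      ∑ w ∈ F, π w = (b : ℝ≥0∞) ^ (i + 1) ∧
      ∀ w ∈ F, ∀ p : Half f.T, Rel R u g p →
        ENNReal.ofReal (J.card * r ^ (i + 1) / (J.card * r ^ (i + 1) + m * (i + 1))) * π w ≤
          perc V q (⋃ z ∈ J, joins (f.inner g ⊓ f.avoid w ⊓ f.avoid p) z (f.port w))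

/-- From a vertex near a root, the expected port counts over a separated family are at most `W`. -/
def Frame.RootBound (q : unitInterval) (R M : ℕ) (W : ℝ≥0∞) : Prop :=
  ∀ (h : Half f.T) (x y : V), y ∈ f.port h → ∀ r : (f.avoid h).Walk x y, r.length ≤ M →
    ∀ (A : Finset (Half f.T)) (w : Half f.T → τ), Sep R A w → (∀ g ∈ A, Rel R (w g) g h) →
      ∑ g ∈ A, ∑' z : f.port g, perc V q (conn (f.avoid h ⊓ f.avoid g) x z) ≤ W

end Vale.Agent.P165.TreeAct
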