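import Mathlib
import Vale.Agent.P165.TreeAct.Sums

/-!
The interfaces between the chain of splitting connections, the bound on sums of port counts over
all separated families, and the tilted sums.
-/

namespace Vale.Agent.P165.TreeAct

open MeasureTheory SimpleGraph
open scoped ENNReal

variable {V τ Γ : Type} [Group Γ] [MulAction Γ V] [MulAction Γ τ] (f : Frame V τ Γ)

/-- Over every separated family away from `x` the expected port counts from `x` are at most `U`. -/
def Frame.CodeBound (q : unitInterval) (R : ℕ) (U : ℝ≥0∞) : Prop :=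
  ∀ (x : V) (A : Finset (Half f.T)) (w : Half f.T → τ), Sep R A w →
    (∀ g ∈ A, f.pr x ∉ g.side) → ∑ g ∈ A, f.Y q x g ≤ U

/-- Splitting the connections from every vertex along binary trees of half-trees of height `L₀`
and beyond: the heads, the levels beyond, and for each port point of a node two deep half-trees
which the rest of a connection avoids. -/
structure Chain where
  Δ : ℕ
  M : ℕ
  head : ℕ → V → Finset (Half f.T)
  card_head : ∀ L₀ x, (head L₀ x).card ≤ 2 ^ L₀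
  head_prop : ∀ L₀ x, ∀ k ∈ head L₀ x, f.pr x ∉ k.side ∧
    f.T.dist (f.pr x) k.fst ≤ M * (L₀ + 1) ∧
    ∃ y ∈ f.port k, ∃ r : (f.avoid k).Walk x y, r.length ≤ M * (L₀ + 1)
  Lev : ℕ → V → ℕ → Set (Half f.T)
  lev_code : ∀ L₀ x j, (Lev L₀ x j).PairwiseDisjoint Half.side
  lev_prop : ∀ L₀ x j, ∀ N ∈ Lev L₀ x j, f.pr x ∉ N.side ∧
    f.T.dist (f.pr x) N.fst ≤ Δ * (L₀ + j) + M
  deep : Half f.T → V → Fin 2 → Half f.T
  deep_prop : ∀ L₀ x j, ∀ N ∈ Lev L₀ x j, ∀ z ∈ f.port N, ∀ l,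
    f.pr z ∉ (deep N z l).side ∧ f.T.dist N.fst (deep N z l).fst ≤ M ∧
    ∃ y ∈ f.port (deep N z l), ∃ r : (f.avoid (deep N z l)).Walk z y, r.length ≤ M
  split : ∀ (q : unitInterval) (L₀ : ℕ) (x : V) (K : SimpleGraph V), K ≤ f.H → ∀ y : V,
    perc V q (conn K x y) ≤
      (2⁻¹ : ℝ≥0∞) ^ L₀ * ∑ k ∈ head L₀ x, perc V q (conn (K ⊓ f.avoidSide k) x y) +
      ∑' j : ℕ, (2⁻¹ : ℝ≥0∞) ^ (L₀ + j) * ∑' N : Lev L₀ x j, ∑' z : f.port (N : Half f.T),
        perc V q (conn (f.avoid (N : Half f.T)) x z) *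
          ∑ l : Fin 2, perc V q (conn (K ⊓ f.avoidSide (deep N z l)) z y)

end Vale.Agent.P165.TreeAct
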