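import Mathlib
import Vale.Agent.P165.TreeAct.Bounds

/-!
Chains: a connection from a vertex either avoids one of the heads of a binary tree of half-trees,
or it enters the tree and, from some port point of one of its nodes, avoids a deep half-tree.
-/

namespace Vale.Agent.P165.TreeAct

open MeasureTheory SimpleGraph
open Large (wit joins joins_singleton bk_two meas_openOcc meas_conn)
open P151 (openOcc)
open scoped ENNReal

variable {V τ Γ : Type} [Group Γ] [MulAction Γ V] [MulAction Γ τ] (f : Frame V τ Γ)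

/-! ### Descending translates of the basic half-tree -/

/-- `a` takes the basic half-tree into itself, moving its base away by `n`. -/
def Frame.Desc (a : Γ) (n : ℕ) : Prop :=
  (f.sm a f.e₀).side ⊆ f.e₀.side ∧
    ∀ c, c ∉ f.e₀.side → f.T.dist c (a • f.e₀.fst) = f.T.dist c f.e₀.fst + n

lemma Frame.desc_one : f.Desc 1 0 := by
  refine ⟨by rw [f.sm_one], fun c _ => ?_⟩
  rw [one_smul, Nat.add_zero]

variable {f} in
lemma Frame.Desc.sub {a : Γ} {n : ℕ} (h : f.Desc a n) (δ : Γ) :
    (f.sm (δ * a) f.e₀).side ⊆ (f.sm δ f.e₀).side := by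
  rw [f.sm_mul]
  exact f.sm_subset h.1

variable {f} in
lemma Frame.Desc.dist {a : Γ} {n : ℕ} (h : f.Desc a n) (δ : Γ) {c : τ}
    (hc : c ∉ (f.sm δ f.e₀).side) :
    f.T.dist c (f.sm (δ * a) f.e₀).fst = f.T.dist c (f.sm δ f.e₀).fst + n := by
  have h1 := h.2 (δ⁻¹ • c) fun h' => hc (f.mem_sm.2 h')
  have e : ∀ y, f.T.dist (δ⁻¹ • c) y = f.T.dist c (δ • y) := fun y => by
    rw [← f.dist_smul δ (δ⁻¹ • c) y, smul_inv_smul]
  rw [e, e, smul_smul] at h1
  exact h1

variable {f} in
lemma Frame.Desc.mul {a b : Γ} {n m : ℕ} (ha : f.Desc a n) (hb : f.Desc b m) :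
    f.Desc (a * b) (n + m) := by
  refine ⟨(hb.sub a).trans ha.1, fun c hc => ?_⟩
  have h1 := hb.dist a (c := c) fun h' => hc (ha.1 h')
  simp only [Frame.sm] at h1
  rw [h1, ha.2 c hc, Nat.add_assoc]

variable {f} in
lemma Frame.Desc.pow {a : Γ} {n : ℕ} (ha : f.Desc a n) : ∀ k : ℕ, f.Desc (a ^ k) (k * n)
  | 0 => by simpa using f.desc_one
  | k + 1 => by
    rw [pow_succ, Nat.succ_mul]
    exact (Frame.Desc.pow ha k).mul ha

variable {f} in
/-- Points of a descending translate are far from the base. -/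
lemma Frame.Desc.lt_dist {a : Γ} {n : ℕ} (h : f.Desc a n) (δ : Γ) {u : τ}
    (hu : u ∈ (f.sm (δ * a) f.e₀).side) : n < f.T.dist (f.sm δ f.e₀).fst u := by
  have hc : (f.sm δ f.e₀).fst ∉ (f.sm δ f.e₀).side := Half.fst_notMem _
  have h1 := h.dist δ hc
  rw [SimpleGraph.dist_self, Nat.zero_add] at h1
  have h2 := Half.dist_fst_lt f.tree hu (fun h' => hc (h.sub δ h'))
  omega

lemma Frame.exists_desc_of_ssubset {a : Γ} (h : (f.sm a f.e₀).side ⊂ f.e₀.side) :
    ∃ n, 1 ≤ n ∧ f.Desc a n := by
  rcases (Half.subset_iff f.tree).1 h.subset with e | ⟨h1, -⟩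
  · exact absurd (congrArg Half.side e) h.ne
  · refine ⟨f.T.dist f.e₀.fst (a • f.e₀.fst), ?_, h.subset, fun c hc => ?_⟩
    · have := Half.dist_fst f.tree h1
      simp only [Frame.sm] at this
      omega
    · have h1' : a • f.e₀.fst ∈ f.e₀.side := h1
      have h2 := Half.dist_cross f.tree h1' hc
      have h3 := Half.dist_fst f.tree h1'
      rw [f.T.dist_comm (u := c) (v := a • f.e₀.fst), h2, f.T.dist_comm (u := c) (v := f.e₀.fst),
        f.T.dist_comm (u := a • f.e₀.fst) (v := f.e₀.snd)]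
      omega

/-- Two descending elements of one depth with disjoint half-trees. -/
lemma Frame.exists_pair : ∃ (η : Fin 2 → Γ) (Δ : ℕ), 1 ≤ Δ ∧ (∀ l, f.Desc (η l) Δ) ∧
    ∀ δ : Γ, Disjoint (f.sm (δ * η 0) f.e₀).side (f.sm (δ * η 1) f.e₀).side := by
  obtain ⟨n₁, hn₁, h₁⟩ := f.exists_desc_of_ssubset f.sub₁
  obtain ⟨n₂, -, h₂⟩ := f.exists_desc_of_ssubset f.sub₂
  refine ⟨![f.γ₁ * f.γ₂, f.γ₂ * f.γ₁], n₁ + n₂, by omega, Fin.forall_fin_two.2 ⟨h₁.mul h₂, ?_⟩,
    fun δ => ?_⟩
  · rw [Nat.add_comm]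
    exact h₂.mul h₁
  · simp only [Matrix.cons_val_zero, Matrix.cons_val_one]
    rw [f.sm_mul δ, f.sm_mul δ]
    exact (f.sm_disjoint f.disj₁₂).mono (f.sm_subset (h₂.sub f.γ₁)) (f.sm_subset (h₁.sub f.γ₂))

/-! ### Binary words -/

/-- The product along a word. -/
def addr (η : Fin 2 → Γ) : (n : ℕ) → (Fin n → Fin 2) → Γ
  | 0, _ => 1
  | n + 1, w => addr η n (Fin.init w) * η (w (Fin.last n))

lemma Frame.desc_addr {η : Fin 2 → Γ} {Δ : ℕ} (hη : ∀ l, f.Desc (η l) Δ) :
    ∀ (n : ℕ) (w : Fin n → Fin 2), f.Desc (addr η n w) (n * Δ)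
  | 0, w => by simpa [addr] using f.desc_one
  | n + 1, w => by
    rw [Nat.succ_mul]
    exact (Frame.desc_addr hη n _).mul (hη _)

lemma Frame.disjoint_addr {η : Fin 2 → Γ} {Δ : ℕ} (hη : ∀ l, f.Desc (η l) Δ)
    (hd : ∀ δ : Γ, Disjoint (f.sm (δ * η 0) f.e₀).side (f.sm (δ * η 1) f.e₀).side) :
    ∀ (n : ℕ) (δ : Γ) (w w' : Fin n → Fin 2), w ≠ w' →
      Disjoint (f.sm (δ * addr η n w) f.e₀).side (f.sm (δ * addr η n w') f.e₀).side := by
  intro n
  induction n with
  | zero => exact fun δ w w' h => absurd (Subsingleton.elim w w') h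
  | succ n ih =>
    intro δ w w' h
    simp only [addr, ← mul_assoc]
    rcases eq_or_ne (Fin.init w) (Fin.init w') with e | e
    · have hl : w (Fin.last n) ≠ w' (Fin.last n) := fun hh =>
        h (by rw [← Fin.snoc_init_self w, ← Fin.snoc_init_self w', e, hh])
      rw [e]
      have key : ∀ δ : Γ, ∀ a b : Fin 2, a ≠ b →
          Disjoint (f.sm (δ * η a) f.e₀).side (f.sm (δ * η b) f.e₀).side := fun δ =>
        Fin.forall_fin_two.2 ⟨Fin.forall_fin_two.2 ⟨fun h => absurd rfl h, fun _ => hd δ⟩,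
          Fin.forall_fin_two.2 ⟨fun _ => (hd δ).symm, fun h => absurd rfl h⟩⟩
      exact key _ _ _ hl
    · exact (ih δ _ _ e).mono ((hη _).sub _) ((hη _).sub _)

/-- A fixed walk serves every word: the vertices along it are linearly close. -/
lemma Frame.hwalk_addr (η : Fin 2 → Γ) (v : V) :
    ∃ D : ℕ, ∀ (n : ℕ) (δ : Γ) (w : Fin n → Fin 2),
      ∃ p : f.H.Walk (δ • v) ((δ * addr η n w) • v), p.length ≤ D * n := by
  let q := fun l : Fin 2 => (f.connected.preconnected v (η l • v)).some
  refine ⟨(q 0).length + (q 1).length, fun n => ?_⟩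
  induction n with
  | zero => exact fun δ w => ⟨Walk.nil.copy rfl (by simp [addr]), by simp⟩
  | succ n ih =>
    intro δ w
    obtain ⟨p, hp⟩ := ih δ (Fin.init w)
    refine ⟨(p.append (f.moveWalk (δ * addr η n (Fin.init w)) (q (w (Fin.last n))))).copy rfl
      (by simp [addr, mul_smul]), ?_⟩
    rw [Walk.length_copy, Walk.length_append, f.length_moveWalk, Nat.mul_succ]
    have : (q (w (Fin.last n))).length ≤ (q 0).length + (q 1).length := by
      exact (Fin.forall_fin_two (p := fun l => (q l).length ≤ (q 0).length + (q 1).length)).2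
        ⟨Nat.le_add_right _ _, Nat.le_add_left _ _⟩ (w (Fin.last n))
    omega

/-! ### The pointwise splitting -/

/-- Disjoint occurrence of a connection to `z` away from `N` and one from `z` away from `d`. -/
def Frame.pieces (K : SimpleGraph V) (x y : V) (N d : Half f.T) (z : V) :
    Set (Sym2 V → Bool) :=
  {ω | ∃ s ∈ wit (f.avoid N) x {z}, ∃ t ∈ wit (K ⊓ f.avoidSide d) z {y},
    Disjoint s t ∧ (∀ e ∈ s, ω e = true) ∧ ∀ e ∈ t, ω e = true}

include f in
lemma Frame.meas_pieces (K : SimpleGraph V) (x y : V) (N d : Half f.T) (z : V) :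
    MeasurableSet (f.pieces K x y N d z) := by
  classical
  have := f.countable
  have e : f.pieces K x y N d z = openOcc {u | ∃ s ∈ wit (f.avoid N) x {z},
      ∃ t ∈ wit (K ⊓ f.avoidSide d) z {y}, Disjoint s t ∧ u = s ∪ t} := by
    ext ω
    constructor
    · rintro ⟨s, hs, t, ht, hd, h1, h2⟩
      exact ⟨s ∪ t, ⟨s, hs, t, ht, hd, rfl⟩, fun e he =>
        (Finset.mem_union.1 he).elim (h1 e) (h2 e)⟩
    · rintro ⟨_, ⟨s, hs, t, ht, hd, rfl⟩, ho⟩
      exact ⟨s, hs, t, ht, hd, fun e he => ho e (Finset.mem_union_left _ he),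
        fun e he => ho e (Finset.mem_union_right _ he)⟩
  rw [e]
  exact (meas_openOcc (S := Set.univ) fun _ _ => Set.subset_univ _).measurableSet

lemma Frame.perc_pieces (q : unitInterval) (K : SimpleGraph V) (x y : V) (N d : Half f.T) (z : V) :
    perc V q (f.pieces K x y N d z) ≤
      perc V q (conn (f.avoid N) x z) * perc V q (conn (K ⊓ f.avoidSide d) z y) := by
  have := f.countable
  refine (bk_two _ _).trans (le_of_eq ?_)
  rw [← joins_singleton, ← joins_singleton]
  rfl

/-- An open simple path meeting `Vs N` either continues away from one of two half-trees after its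
first visit, or it meets both. -/
lemma Frame.step_point {K : SimpleGraph V} (hK : K ≤ f.H) {x y : V} {ω : Sym2 V → Bool}
    (p : K.Walk x y) (hp : p.IsPath) (hpo : ∀ e ∈ p.edges, ω e = true) {N : Half f.T}
    (hx : f.pr x ∉ N.side) (hmeet : ∃ v ∈ p.support, v ∈ f.Vs N) :
    ∃ z ∈ f.port N, ∀ d : Half f.T,
      ω ∈ f.pieces K x y N d z ∨ ∃ v ∈ p.support, f.pr v ∈ d.side := by
  classical
  have hxN : x ∉ f.Vs N := fun h => hx h.1
  obtain ⟨u, z, r, huz, r', hz, hpq, hr⟩ := cut_first (f.Vs N) p hxN hmeet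
  have hu : u ∉ f.Vs N := hr u r.end_mem_support
  refine ⟨z, ⟨hz, u, (hK huz).symm, hu⟩, fun d => ?_⟩
  by_cases hd : ∃ v ∈ r'.support, f.pr v ∈ d.side
  · obtain ⟨v, hv, hvd⟩ := hd
    refine Or.inr ⟨v, ?_, hvd⟩
    rw [hpq, Walk.mem_support_append_iff, Walk.support_cons]
    exact Or.inr (List.mem_cons_of_mem _ hv)
  push Not at hd
  refine Or.inl ?_
  have hnd := hp.isTrail.edges_nodup
  rw [hpq, Walk.edges_append, List.nodup_append, Walk.edges_cons, List.nodup_cons] at hnd
  have h1 : ∀ e ∈ (r.concat huz).edges, e ∈ (f.avoid N).edgeSet := by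
    intro e he
    simp only [Walk.edges_concat, List.concat_eq_append, List.mem_append, List.mem_singleton] at he
    rcases he with he | rfl
    · induction e using Sym2.ind with
      | _ a b => exact ⟨hK (r.adj_of_mem_edges he),
          fun h => hr a (r.fst_mem_support_of_mem_edges he) h.1⟩
    · exact ⟨hK huz, fun h => hu h.1⟩
  have h2 : ∀ e ∈ r'.edges, e ∈ (K ⊓ f.avoidSide d).edgeSet := by
    intro e he
    induction e using Sym2.ind with
    | _ a b => exact ⟨r'.adj_of_mem_edges he, hK (r'.adj_of_mem_edges he),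
        hd a (r'.fst_mem_support_of_mem_edges he), hd b (r'.snd_mem_support_of_mem_edges he)⟩
  refine ⟨(r.concat huz).edges.toFinset,
    ⟨z, rfl, (r.concat huz).transfer _ h1, fun e => by rw [List.mem_toFinset, Walk.edges_transfer]⟩,
    r'.edges.toFinset,
    ⟨y, rfl, r'.transfer _ h2, fun e => by rw [List.mem_toFinset, Walk.edges_transfer]⟩,
    ?_, fun e he => hpo e ?_, fun e he => hpo e ?_⟩
  · refine Finset.disjoint_left.2 fun e he he' => ?_
    simp only [List.mem_toFinset, Walk.edges_concat, List.concat_eq_append, List.mem_append,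
      List.mem_singleton] at he he'
    rcases he with he | rfl
    · exact hnd.2.2 e he e (List.mem_cons_of_mem _ he') rfl
    · exact hnd.2.1.1 he'
  · simp only [List.mem_toFinset, Walk.edges_concat, List.concat_eq_append, List.mem_append,
      List.mem_singleton] at he
    rw [hpq]
    simp only [Walk.edges_append, Walk.edges_cons, List.mem_append, List.mem_cons]
    tauto
  · rw [hpq]
    simp only [Walk.edges_append, Walk.edges_cons, List.mem_append, List.mem_cons]
    exact Or.inr (Or.inr (List.mem_toFinset.1 he))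

/-- A tree of half-trees away from `x`, with two deep half-trees at each port point of a node. -/
structure Split (x : V) (ι : Type) where
  node : ι → Half f.T
  head : ι → Half f.T
  Lev : ℕ → Set (Half f.T)
  child : Half f.T → V → Fin 2 → Half f.T
  deep : Half f.T → V → Fin 2 → Half f.T
  node_mem : ∀ i, node i ∈ Lev 0
  node_inj : Function.Injective node
  head_in : ∀ i v, f.pr v ∈ (head i).side → v ∈ f.Vs (node i)
  out : ∀ j, ∀ N ∈ Lev j, f.pr x ∉ N.side
  far : ∀ j, ∀ N ∈ Lev j, j ≤ f.T.dist (f.pr x) N.fst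
  code : ∀ j, (Lev j).PairwiseDisjoint Half.side
  child_mem : ∀ j, ∀ N ∈ Lev j, ∀ z ∈ f.port N, ∀ l, child N z l ∈ Lev (j + 1)
  child_sub : ∀ j, ∀ N ∈ Lev j, ∀ z ∈ f.port N, ∀ l, (child N z l).side ⊆ N.side
  child_disj : ∀ j, ∀ N ∈ Lev j, ∀ z ∈ f.port N,
    Disjoint (child N z 0).side (child N z 1).side
  deep_in : ∀ j, ∀ N ∈ Lev j, ∀ z ∈ f.port N, ∀ l v,
    f.pr v ∈ (deep N z l).side → v ∈ f.Vs (child N z l)
  countable : ∀ j, (Lev j).Countable

variable {f}

/-- The pieces at level `j`. -/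
noncomputable def Split.T {x : V} {ι : Type} (S : Split f x ι) (K : SimpleGraph V) (y : V) (j : ℕ)
    (ω : Sym2 V → Bool) : ℝ≥0∞ :=
  ∑' N : S.Lev j, ∑' z : f.port (N : Half f.T), ∑ l : Fin 2,
    (f.pieces K x y N (S.deep N z l) z).indicator 1 ω

open Classical in
/-- The members of a level whose vertex sets a path meets. -/
lemma Split.finite_met {x : V} {ι : Type} (S : Split f x ι) {K : SimpleGraph V} {y : V}
    (p : K.Walk x y) (j : ℕ) : {N ∈ S.Lev j | ∃ v ∈ p.support, v ∈ f.Vs N}.Finite := by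
  refine (p.support.toFinset.finite_toSet.biUnion
    (t := fun v => {N ∈ S.Lev j | f.pr v ∈ N.side}) fun v _ => Set.Subsingleton.finite ?_).subset ?_
  · intro N hN M hM
    by_contra hne
    exact Set.disjoint_left.1 (S.code j hN.1 hM.1 hne) hN.2 hM.2
  · rintro N ⟨hN, v, hv, hvN⟩
    simp only [Set.mem_iUnion]
    exact ⟨v, by simpa using hv, hN, hvN.1⟩

/-- Every open simple path is counted by the heads or by the pieces of the levels. -/
theorem Split.point {x : V} {ι : Type} [Fintype ι] (S : Split f x ι) {K : SimpleGraph V}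
    (hK : K ≤ f.H) {y : V} {ω : Sym2 V → Bool} (hω : ω ∈ conn K x y) :
    (Fintype.card ι : ℝ≥0∞) ≤ ∑ i, (conn (K ⊓ f.avoidSide (S.head i)) x y).indicator 1 ω +
      ∑' j : ℕ, (2⁻¹ : ℝ≥0∞) ^ j * S.T K y j ω := by
  classical
  obtain ⟨p, hp, hpo'⟩ := exists_path_of_mem_conn hω
  have hpo : ∀ e ∈ p.edges, ω e = true := fun e he => hpo' e (List.mem_toFinset.2 he)
  set met : ℕ → Finset (Half f.T) := fun j => (S.finite_met p j).toFinset with hmet
  have hmem : ∀ {j N}, N ∈ met j ↔ N ∈ S.Lev j ∧ ∃ v ∈ p.support, v ∈ f.Vs N := by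
    intro j N; simp [met]
  have hstep : ∀ j, ((met j).card : ℝ≥0∞) ≤ S.T K y j ω + 2⁻¹ * (met (j + 1)).card := by
    intro j
    have hz : ∀ N ∈ met j, ∃ z ∈ f.port N, ∀ d : Half f.T,
        ω ∈ f.pieces K x y N d z ∨ ∃ v ∈ p.support, f.pr v ∈ d.side := fun N hN =>
      f.step_point hK p hp hpo (S.out j N (hmem.1 hN).1) (hmem.1 hN).2
    have : Nonempty V := ⟨x⟩
    choose! z hzp hzd using hz
    set A := (met j).filter fun N => ∃ l, ω ∈ f.pieces K x y N (S.deep N (z N) l) (z N)
    set B := (met j).filter fun N => ¬∃ l, ω ∈ f.pieces K x y N (S.deep N (z N) l) (z N)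
    have hA : (A.card : ℝ≥0∞) ≤ S.T K y j ω := by
      set g : Half f.T → ℝ≥0∞ := fun N => ∑' z : f.port N, ∑ l : Fin 2,
        (f.pieces K x y N (S.deep N z l) z).indicator 1 ω with hg
      have hsub : ∀ N ∈ A, N ∈ S.Lev j := fun N hN => (hmem.1 (Finset.mem_filter.1 hN).1).1
      have h1 : ∀ N ∈ A, (1 : ℝ≥0∞) ≤ g N := by
        intro N hN
        obtain ⟨hN, l, hl⟩ := Finset.mem_filter.1 hN
        refine le_trans ?_ (ENNReal.le_tsum ⟨z N, hzp N hN⟩)
        refine le_trans ?_ (Finset.single_le_sum (fun i _ => zero_le) (Finset.mem_univ l))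
        rw [Set.indicator_of_mem hl]
        rfl
      calc (A.card : ℝ≥0∞) = ∑ N ∈ A, 1 := by simp
        _ ≤ ∑ N ∈ A, g N := Finset.sum_le_sum h1
        _ = ∑ N ∈ A.subtype (· ∈ S.Lev j), g N :=
            (Finset.sum_subtype_of_mem g hsub).symm
        _ ≤ _ := ENNReal.sum_le_tsum _
    have hB : 2 * B.card ≤ (met (j + 1)).card := by
      rw [show 2 * B.card = (B ×ˢ (Finset.univ : Finset (Fin 2))).card by simp [mul_comm]]
      have hBm : ∀ N ∈ B, N ∈ met j ∧ N ∈ S.Lev j := fun N hN =>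
        ⟨(Finset.mem_filter.1 hN).1, (hmem.1 (Finset.mem_filter.1 hN).1).1⟩
      refine Finset.card_le_card_of_injOn (fun a => S.child a.1 (z a.1) a.2) (fun a ha => ?_) ?_
      · obtain ⟨haB, -⟩ := Finset.mem_product.1 ha
        obtain ⟨hm, hl⟩ := hBm _ haB
        refine hmem.2 ⟨S.child_mem j _ hl _ (hzp _ hm) _, ?_⟩
        rcases hzd _ hm (S.deep a.1 (z a.1) a.2) with h | ⟨v, hv, hvd⟩
        · exact absurd ⟨a.2, h⟩ (Finset.mem_filter.1 haB).2
        · exact ⟨v, hv, S.deep_in j _ hl _ (hzp _ hm) _ v hvd⟩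
      · rintro ⟨N, l⟩ ha ⟨N', l'⟩ hb e
        obtain ⟨haB, -⟩ := Finset.mem_product.1 ha
        obtain ⟨hbB, -⟩ := Finset.mem_product.1 hb
        dsimp only at e haB hbB
        obtain ⟨hm, hl⟩ := hBm _ haB
        obtain ⟨hm', hl'⟩ := hBm _ hbB
        obtain rfl : N = N' := by
          by_contra hne
          exact Set.disjoint_left.1 (S.code j hl hl' hne)
            (S.child_sub j _ hl _ (hzp _ hm) l (S.child N (z N) l).snd_mem)
            (S.child_sub j _ hl' _ (hzp _ hm') l' (e ▸ (S.child N (z N) l).snd_mem))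
        obtain rfl : l = l' := by
          by_contra hne
          have hd := S.child_disj j _ hl _ (hzp _ hm)
          have key : ∀ a b : Fin 2, a ≠ b → S.child N (z N) a ≠ S.child N (z N) b := by
            refine Fin.forall_fin_two.2 ⟨Fin.forall_fin_two.2 ⟨fun h => absurd rfl h, fun _ h => ?_⟩,
              Fin.forall_fin_two.2 ⟨fun _ h => ?_, fun h => absurd rfl h⟩⟩
            · rw [h] at hd
              exact Set.disjoint_left.1 hd (Half.snd_mem _) (Half.snd_mem _)
            · rw [h] at hd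
              exact Set.disjoint_left.1 hd (Half.snd_mem _) (Half.snd_mem _)
          exact key l l' hne e
        rfl
    have hsplit : (met j).card = A.card + B.card :=
      (Finset.card_filter_add_card_filter_not _).symm
    rw [hsplit, Nat.cast_add]
    refine add_le_add hA ?_
    calc (B.card : ℝ≥0∞) = 2⁻¹ * (2 * B.card) := by
          rw [← mul_assoc, ENNReal.inv_mul_cancel two_ne_zero ENNReal.ofNat_ne_top, one_mul]
      _ ≤ _ := mul_le_mul_right (by exact_mod_cast hB) _
  have hiter : ∀ m, ((met 0).card : ℝ≥0∞) ≤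
      ∑ j ∈ Finset.range m, (2⁻¹ : ℝ≥0∞) ^ j * S.T K y j ω + 2⁻¹ ^ m * (met m).card := by
    intro m
    induction m with
    | zero => simp
    | succ m ih =>
      refine ih.trans ?_
      rw [Finset.sum_range_succ, add_assoc, pow_succ, mul_assoc, ← mul_add]
      exact add_le_add le_rfl (mul_le_mul_right (hstep m) _)
  obtain ⟨m, hm⟩ : ∃ m, (met m).card = 0 := by
    refine ⟨(p.support.toFinset.sup fun v => f.T.dist (f.pr x) (f.pr v)) + 1, ?_⟩
    rw [Finset.card_eq_zero, Finset.eq_empty_iff_forall_notMem]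
    intro N hN
    obtain ⟨hN, v, hv, hvN⟩ := hmem.1 hN
    have h1 := S.far _ N hN
    have h2 := Half.dist_fst_lt f.tree hvN.1 (S.out _ N hN)
    have h3 : f.T.dist (f.pr x) (f.pr v) ≤ p.support.toFinset.sup fun v => f.T.dist (f.pr x) (f.pr v) :=
      Finset.le_sup (f := fun v => f.T.dist (f.pr x) (f.pr v)) (List.mem_toFinset.2 hv)
    omega
  have h0 : ((met 0).card : ℝ≥0∞) ≤ ∑' j : ℕ, (2⁻¹ : ℝ≥0∞) ^ j * S.T K y j ω := by
    refine (hiter m).trans ?_
    rw [hm, Nat.cast_zero, mul_zero, add_zero]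
    exact ENNReal.sum_le_tsum _
  set C := Finset.univ.filter fun i => ω ∈ conn (K ⊓ f.avoidSide (S.head i)) x y
  set C' := Finset.univ.filter fun i => ω ∉ conn (K ⊓ f.avoidSide (S.head i)) x y
  have hcard : Fintype.card ι = C.card + C'.card :=
    (Finset.card_filter_add_card_filter_not (s := Finset.univ) _).symm
  rw [hcard, Nat.cast_add]
  refine add_le_add (le_of_eq ?_) (le_trans (Nat.cast_le.2 ?_) h0)
  · rw [Finset.card_filter, Nat.cast_sum]
    exact Finset.sum_congr rfl fun i _ => by simp [Set.indicator_apply]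
  · refine Finset.card_le_card_of_injOn S.node (fun i hi => ?_) S.node_inj.injOn
    refine hmem.2 ⟨S.node_mem i, ?_⟩
    by_contra hno
    push Not at hno
    refine (Finset.mem_filter.1 hi).2 (reachable_openGraph_of_walk (p.transfer _ fun e he => ?_)
      (by simpa [Walk.edges_transfer] using hpo))
    induction e using Sym2.ind with
    | _ a b => exact ⟨p.adj_of_mem_edges he, hK (p.adj_of_mem_edges he),
        fun h => hno a (p.fst_mem_support_of_mem_edges he) (S.head_in i a h),
        fun h => hno b (p.snd_mem_support_of_mem_edges he) (S.head_in i b h)⟩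

/-- The probability form of the splitting. -/
theorem Split.bound {x : V} {ι : Type} [Fintype ι] (S : Split f x ι) (q : unitInterval)
    {K : SimpleGraph V} (hK : K ≤ f.H) (y : V) :
    (Fintype.card ι : ℝ≥0∞) * perc V q (conn K x y) ≤
      ∑ i, perc V q (conn (K ⊓ f.avoidSide (S.head i)) x y) +
      ∑' j : ℕ, (2⁻¹ : ℝ≥0∞) ^ j * ∑' N : S.Lev j, ∑' z : f.port (N : Half f.T),
        perc V q (conn (f.avoid (N : Half f.T)) x z) *
          ∑ l : Fin 2, perc V q (conn (K ⊓ f.avoidSide (S.deep N z l)) z y) := by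
  classical
  have := f.countable
  have hcj : ∀ j, Countable (S.Lev j) := fun j => (S.countable j).to_subtype
  have hm : ∀ (K : SimpleGraph V) a b, MeasurableSet (conn K a b) := fun K a b =>
    (meas_conn K a b).measurableSet
  have hmi : ∀ i, Measurable fun ω => (conn (K ⊓ f.avoidSide (S.head i)) x y).indicator
      (1 : (Sym2 V → Bool) → ℝ≥0∞) ω := fun i => measurable_one.indicator (hm _ _ _)
  have hp : ∀ j (N : S.Lev j) (z : f.port (N : Half f.T)) (l : Fin 2), Measurable fun ω =>
      (f.pieces K x y N (S.deep N z l) z).indicator (1 : (Sym2 V → Bool) → ℝ≥0∞) ω :=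
    fun j N z l => measurable_one.indicator (f.meas_pieces ..)
  have hT : ∀ j, Measurable (S.T K y j) := fun j =>
    Measurable.tsum fun N => Measurable.tsum fun z =>
      Finset.measurable_fun_sum _ fun l _ => hp j N z l
  calc (Fintype.card ι : ℝ≥0∞) * perc V q (conn K x y)
      = ∫⁻ ω, (Fintype.card ι : ℝ≥0∞) * (conn K x y).indicator 1 ω ∂perc V q := by
        rw [lintegral_const_mul _ (measurable_one.indicator (hm _ _ _)),
          lintegral_indicator_one (hm _ _ _)]
    _ ≤ ∫⁻ ω, (∑ i, (conn (K ⊓ f.avoidSide (S.head i)) x y).indicator 1 ω +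
          ∑' j : ℕ, (2⁻¹ : ℝ≥0∞) ^ j * S.T K y j ω) ∂perc V q := by
        refine lintegral_mono fun ω => ?_
        by_cases hω : ω ∈ conn K x y
        · rw [Set.indicator_of_mem hω, Pi.one_apply, mul_one]
          exact S.point hK hω
        · rw [Set.indicator_of_notMem hω, mul_zero]
          exact zero_le
    _ ≤ _ := by
        rw [lintegral_add_left (Finset.measurable_fun_sum _ fun i _ => hmi i),
          lintegral_finsetSum _ fun i _ => hmi i,
          lintegral_tsum fun j => ((hT j).const_mul _).aemeasurable]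
        refine add_le_add (le_of_eq (Finset.sum_congr rfl fun i _ =>
          lintegral_indicator_one (hm _ _ _))) (ENNReal.tsum_le_tsum fun j => ?_)
        rw [lintegral_const_mul _ (hT j)]
        refine mul_le_mul_right ?_ _
        unfold Split.T
        rw [lintegral_tsum fun N => (Measurable.tsum fun z =>
          Finset.measurable_fun_sum _ fun l _ => hp j N z l).aemeasurable]
        refine ENNReal.tsum_le_tsum fun N => ?_
        rw [lintegral_tsum fun z => (Finset.measurable_fun_sum _ fun l _ => hp j N z l).aemeasurable]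
        refine ENNReal.tsum_le_tsum fun z => ?_
        rw [lintegral_finsetSum _ fun l _ => hp j N z l, Finset.mul_sum]
        refine Finset.sum_le_sum fun l _ => ?_
        rw [lintegral_indicator_one (f.meas_pieces ..)]
        exact f.perc_pieces ..

/-! ### The chain -/

variable (f)

/-- Splitting along binary trees of half-trees exists at every vertex. -/
theorem Frame.exists_chain : Nonempty (Chain f) := by
  classical
  have := f.countable
  obtain ⟨η, Δ, hΔ, hη, hdisj⟩ := f.exists_pair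
  set ee := f.depth + f.L + 1 with hee
  set a := η 0 ^ ee with ha
  have hda : f.Desc a (ee * Δ) := (hη 0).pow ee
  have hbig : ee ≤ ee * Δ := Nat.le_mul_of_pos_right _ hΔ
  have hκ : ∀ o : V, ∃ κ : Γ, f.pr o ∉ (f.sm κ f.e₀).side := fun o => by
    obtain ⟨b, hb, -⟩ := f.exists_branches (f.pr o)
    obtain ⟨κ, hκ⟩ := f.exists_basic (b 0)
    exact ⟨κ, fun h => (b 0).fst_notMem ((hb 0).symm ▸ hκ h)⟩
  choose κ hκ using hκ
  obtain ⟨v, hv⟩ : ∃ v, v ∈ f.Vs f.e₀ := ⟨_, (f.port_nonempty f.e₀).some_mem.1⟩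
  have hvmem : ∀ g : Γ, g • v ∈ f.Vs (f.sm g f.e₀) := fun g => (f.Vs_smul g _ v).2 hv
  -- the ends of the translates of `a` are deep
  have hdeep : ∀ (δ : Γ) (u : V), f.pr u ∈ (f.sm (δ * a) f.e₀).side →
      u ∈ f.Vs (f.sm δ f.e₀) := fun δ u hu =>
    f.deep_mem_Vs (hda.sub δ hu) (lt_of_lt_of_le (by omega) (hda.lt_dist δ hu).le)
  -- labels of the port points
  obtain ⟨P, -, hP⟩ := f.exists_pairs
  set dl : V × Half f.T → Γ := fun c => if h : ∃ δ, c.2 = f.sm δ f.e₀ then h.choose else 1 with hdl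
  set M₁ : ℕ := P.sup fun c => Finset.univ.sup fun l => f.H.dist c.1 ((dl c * η l * a) • v)
  have hlab : ∀ (N : Half f.T) (z : V), ∃ δ : Γ, z ∈ f.port N → (∃ δ', N = f.sm δ' f.e₀) →
      N = f.sm δ f.e₀ ∧ ∀ l, ∃ r : f.H.Walk z ((δ * η l * a) • v), r.length ≤ M₁ := by
    intro N z
    by_cases hh : z ∈ f.port N ∧ ∃ δ', N = f.sm δ' f.e₀
    · obtain ⟨hz, δ', hδ'⟩ := hh
      obtain ⟨γ, c, hc, rfl, hcN⟩ := hP N z hz
      have hex : ∃ δ, c.2 = f.sm δ f.e₀ :=
        ⟨γ⁻¹ * δ', by rw [f.sm_mul, ← hδ', ← hcN, f.sm_inv_sm]⟩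
      have hc2 : c.2 = f.sm (dl c) f.e₀ := by
        rw [hdl]; simp only [dif_pos hex]; exact hex.choose_spec
      refine ⟨γ * dl c, fun _ _ => ⟨by rw [f.sm_mul, ← hc2, hcN], fun l => ?_⟩⟩
      obtain ⟨r, hr⟩ := f.connected.exists_walk_length_eq_dist c.1 ((dl c * η l * a) • v)
      refine ⟨(f.moveWalk γ r).copy rfl (by simp [mul_smul]), ?_⟩
      rw [Walk.length_copy, f.length_moveWalk, hr]
      exact le_trans (Finset.le_sup (f := fun l => f.H.dist c.1 ((dl c * η l * a) • v))
        (Finset.mem_univ l)) (Finset.le_sup (f := fun c : V × Half f.T =>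
          Finset.univ.sup fun l => f.H.dist c.1 ((dl c * η l * a) • v)) hc)
    · exact ⟨1, fun h1 h2 => absurd ⟨h1, h2⟩ hh⟩
  choose lab hlab using hlab
  set child : Half f.T → V → Fin 2 → Half f.T := fun N z l => f.sm (lab N z * η l) f.e₀
  set deep : Half f.T → V → Fin 2 → Half f.T := fun N z l => f.sm (lab N z * η l * a) f.e₀
  -- the roots
  choose o ho γ hγ using f.hO
  set root : V → Γ := fun x => γ x * κ (o x) with hrootdef
  have hroot : ∀ x, f.pr x ∉ (f.sm (root x) f.e₀).side := by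
    intro x h
    have h' : f.pr x ∈ (f.sm (γ x) (f.sm (κ (o x)) f.e₀)).side := by rwa [← f.sm_mul]
    have e : f.pr x = γ x • f.pr (o x) := by rw [← f.equiv, hγ]
    rw [e, f.smul_mem_sm] at h'
    exact hκ _ h'
  set d₀ : ℕ := f.O.sup fun o => f.T.dist (f.pr o) (f.sm (κ o) f.e₀).fst
  set M₀ : ℕ := f.O.sup fun o => f.H.dist o (κ o • v)
  have hd₀ : ∀ x, f.T.dist (f.pr x) (f.sm (root x) f.e₀).fst ≤ d₀ := by
    intro x
    refine le_trans (le_of_eq ?_) (Finset.le_sup (f := fun o => f.T.dist (f.pr o) (f.sm (κ o) f.e₀).fst)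
      (ho x))
    have e : f.pr x = γ x • f.pr (o x) := by rw [← f.equiv, hγ]
    simp only [e, root, Frame.sm, mul_smul, f.dist_smul]
  have hM₀ : ∀ x, ∃ r : f.H.Walk x (root x • v), r.length ≤ M₀ := by
    intro x
    obtain ⟨r, hr⟩ := f.connected.exists_walk_length_eq_dist (o x) (κ (o x) • v)
    refine ⟨(f.moveWalk (γ x) r).copy (hγ x) (by simp [root, mul_smul]), ?_⟩
    rw [Walk.length_copy, f.length_moveWalk, hr]
    exact Finset.le_sup (f := fun o => f.H.dist o (κ o • v)) (ho x)
  obtain ⟨D, hD⟩ := f.hwalk_addr η v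
  obtain ⟨qa, -⟩ := f.connected.exists_walk_length_eq_dist v (a • v)
  set lev : ℕ → V → ℕ → Set (Half f.T) := fun L₀ x j => Nat.rec
    (Set.range fun w : Fin L₀ → Fin 2 => f.sm (root x * addr η L₀ w) f.e₀)
    (fun _ prev => {C | ∃ N ∈ prev, ∃ z ∈ f.port N, ∃ l, C = child N z l}) j with hlev
  have hinv : ∀ L₀ x j, ∀ N ∈ lev L₀ x j, (∃ δ, N = f.sm δ f.e₀) ∧ f.pr x ∉ N.side ∧
      f.T.dist (f.pr x) N.fst = f.T.dist (f.pr x) (f.sm (root x) f.e₀).fst + (L₀ + j) * Δ := by
    intro L₀ x j
    induction j with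
    | zero =>
      rintro N ⟨w, rfl⟩
      refine ⟨⟨_, rfl⟩, fun h => hroot x ((f.desc_addr hη L₀ w).sub _ h), ?_⟩
      rw [(f.desc_addr hη L₀ w).dist _ (hroot x), Nat.add_zero]
    | succ j ih =>
      rintro C ⟨N, hN, z, hz, l, rfl⟩
      obtain ⟨hN1, hN2, hN3⟩ := ih N hN
      obtain ⟨hNd, -⟩ := hlab N z hz hN1
      refine ⟨⟨_, rfl⟩, fun h => hN2 (by rw [hNd]; exact (hη l).sub _ h), ?_⟩
      simp only [child]
      rw [(hη l).dist _ (by rw [← hNd]; exact hN2), ← hNd, hN3]
      ring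
  have hcode : ∀ L₀ x j, (lev L₀ x j).PairwiseDisjoint Half.side := by
    intro L₀ x j N hN M hM hne
    refine Set.disjoint_left.2 fun u hu hu' => hne ?_
    obtain ⟨-, h1, h2⟩ := hinv L₀ x j N hN
    obtain ⟨-, h1', h2'⟩ := hinv L₀ x j M hM
    exact Half.eq_of_dist_eq f.tree hu hu' h1 h1' (h2.trans h2'.symm)
  set head : ℕ → V → Finset (Half f.T) := fun L₀ x => Finset.univ.image
    fun w : Fin L₀ → Fin 2 => f.sm (root x * addr η L₀ w * a) f.e₀ with hhead
  set Mall : ℕ := d₀ + M₀ + (D + qa.length) + ee * Δ + M₁ + Δ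
  have hfirst : ∀ (k : Half f.T) (u b : V) (r : f.H.Walk u b), f.pr u ∉ k.side → b ∈ f.Vs k →
      ∃ y ∈ f.port k, ∃ r' : (f.avoid k).Walk u y, r'.length ≤ r.length := fun k u b r hu hb =>
    f.first_port k r (fun h => hu h.1) hb
  refine ⟨{
    Δ := Δ
    M := Mall
    head := head
    card_head := fun L₀ x => Finset.card_image_le.trans (by simp)
    head_prop := fun L₀ x k hk => ?_
    Lev := lev
    lev_code := hcode
    lev_prop := fun L₀ x j N hN => ?_
    deep := deep
    deep_prop := fun L₀ x j N hN z hz l => ?_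
    split := fun q L₀ x K hK y => ?_ }⟩
  · obtain ⟨w, -, rfl⟩ := Finset.mem_image.1 hk
    have hw := f.desc_addr hη L₀ w
    have hout : f.pr x ∉ (f.sm (root x * addr η L₀ w) f.e₀).side := fun h => hroot x (hw.sub _ h)
    have hout' : f.pr x ∉ (f.sm (root x * addr η L₀ w * a) f.e₀).side :=
      fun h => hout (hda.sub _ h)
    refine ⟨hout', ?_, ?_⟩
    · rw [hda.dist _ hout, hw.dist _ (hroot x)]
      have h1 := hd₀ x
      have h2 : L₀ * Δ ≤ Mall * L₀ := by
        rw [Nat.mul_comm]; exact Nat.mul_le_mul_right _ (Nat.le_add_left _ _)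
      rw [Nat.mul_succ]
      simp only [Mall] at *
      omega
    · obtain ⟨r₁, hr₁⟩ := hM₀ x
      obtain ⟨r₂, hr₂⟩ := hD L₀ (root x) w
      obtain ⟨y, hy, r, hr⟩ := hfirst (f.sm (root x * addr η L₀ w * a) f.e₀) x _
        ((r₁.append (r₂.append (f.moveWalk (root x * addr η L₀ w) qa))).copy rfl
          (by rw [smul_smul] : (root x * addr η L₀ w) • a • v = (root x * addr η L₀ w * a) • v))
        hout' (hvmem _)
      refine ⟨y, hy, r, hr.trans ?_⟩
      rw [Walk.length_copy, Walk.length_append, Walk.length_append, f.length_moveWalk,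
        Nat.mul_succ]
      have h2 : D * L₀ ≤ Mall * L₀ := Nat.mul_le_mul_right _ (by simp only [Mall]; omega)
      simp only [Mall] at *
      omega
  · obtain ⟨-, h1, h2⟩ := hinv L₀ x j N hN
    refine ⟨h1, ?_⟩
    rw [h2, Nat.mul_comm Δ]
    have := hd₀ x
    simp only [Mall]
    omega
  · obtain ⟨hN1, hN2, -⟩ := hinv L₀ x j N hN
    obtain ⟨hNd, hwalk⟩ := hlab N z hz hN1
    obtain ⟨r₁, hr₁⟩ := hwalk l
    have hd : f.Desc (η l * a) (Δ + ee * Δ) := (hη l).mul hda
    have hout : f.pr z ∉ (deep N z l).side := by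
      intro h
      have h' := hd.lt_dist (lab N z) (by simpa [deep, ← mul_assoc] using h)
      have h2 := f.port_dist hz
      rw [← hNd] at h'
      omega
    refine ⟨hout, ?_, ?_⟩
    · have h1 := hd.dist (lab N z) (c := N.fst) (by rw [← hNd]; exact N.fst_notMem)
      rw [← hNd, SimpleGraph.dist_self, ← mul_assoc] at h1
      simp only [deep]
      rw [h1]
      simp only [Mall]
      omega
    · obtain ⟨y, hy, r, hr⟩ := hfirst (deep N z l) z _ r₁ hout (hvmem _)
      exact ⟨y, hy, r, hr.trans (hr₁.trans (by simp only [Mall]; omega))⟩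
  · let S : Split f x (Fin L₀ → Fin 2) :=
      { node := fun w => f.sm (root x * addr η L₀ w) f.e₀
        head := fun w => f.sm (root x * addr η L₀ w * a) f.e₀
        Lev := lev L₀ x
        child := child
        deep := deep
        node_mem := fun w => ⟨w, rfl⟩
        node_inj := fun w w' e => by
          by_contra hne
          refine Set.disjoint_left.1 (f.disjoint_addr hη hdisj L₀ (root x) w w' hne)
            (Half.snd_mem _) ?_
          simp only at e
          rw [e]
          exact Half.snd_mem _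
        head_in := fun w u hu => hdeep _ u hu
        out := fun j N hN => (hinv L₀ x j N hN).2.1
        far := fun j N hN => by
          rw [(hinv L₀ x j N hN).2.2]
          have : L₀ + j ≤ (L₀ + j) * Δ := Nat.le_mul_of_pos_right _ hΔ
          omega
        code := hcode L₀ x
        child_mem := fun j N hN z hz l => ⟨N, hN, z, hz, l, rfl⟩
        child_sub := fun j N hN z hz l => by
          obtain ⟨hNd, -⟩ := hlab N z hz (hinv L₀ x j N hN).1
          conv_rhs => rw [hNd]
          exact (hη l).sub _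
        child_disj := fun j N hN z hz => hdisj _
        deep_in := fun j N hN z hz l u hu => hdeep _ u hu
        countable := fun j => by
          induction j with
          | zero => exact (Set.finite_range _).countable
          | succ j ih =>
            have := ih.to_subtype
            refine (Set.countable_range fun t : lev L₀ x j × V × Fin 2 =>
              child t.1 t.2.1 t.2.2).mono ?_
            rintro C ⟨N, hN, z, -, l, rfl⟩
            exact ⟨(⟨N, hN⟩, z, l), rfl⟩ }
    have h := S.bound q hK y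
    have hc : (Fintype.card (Fin L₀ → Fin 2) : ℝ≥0∞) = 2 ^ L₀ := by simp
    rw [hc] at h
    have hinj : Function.Injective S.head := fun w w' e => by
      by_contra hne
      refine Set.disjoint_left.1 (f.disjoint_addr hη hdisj L₀ (root x) w w' hne)
        (hda.sub _ (Half.snd_mem _)) (hda.sub _ ?_)
      change (S.head w).snd ∈ (S.head w').side
      rw [e]
      exact Half.snd_mem _
    have hsum : ∑ k ∈ head L₀ x, perc V q (conn (K ⊓ f.avoidSide k) x y) =
        ∑ w, perc V q (conn (K ⊓ f.avoidSide (S.head w)) x y) :=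
      Finset.sum_image fun w _ w' _ e => hinj e
    have h2 : perc V q (conn K x y) = (2⁻¹ : ℝ≥0∞) ^ L₀ * (2 ^ L₀ * perc V q (conn K x y)) := by
      rw [← mul_assoc, ← mul_pow, ENNReal.inv_mul_cancel two_ne_zero ENNReal.ofNat_ne_top,
        one_pow, one_mul]
    rw [h2]
    refine (mul_le_mul_right h _).trans (le_of_eq ?_)
    rw [mul_add, hsum, ← ENNReal.tsum_mul_left]
    refine congrArg _ (tsum_congr fun j => ?_)
    rw [← mul_assoc, ← pow_add]

end Vale.Agent.P165.TreeAct
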