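import Mathlib
import Vale.Agent.P165.TreeAct.Growth
import Vale.Agent.P165.TreeAct.Susc

/-!
The critical exponent: powers above it are summable over all half-trees below the critical point,
powers below it are not.
-/

namespace Vale.Agent.P165.TreeAct

open MeasureTheory SimpleGraph
open Large (joins mem_joins joins_eq_iUnion walk_joins)
open scoped ENNReal

variable {V τ Γ : Type} [Group Γ] [MulAction Γ V] [MulAction Γ τ] (f : Frame V τ Γ)

lemma Frame.horb : ∃ O : Finset V, ∀ v, ∃ φ : f.H ≃g f.H, φ v ∈ O := by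
  refine ⟨f.O, fun v => ?_⟩
  obtain ⟨o, ho, γ, rfl⟩ := f.hO v
  refine ⟨f.hIso γ⁻¹, ?_⟩
  simpa [Frame.hIso] using ho

lemma Frame.pc_pos : 0 < pc f.H := pc_pos_of_cofinite f.H f.connected f.horb

lemma Frame.susc_finite {q : unitInterval} (hq : (q : ℝ) < pc f.H) :
    ∃ X : ℝ, 1 ≤ X ∧ SuscLe f.H q X ∧ ∀ x, ∑' y, perc V q (conn f.H x y) ≤ ENNReal.ofReal X := by
  obtain ⟨X, hX⟩ := susc_finite_of_cofinite f.H f.connected f.horb hq
  exact ⟨max X 1, le_max_right _ _, fun x U => (hX x U).trans (le_max_left _ _),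
    fun x => (tsum_conn_le (hX x)).trans (ENNReal.ofReal_le_ofReal (le_max_left _ _))⟩

/-- Sums of `σ`-powers over all half-trees are finite at every parameter of the upper half
below the critical point. -/
def Frame.Good (σ : ℝ) : Prop :=
  ∀ q : unitInterval, pc f.H / 2 ≤ q → (q : ℝ) < pc f.H → f.total q σ ≠ ⊤

lemma Frame.total_anti {q : unitInterval} {σ σ' : ℝ} (hσ : σ ≤ σ') :
    f.total q σ' ≤ f.total q σ :=
  iSup_mono fun h => iSup_mono fun y => iSup_mono fun _ => iSup_mono fun _ =>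
    Finset.sum_le_sum fun g _ =>
      ENNReal.rpow_le_rpow_of_exponent_ge (f.meet_le_one q h g y) hσ

lemma Frame.Good.mono {f : Frame V τ Γ} {σ σ' : ℝ} (h : f.Good σ) (hσ : σ ≤ σ') : f.Good σ' :=
  fun q h1 h2 => ne_top_of_le_ne_top (h q h1 h2) (f.total_anti hσ)

lemma Frame.good_one : f.Good 1 := by
  classical
  intro q _ hq
  obtain ⟨X, -, -, hX⟩ := f.susc_finite hq
  obtain ⟨D, hD⟩ := f.exists_mult
  refine ne_top_of_le_ne_top (ENNReal.mul_ne_top (ENNReal.natCast_ne_top D)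
    (ENNReal.ofReal_ne_top (r := X))) (iSup_le fun h => iSup_le fun y => iSup₂_le fun A _ => ?_)
  calc ∑ g ∈ A, f.meet q h g y ^ (1 : ℝ)
      ≤ ∑ g ∈ A, ∑' z, (f.port g).indicator (fun z => perc V q (conn f.H (y : V) z)) z := by
        refine Finset.sum_le_sum fun g _ => ?_
        have := f.countable
        rw [ENNReal.rpow_one, Frame.meet, joins_eq_iUnion, Set.biUnion_eq_iUnion,
          ← tsum_subtype (f.port g) fun z => perc V q (conn f.H (y : V) z)]
        exact (measure_iUnion_le _).trans (ENNReal.tsum_le_tsum fun z => measure_mono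
          fun ω hω => Reachable.mono (show openGraph _ ω ≤ openGraph f.H ω from
            fun _ _ ha => ⟨f.avoid_le h (inf_le_left (b := f.avoid g) ha.1), ha.2⟩) hω)
    _ = ∑' z, ∑ g ∈ A, (f.port g).indicator (fun z => perc V q (conn f.H (y : V) z)) z :=
        (Summable.tsum_finsetSum fun _ _ => ENNReal.summable).symm
    _ ≤ ∑' z, (D : ℝ≥0∞) * perc V q (conn f.H (y : V) z) := by
        refine ENNReal.tsum_le_tsum fun z => ?_
        simp only [Set.indicator_apply]
        rw [← Finset.sum_filter, Finset.sum_const, nsmul_eq_mul]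
        exact mul_le_mul_left (Nat.cast_le.2
          (hD z (A.filter fun g => z ∈ f.port g) fun g hg => (Finset.mem_filter.1 hg).2)) _
    _ ≤ _ := by
        rw [ENNReal.tsum_mul_left]
        exact mul_le_mul_right (hX _) _

/-- Arbitrarily many disjoint half-trees inside the basic one. -/
lemma Frame.exists_many : ∀ n : ℕ, ∃ A : Finset (Half f.T), n ≤ A.card ∧
    (A : Set (Half f.T)).PairwiseDisjoint Half.side ∧ ∀ g ∈ A, g.side ⊆ f.e₀.side := by
  classical
  intro n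
  induction n with
  | zero => exact ⟨∅, le_rfl, by simp, by simp⟩
  | succ n ih =>
    obtain ⟨A, hn, hA, hs⟩ := ih
    have hne : f.sm f.γ₂ f.e₀ ∉ A.image (f.sm f.γ₁) := fun h => by
      obtain ⟨g, hg, e⟩ := Finset.mem_image.1 h
      exact Set.disjoint_left.1 f.disj₁₂ (f.sm_subset (hs g hg) (e ▸ (f.sm f.γ₂ f.e₀).snd_mem))
        (f.sm f.γ₂ f.e₀).snd_mem
    refine ⟨insert (f.sm f.γ₂ f.e₀) (A.image (f.sm f.γ₁)), ?_, ?_, fun g hg => ?_⟩
    · rw [Finset.card_insert_of_notMem hne, Finset.card_image_of_injective _ fun a b e => by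
        simpa [f.sm_inv_sm] using congrArg (f.sm f.γ₁⁻¹) e]
      omega
    · rw [Finset.coe_insert, Finset.coe_image, Set.pairwiseDisjoint_insert]
      refine ⟨?_, ?_⟩
      · rintro _ ⟨a, ha, rfl⟩ _ ⟨b, hb, rfl⟩ hne'
        exact f.sm_disjoint (hA ha hb fun e => hne' (e ▸ rfl))
      · rintro _ ⟨a, ha, rfl⟩ -
        exact f.disj₁₂.symm.mono_right (f.sm_subset (hs a ha))
    · rcases Finset.mem_insert.1 hg with rfl | hg
      · exact f.sub₂.subset
      · obtain ⟨a, ha, rfl⟩ := Finset.mem_image.1 hg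
        exact (f.sm_subset (hs a ha)).trans f.sub₁.subset

/-- A root crosses any number of disjoint half-trees with positive probability. -/
lemma Frame.exists_pos_code {q : unitInterval} (hq : (0 : ℝ) < q) (n : ℕ) :
    ∃ (h : Half f.T) (y : V) (A : Finset (Half f.T)), y ∈ f.port h ∧ n ≤ A.card ∧ RootCode h A ∧
      ∀ g ∈ A, 0 < f.meet q h g y := by
  classical
  have := f.countable
  obtain ⟨A, hn, hA, hs⟩ := f.exists_many n
  obtain ⟨o⟩ := f.connected.nonempty
  choose δ hδ hδd using fun g => f.exists_deep_vertex g (f.depth + 1) o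
  have p : ∀ g : Half f.T, Nonempty (f.H.Walk o (δ g • o)) := fun g =>
    f.connected.preconnected o (δ g • o)
  set S := A.biUnion fun g => (p g).some.support.toFinset
  set m := (insert o S).sup fun u => f.T.dist f.e₀.op.fst (f.pr u)
  obtain ⟨γ, hγs, -, hγn, hγf⟩ := f.exists_deep f.e₀ (m + 1) f.e₀.op f.e₀.snd
  set h := f.sm γ f.e₀
  have hout : ∀ u ∈ insert o S, f.pr u ∉ h.side := by
    intro u hu hus
    have h1 := (Half.nested f.tree hγf fun h' => f.e₀.op.fst_notMem (hγs h')).2 _ hus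
    have h2 : f.T.dist f.e₀.op.fst (f.pr u) ≤ m :=
      Finset.le_sup (f := fun u => f.T.dist f.e₀.op.fst (f.pr u)) hu
    omega
  obtain ⟨ε, hε, hεd⟩ := f.exists_deep_vertex h (f.depth + 1) o
  obtain ⟨w⟩ := f.connected.preconnected o (ε • o)
  obtain ⟨y, hy, r, -⟩ := f.first_port h w (fun h' => hout o (Finset.mem_insert_self _ _) h'.1)
    (f.deep_mem_Vs hε hεd)
  have hdis : ∀ g ∈ A, Disjoint g.side h.side := fun g hg => by
    refine Disjoint.mono (hs g hg) hγs ?_
    rw [Half.op_side f.tree]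
    exact disjoint_compl_right
  refine ⟨h, y, A, hy, hn, ⟨hA, hdis⟩, fun g hg => ?_⟩
  set q₁ := r.reverse.append ((p g).some.transfer (f.avoid h) fun e he => by
    induction e using Sym2.ind with
    | _ a b => exact ⟨(p g).some.adj_of_mem_edges he, fun hh => hout a (Finset.mem_insert_of_mem
        (Finset.mem_biUnion.2 ⟨g, hg, List.mem_toFinset.2
          ((p g).some.fst_mem_support_of_mem_edges he)⟩)) hh.1.1⟩) with hq₁
  obtain ⟨u, c, r₂, hc, huc, hedge, hr₂, hre⟩ := Sus.exists_first_hit (f.Vs g) q₁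
    (f.deep_mem_Vs (hδ g) (hδd g)) fun h' => Set.disjoint_left.1 (hdis g hg) h'.1 hy.1.1
  have hu : u ∉ f.Vs g := hr₂ u r₂.end_mem_support
  have htr : ∀ e ∈ (r₂.concat huc).edges, e ∈ (f.avoid h ⊓ f.avoid g).edgeSet := fun e he => by
    simp only [Walk.edges_concat, List.concat_eq_append, List.mem_append,
      List.mem_singleton] at he
    rcases he with he | rfl
    · induction e using Sym2.ind with
      | _ a b => exact ⟨r₂.adj_of_mem_edges he, f.avoid_le h (r₂.adj_of_mem_edges he),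
          fun hh => hr₂ a (r₂.fst_mem_support_of_mem_edges he) hh.1⟩
    · exact ⟨huc, f.avoid_le h huc, fun hh => hu hh.1⟩
  refine lt_of_lt_of_le ?_ (walk_joins (p := q) ((r₂.concat huc).transfer _ htr) le_rfl (f.port g))
  refine ENNReal.mul_pos (by simpa using pow_pos hq _) ?_
  have : joins (f.avoid h ⊓ f.avoid g) c (f.port g) = Set.univ :=
    Set.eq_univ_of_forall fun ω => mem_joins.2 ⟨c, ⟨hc, u, (f.avoid_le h huc).symm, hu⟩,
      Reachable.refl _⟩
  simp [this]

/-- Some small power is not summable. -/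
lemma Frame.exists_not_good : ∃ σ : ℝ, 0 < σ ∧ σ ≤ 1 ∧ ¬f.Good σ := by
  classical
  have hpc := f.pc_pos
  have hq1 : pc f.H / 2 ∈ Set.Icc (0 : ℝ) 1 := by
    have : pc f.H ≤ 1 := csInf_le
      ⟨0, by rintro x (rfl | ⟨p, -, rfl⟩); exacts [zero_le_one, p.2.1]⟩ (Set.mem_insert _ _)
    constructor <;> linarith
  set q : unitInterval := ⟨pc f.H / 2, hq1⟩
  obtain ⟨K, hK, hKle⟩ := f.growth_le (a := pc f.H / 2) (half_pos hpc)
  obtain ⟨N, hN⟩ := ENNReal.exists_nat_gt hK
  obtain ⟨h, y, A, hy, hcard, hA, hpos⟩ := f.exists_pos_code (q := q) (half_pos hpc) (2 * N + 1)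
  obtain ⟨g₁, hg₁, hmin⟩ := A.exists_min_image (fun g => f.meet q h g y)
    (Finset.card_pos.1 (by omega))
  set v := f.meet q h g₁ y
  have hv1 : v ≠ ⊤ := ne_top_of_le_ne_top ENNReal.one_ne_top (f.meet_le_one ..)
  have hvpos : 0 < v.toReal := ENNReal.toReal_pos (hpos g₁ hg₁).ne' hv1
  obtain ⟨σ, hσ0, hσ1, hσ⟩ : ∃ σ : ℝ, 0 < σ ∧ σ ≤ 1 ∧ 1 / 2 ≤ v.toReal ^ σ := by
    have hcont : Filter.Tendsto (fun σ : ℝ => v.toReal ^ σ) (nhdsWithin 0 (Set.Ioi 0))
        (nhds 1) := by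
      have h0 := (Real.continuous_const_rpow hvpos.ne').tendsto 0
      rw [Real.rpow_zero] at h0
      exact h0.mono_left nhdsWithin_le_nhds
    obtain ⟨σ, h1, h2⟩ := (((hcont.eventually (eventually_ge_nhds
      (by norm_num : (1 / 2 : ℝ) < 1))).and
      (eventually_nhdsWithin_of_eventually_nhds (eventually_le_nhds zero_lt_one))).and
      self_mem_nhdsWithin).exists
    exact ⟨σ, h2, h1.2, h1.1⟩
  refine ⟨σ, hσ0, hσ1, fun hgood => ?_⟩
  have hle := hKle q σ le_rfl hσ0 hσ1 (hgood q le_rfl (by simp only [q]; linarith))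
  have hsum : (2 * N : ℕ) * ENNReal.ofReal (1 / 2) ≤ ∑ g ∈ A, f.meet q h g y ^ σ := by
    refine le_trans ?_ (Finset.sum_le_sum fun g hg => ENNReal.rpow_le_rpow (hmin g hg) hσ0.le)
    rw [Finset.sum_const, nsmul_eq_mul]
    refine mul_le_mul' (by exact_mod_cast (Nat.le_succ _).trans hcard) ?_
    conv_rhs => rw [← ENNReal.ofReal_toReal hv1]
    rw [ENNReal.ofReal_rpow_of_pos hvpos]
    exact ENNReal.ofReal_le_ofReal hσ
  have hN' : ((2 * N : ℕ) : ℝ≥0∞) * ENNReal.ofReal (1 / 2) = N := by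
    rw [← ENNReal.ofReal_natCast, ← ENNReal.ofReal_mul (Nat.cast_nonneg _),
      ← ENNReal.ofReal_natCast]
    congr 1; push_cast; ring
  rw [hN'] at hsum
  exact absurd ((hsum.trans (f.le_growth q σ hy hA)).trans hle) (not_le.2 hN)

/-- The critical exponent. -/
theorem Frame.exists_exponent : ∃ s : ℝ, 0 < s ∧ s ≤ 1 ∧
    (∀ ε, 0 < ε → f.Good (min 1 (s + ε))) ∧ ∀ σ, σ < s → ¬f.Good σ := by
  obtain ⟨σ₀, hσ0, hσ1, hbad⟩ := f.exists_not_good
  set G := {σ : ℝ | σ₀ ≤ σ ∧ σ ≤ 1 ∧ f.Good σ}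
  have hne : G.Nonempty := ⟨1, hσ1, le_rfl, f.good_one⟩
  have hbdd : BddBelow G := ⟨σ₀, fun σ h => h.1⟩
  refine ⟨sInf G, lt_of_lt_of_le hσ0 (le_csInf hne fun σ h => h.1),
    csInf_le hbdd ⟨hσ1, le_rfl, f.good_one⟩, fun ε hε => ?_, fun σ hσ hg => ?_⟩
  · obtain ⟨σ, hσ, hlt⟩ := exists_lt_of_csInf_lt hne (lt_add_of_pos_right (sInf G) hε)
    exact hσ.2.2.mono (le_min hσ.2.1 hlt.le)
  · rcases _root_.le_or_gt σ₀ σ with h | h
    · exact absurd (csInf_le hbdd ⟨h, hσ.le.trans (csInf_le hbdd ⟨hσ1, le_rfl, f.good_one⟩), hg⟩)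
        (not_le.2 hσ)
    · exact hbad (hg.mono h.le)

end Vale.Agent.P165.TreeAct
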