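import Mathlib
import Vale.Agent.P165.TreeAct.Bounds

/-!
Short walks to ports: from either end of a crossing edge, from a walk which enters a half-tree, and
from a port to a root deep inside its half-tree.
-/

namespace Vale.Agent.P165.TreeAct

open MeasureTheory SimpleGraph
open scoped ENNReal

variable {V τ Γ : Type} [Group Γ] [MulAction Γ V] [MulAction Γ τ] (f : Frame V τ Γ)

/-- Translated walks in avoiding graphs. -/
def Frame.moveAvoid (γ : Γ) {h : Half f.T} {u v : V} (q : (f.avoid h).Walk u v) :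
    (f.avoid (f.sm γ h)).Walk (γ • u) (γ • v) :=
  q.map ⟨fun v : V => γ • v, fun {a b} hab => (f.avoid_smul γ h a b).1 hab⟩

lemma Frame.length_moveAvoid (γ : Γ) {h : Half f.T} {u v : V} (q : (f.avoid h).Walk u v) :
    (f.moveAvoid γ q).length = q.length :=
  Walk.length_map _ _

lemma Frame.exists_out_walk (g : Half f.T) (z : V) (hz : z ∉ f.Vs g) :
    ∃ y ∈ f.port g, Nonempty ((f.avoid g).Walk z y) := by
  obtain ⟨o⟩ := f.connected.nonempty
  obtain ⟨γ, hγ, hd⟩ := f.exists_deep_vertex g (f.depth + 1) o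
  obtain ⟨q⟩ := f.connected.preconnected z (γ • o)
  obtain ⟨y, hy, r, -⟩ := f.first_port g q hz (f.deep_mem_Vs hγ hd)
  exact ⟨y, hy, ⟨r⟩⟩

/-- From an end of a crossing edge a short walk reaches the port. -/
lemma Frame.exists_approach : ∃ M : ℕ, ∀ (z u : V), f.H.Adj z u → ∀ g : Half f.T,
    ¬(f.pr z ∈ g.side ↔ f.pr u ∈ g.side) → z ∉ f.Vs g →
      ∃ y ∈ f.port g, ∃ r : (f.avoid g).Walk z y, r.length ≤ M := by
  classical
  have hw : ∀ (o : V) (g : Half f.T), ∃ n : ℕ, o ∉ f.Vs g →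
      ∃ y ∈ f.port g, ∃ r : (f.avoid g).Walk o y, r.length ≤ n := by
    intro o g
    by_cases ho : o ∈ f.Vs g
    · exact ⟨0, fun h => absurd ho h⟩
    · obtain ⟨y, hy, ⟨r⟩⟩ := f.exists_out_walk g o ho
      exact ⟨r.length, fun _ => ⟨y, hy, r, le_rfl⟩⟩
  choose n hn using hw
  let cand : V → V → Finset (Half f.T) := fun o u =>
    (Half.sep_finite f.tree (f.pr o) (f.pr u)).toFinset ∪
      (Half.sep_finite f.tree (f.pr u) (f.pr o)).toFinset
  refine ⟨f.O.sup fun o => (f.H.neighborFinset o).sup fun u => (cand o u).sup (n o),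
    fun z u hzu g hsep hz => ?_⟩
  obtain ⟨o, ho, γ, rfl⟩ := f.hO z
  have hu : f.H.Adj o (γ⁻¹ • u) := by simpa using f.hadj γ⁻¹ _ _ hzu
  set g' := f.sm γ⁻¹ g
  have hg : f.sm γ g' = g := f.sm_sm_inv γ g
  have hside : ∀ v, f.pr (γ⁻¹ • v) ∈ g'.side ↔ f.pr v ∈ g.side := fun v => f.pr_mem_sm γ⁻¹ g v
  have hmem : g' ∈ cand o (γ⁻¹ • u) := by
    simp only [cand, Finset.mem_union, Set.Finite.mem_toFinset, Set.mem_ofPred_eq]
    rw [← hside (γ • o), ← hside u, inv_smul_smul] at hsep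
    tauto
  obtain ⟨y, hy, r, hr⟩ := hn o g' fun h => hz (by rw [← hg]; exact (f.Vs_smul γ g' o).2 h)
  refine ⟨γ • y, by rw [← hg]; exact (f.port_smul γ g' y).2 hy, ?_⟩
  rw [← hg]
  refine ⟨f.moveAvoid γ r, ?_⟩
  rw [f.length_moveAvoid]
  exact hr.trans (((Finset.le_sup (f := n o) hmem).trans
    (Finset.le_sup (f := fun u => (cand o u).sup (n o))
      ((mem_neighborFinset _ _ _).2 hu))).trans
    (Finset.le_sup (f := fun o => (f.H.neighborFinset o).sup fun u => (cand o u).sup (n o)) ho))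

/-- A walk which enters a half-tree gives a short walk to its port. -/
lemma Frame.reach_port {M : ℕ} (hM : ∀ (z u : V), f.H.Adj z u → ∀ g : Half f.T,
      ¬(f.pr z ∈ g.side ↔ f.pr u ∈ g.side) → z ∉ f.Vs g →
        ∃ y ∈ f.port g, ∃ r : (f.avoid g).Walk z y, r.length ≤ M) (g : Half f.T) :
    ∀ {z b : V} (q : f.H.Walk z b), f.pr z ∉ g.side → (∃ v ∈ q.support, f.pr v ∈ g.side) →
      ∃ y ∈ f.port g, ∃ r : (f.avoid g).Walk z y, r.length ≤ q.length + M := by
  intro z b q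
  induction q with
  | nil =>
    rintro hz ⟨v, hv, hvg⟩
    simp only [Walk.support_nil, List.mem_singleton] at hv
    exact absurd (hv ▸ hvg) hz
  | @cons a c d hac q ih =>
    rintro ha ⟨v, hv, hvg⟩
    by_cases hc : f.pr c ∈ g.side
    · obtain ⟨y, hy, r, hr⟩ := hM a c hac g (fun h => ha (h.2 hc)) fun h => ha h.1
      exact ⟨y, hy, r, by omega⟩
    · rcases List.mem_cons.1 (by simpa using hv) with rfl | hv'
      · exact absurd hvg ha
      · obtain ⟨y, hy, r, hr⟩ := ih hc ⟨v, hv', hvg⟩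
        refine ⟨y, hy, .cons ⟨hac, fun h => ha h.1.1⟩ r, ?_⟩
        show r.length + 1 ≤ q.length + 1 + M
        omega

/-- Deep inside the half-tree of a port there is a root near it. -/
lemma Frame.exists_inward (R : ℕ) : ∃ M : ℕ, ∀ (g : Half f.T), ∀ x ∈ f.port g,
    ∃ k : Half f.T, ∃ y ∈ f.port k, k.side ⊆ g.side ∧ R < f.T.dist g.fst k.fst ∧
      ∃ r : (f.avoid k).Walk x y, r.length ≤ M := by
  classical
  obtain ⟨P, hP, hPc⟩ := f.exists_pairs
  have hk : ∀ c : V × Half f.T, ∃ n : ℕ, c ∈ P → ∃ k : Half f.T, ∃ y ∈ f.port k,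
      k.side ⊆ c.2.side ∧ R < f.T.dist c.2.fst k.fst ∧
        ∃ r : (f.avoid k).Walk c.1 y, r.length ≤ n := by
    intro c
    by_cases hc : c ∈ P
    · obtain ⟨γ, hs, -, hd, hf⟩ := f.exists_deep f.e₀ (R + f.L + 1) c.2 c.2.fst
      set k := f.sm γ f.e₀
      have hx : c.1 ∉ f.Vs k := fun h => by
        have h1 := (Half.nested f.tree hf fun h' => c.2.fst_notMem (hs h')).2 _ h.1
        have h2 := f.port_dist (hP c hc)
        omega
      obtain ⟨y, hy, ⟨r⟩⟩ := f.exists_out_walk k c.1 hx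
      exact ⟨r.length, fun _ => ⟨k, y, hy, hs, by omega, r, le_rfl⟩⟩
    · exact ⟨0, fun h => absurd h hc⟩
  choose n hn using hk
  refine ⟨P.sup n, fun g x hx => ?_⟩
  obtain ⟨γ, c, hc, rfl, rfl⟩ := hPc g x hx
  obtain ⟨k, y, hy, hs, hd, r, hr⟩ := hn c hc
  refine ⟨f.sm γ k, γ • y, (f.port_smul γ k y).2 hy, f.sm_subset hs, ?_, f.moveAvoid γ r, ?_⟩
  · rw [show f.T.dist (f.sm γ c.2).fst (f.sm γ k).fst = f.T.dist c.2.fst k.fst from
      f.dist_smul γ _ _]
    exact hd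
  · rw [f.length_moveAvoid]
    exact hr.trans (Finset.le_sup hc)

/-- The root bound bounds the port count from a port. -/
lemma Frame.exists_port_self (R : ℕ) : ∃ M : ℕ, ∀ (q : unitInterval) (W : ℝ≥0∞),
    f.RootBound q R M W → ∀ (g : Half f.T), ∀ y ∈ f.port g, f.Y q y g ≤ W := by
  classical
  obtain ⟨M, hM⟩ := f.exists_inward R
  refine ⟨M, fun q W hW g x hx => ?_⟩
  obtain ⟨k, y, hy, hs, hd, r, hr⟩ := hM g x hx
  have h := hW k x y hy r hr {g} (fun _ => k.snd)
    (fun a ha b hb hne => absurd ((Finset.mem_singleton.1 ha).trans (Finset.mem_singleton.1 hb).symm) hne)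
    (fun a ha => by rw [Finset.mem_singleton.1 ha]; exact Or.inr ⟨hs, k.snd_mem, hd⟩)
  rw [Finset.sum_singleton, inf_eq_right.2 (f.avoid_anti hs)] at h
  exact h

end Vale.Agent.P165.TreeAct
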