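import Mathlib
import Vale.Agent.P165.TreeAct.Near

/-!
The rest of a connection after a splitting: outside a half-tree near its start, the expected port
counts over a separated family are bounded through the root bound.
-/

namespace Vale.Agent.P165.TreeAct

open MeasureTheory SimpleGraph
open Large (joins_singleton walk_joins)
open scoped ENNReal

variable {V τ Γ : Type} [Group Γ] [MulAction Γ V] [MulAction Γ τ] (f : Frame V τ Γ)

lemma perc_conn_symm {W : Type} {p : unitInterval} (K : SimpleGraph W) (x y : W) :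
    perc W p (conn K x y) = perc W p (conn K y x) := by
  congr 1
  ext ω
  exact reachable_comm

lemma perc_conn_le {W : Type} {p : unitInterval} {K K' : SimpleGraph W} (h : K ≤ K') (x y : W) :
    perc W p (conn K x y) ≤ perc W p (conn K' x y) :=
  measure_mono fun ω hω => Reachable.mono
    (show openGraph K ω ≤ openGraph K' ω from fun _ _ ha => ⟨h ha.1, ha.2⟩) hω

/-- A forced walk moves the start of a connection. -/
lemma walk_conn {W : Type} [Countable W] {p : unitInterval} {K : SimpleGraph W} {a b : W}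
    (r : K.Walk a b) {c : ℝ} (hc0 : 0 ≤ c) (hc : c ≤ p) {M : ℕ} (hM : r.length ≤ M) (v : W) :
    ENNReal.ofReal (c ^ M) * perc W p (conn K b v) ≤ perc W p (conn K a v) := by
  classical
  have := walk_joins (p := p) r hM {v}
  rw [joins_singleton, joins_singleton] at this
  exact le_trans (mul_le_mul_left (ENNReal.ofReal_le_ofReal (pow_le_pow_left₀ hc0 hc M)) _) this

/-- An isolated vertex reaches nothing else. -/
lemma perc_conn_eq_zero {W : Type} {p : unitInterval} {K : SimpleGraph W} {z v : W}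
    (hiso : ∀ u, ¬K.Adj z u) (hne : v ≠ z) : perc W p (conn K z v) = 0 := by
  rw [show conn K z v = ∅ from Set.eq_empty_of_forall_notMem fun ω hω => ?_, measure_empty]
  obtain ⟨q⟩ := hω
  cases q with
  | nil => exact hne rfl
  | cons h _ => exact hiso _ h.1

/-- Outside a half-tree near the start the sums of port counts are bounded. -/
theorem Frame.exists_rest {a : ℝ} (ha : 0 < a) : ∃ b : ℝ, 1 ≤ b ∧
    ∀ R : ℕ, ∀ q : unitInterval, a ≤ q → ∀ W : ℝ≥0∞, f.RootBound q R 0 W →
      (∀ (g : Half f.T), ∀ y ∈ f.port g, f.Y q y g ≤ W) →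
      ∀ (M : ℕ) (k : Half f.T) (z y' : V), y' ∈ f.port k → f.pr z ∉ k.side →
        ∀ r : (f.avoid k).Walk z y', r.length ≤ M →
        ∀ (A : Finset (Half f.T)) (w : Half f.T → τ), Sep R A w →
          (∀ g ∈ A, f.pr z ∈ g.side → (∀ u, f.H.Adj z u → f.pr u ∈ g.side) → z ∈ f.Vs g) →
          ∑ g ∈ A, ∑' v : f.port g, perc V q (conn (f.avoidSide k ⊓ f.avoid g) z v) ≤
            ENNReal.ofReal (b ^ (M + 1)) * W := by
  classical
  have := f.countable
  obtain ⟨M₁, hM₁⟩ := f.exists_approach
  obtain ⟨Dg, -, hDg⟩ := f.exists_degree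
  set B₀ : ℕ := 2 * f.L * (Dg + 1) + 1
  set c : ℝ := min a 1 with hc
  have hc0 : 0 < c := lt_min ha one_pos
  have hc1 : c ≤ 1 := min_le_right _ _
  have hB₀ : (1 : ℝ) ≤ B₀ := by
    have : 1 ≤ B₀ := Nat.le_add_left 1 _
    exact_mod_cast this
  refine ⟨2 * B₀ * (c ^ (M₁ + 1))⁻¹, ?_, fun R q haq W hroot hport M k z y' hy' hz r hr A w hA hin => ?_⟩
  · have h1 : 1 ≤ (c ^ (M₁ + 1))⁻¹ := (one_le_inv₀ (by positivity)).2 (pow_le_one₀ hc0.le hc1)
    nlinarith
  have hcq : c ≤ q := (min_le_left _ _).trans haq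
  set K := ENNReal.ofReal ((c ^ (M + M₁))⁻¹) with hK
  -- the half-trees cutting the walk or an edge at its start
  let cuts : V × V → Finset (Half f.T) := fun e =>
    A.filter fun g => ¬(f.pr e.1 ∈ g.side ↔ f.pr e.2 ∈ g.side)
  have hcuts : ∀ u v, f.H.Adj u v → (cuts (u, v)).card ≤ 2 * f.L := by
    intro u v huv
    have hsub : cuts (u, v) ⊆ (A.filter fun g => f.pr u ∈ g.side ∧ f.pr v ∉ g.side) ∪
        (A.filter fun g => f.pr v ∈ g.side ∧ f.pr u ∉ g.side) := fun g hg => by
      simp only [cuts, Finset.mem_filter, Finset.mem_union] at hg ⊢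
      tauto
    refine (Finset.card_le_card hsub).trans ((Finset.card_union_le _ _).trans ?_)
    have h1 := Half.card_sep_le f.tree (u := f.pr u) (c := f.pr v)
      (A.filter fun g => f.pr u ∈ g.side ∧ f.pr v ∉ g.side) fun g hg => (Finset.mem_filter.1 hg).2
    have h2 := Half.card_sep_le f.tree (u := f.pr v) (c := f.pr u)
      (A.filter fun g => f.pr v ∈ g.side ∧ f.pr u ∉ g.side) fun g hg => (Finset.mem_filter.1 hg).2
    have h3 := f.hL huv
    have h4 := f.hL huv.symm
    omega
  set E : Finset (Half f.T) := (r.darts.toFinset.biUnion fun d => cuts d.toProd) ∪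
    ((f.H.neighborFinset z).biUnion fun u => cuts (z, u)) with hE
  have hEA : E ⊆ A := by
    intro g hg
    simp only [E, cuts, Finset.mem_union, Finset.mem_biUnion, Finset.mem_filter] at hg
    rcases hg with ⟨_, _, h, _⟩ | ⟨_, _, h, _⟩ <;> exact h
  have hEc : E.card ≤ 2 * f.L * (M + Dg) := by
    refine (Finset.card_union_le _ _).trans ?_
    rw [Nat.mul_add]
    refine Nat.add_le_add ?_ ?_
    · refine (Finset.card_biUnion_le_card_mul _ _ (2 * f.L) fun d _ =>
        hcuts d.fst d.snd (f.avoid_le k d.adj)).trans ?_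
      rw [mul_comm]
      refine Nat.mul_le_mul_left _ ((List.toFinset_card_le _).trans ?_)
      rwa [Walk.length_darts]
    · refine (Finset.card_biUnion_le_card_mul _ _ (2 * f.L) fun u hu =>
        hcuts z u ((mem_neighborFinset _ _ _).1 hu)).trans ?_
      rw [mul_comm]
      exact Nat.mul_le_mul_left _ (hDg z)
  have hone : ∀ g : Half f.T, ∀ y ∈ f.port g, ∀ r' : (f.avoid g).Walk z y,
      r'.length ≤ M + M₁ → f.Y q z g ≤ K * W := by
    intro g y hy r' hr'
    refine le_trans ?_ (mul_le_mul_right (hport g y hy) K)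
    rw [Frame.Y, Frame.Y, ← ENNReal.tsum_mul_left]
    refine ENNReal.tsum_le_tsum fun v => ?_
    calc perc V q (conn (f.avoid g) z v)
        = K * (ENNReal.ofReal (c ^ (M + M₁)) * perc V q (conn (f.avoid g) z v)) := by
          rw [← mul_assoc, hK, ← ENNReal.ofReal_mul (by positivity),
            inv_mul_cancel₀ (by positivity), ENNReal.ofReal_one, one_mul]
      _ ≤ _ := mul_le_mul_right
          (walk_conn r'.reverse hc0.le hcq (by rwa [Walk.length_reverse]) _) _
  have hexc : ∀ g ∈ E, ∑' v : f.port g, perc V q (conn (f.avoidSide k ⊓ f.avoid g) z v) ≤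
      K * W := by
    intro g hg
    refine le_trans (ENNReal.tsum_le_tsum fun v : f.port g => perc_conn_le inf_le_right z (v : V)) ?_
    by_cases hzV : z ∈ f.Vs g
    · by_cases hzp : z ∈ f.port g
      · exact hone g z hzp .nil (Nat.zero_le _)
      · refine le_of_eq_of_le (ENNReal.tsum_eq_zero.2 fun v => perc_conn_eq_zero (fun u hu =>
          hzp ⟨hzV, u, hu.1, fun h => hu.2 ⟨hzV, h⟩⟩) fun e : (v : V) = z => hzp (e ▸ v.2)) zero_le
    · by_cases hn : ∃ u, f.H.Adj z u ∧ ¬(f.pr z ∈ g.side ↔ f.pr u ∈ g.side)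
      · obtain ⟨u, hu, hs⟩ := hn
        obtain ⟨y, hy, r', hr'⟩ := hM₁ z u hu g hs hzV
        exact hone g y hy r' (by omega)
      · push Not at hn
        by_cases hzg : f.pr z ∈ g.side
        · exact absurd (hin g (hEA hg) hzg fun u hu => (hn u hu).1 hzg) hzV
        · have hex : ∃ v ∈ (r.mapLe (f.avoid_le k)).support, f.pr v ∈ g.side := by
            rw [Walk.support_mapLe_eq_support]
            simp only [E, cuts, Finset.mem_union, Finset.mem_biUnion, Finset.mem_filter,
              List.mem_toFinset, mem_neighborFinset] at hg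
            rcases hg with ⟨d, hd, -, hs⟩ | ⟨u, hu, -, hs⟩
            · by_cases h1 : f.pr d.fst ∈ g.side
              · exact ⟨_, r.dart_fst_mem_support_of_mem_darts hd, h1⟩
              · refine ⟨_, r.dart_snd_mem_support_of_mem_darts hd, ?_⟩
                by_contra h2
                exact hs ⟨fun h => absurd h h1, fun h => absurd h h2⟩
            · exact absurd (hn u hu) hs
          obtain ⟨y, hy, r', hr'⟩ := f.reach_port hM₁ g _ hzg hex
          refine hone g y hy r' (hr'.trans ?_)
          rw [show (r.mapLe (f.avoid_le k)).length = r.length from Walk.length_map _ _]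
          omega
  -- the other half-trees
  have hclear : ∀ g ∈ A, g ∉ E → f.pr z ∉ g.side →
      ∀ v ∈ r.support, f.pr v ∉ g.side := by
    intro g hgA hgE hzg
    by_contra hex
    push Not at hex
    obtain ⟨v, hv, hvg⟩ := hex
    have hgen : ∀ {a b : V} (p : (f.avoid k).Walk a b), f.pr a ∉ g.side → v ∈ p.support →
        ∃ d ∈ p.darts, ¬(f.pr d.fst ∈ g.side ↔ f.pr d.snd ∈ g.side) := by
      intro a b p
      induction p with
      | nil => intro h hv'; simp only [Walk.support_nil, List.mem_singleton] at hv'; exact absurd (hv' ▸ hvg) h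
      | @cons a c e hac p ih =>
        intro h hv'
        by_cases hcg : f.pr c ∈ g.side
        · exact ⟨⟨(a, c), hac⟩, by simp, fun hh => h (hh.2 hcg)⟩
        · rcases List.mem_cons.1 (by simpa using hv') with rfl | hv''
          · exact absurd hvg h
          · obtain ⟨d, hd, hs⟩ := ih hcg hv''
            exact ⟨d, by simp [hd], hs⟩
    obtain ⟨d, hd, hs⟩ := hgen r hzg hv
    exact hgE (Finset.mem_union_left _ (Finset.mem_biUnion.2
      ⟨d, List.mem_toFinset.2 hd, Finset.mem_filter.2 ⟨hgA, hs⟩⟩))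
  set A₁ := (A \ E).filter fun g => Disjoint g.side k.side ∧ f.pr z ∉ g.side with hA₁
  have hzero : ∀ g ∈ A \ E, g ∉ A₁ →
      ∑' v : f.port g, perc V q (conn (f.avoidSide k ⊓ f.avoid g) z v) = 0 := by
    intro g hg hg1
    obtain ⟨hgA, hgE⟩ := Finset.mem_sdiff.1 hg
    refine ENNReal.tsum_eq_zero.2 fun v => ?_
    have hn : ∀ u, f.H.Adj z u → (f.pr z ∈ g.side ↔ f.pr u ∈ g.side) := fun u hu => by
      by_contra hs
      exact hgE (Finset.mem_union_right _ (Finset.mem_biUnion.2
        ⟨u, (mem_neighborFinset _ _ _).2 hu, Finset.mem_filter.2 ⟨hgA, hs⟩⟩))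
    by_cases hzg : f.pr z ∈ g.side
    · have hzV := hin g hgA hzg fun u hu => (hn u hu).1 hzg
      refine perc_conn_eq_zero (fun u hu => hu.2.2 ⟨hzV, f.Vs_of_adj hzV hu.1.1.symm
        ((hn u hu.1.1).1 hzg)⟩) fun e => ?_
      obtain ⟨u, hu, hus⟩ := f.port_out (e ▸ v.2 : z ∈ f.port g)
      exact hus ((hn u hu).1 hzg)
    · have hy'g := hclear g hgA hgE hzg y' r.end_mem_support
      have hgk : g.side ⊆ k.side := by
        rcases Half.cases f.tree k g with h | h | h | h
        · exact h
        · exact absurd (h hy'.1.1) hy'g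
        · exact absurd (Finset.mem_filter.2 ⟨hg, h.symm, hzg⟩) hg1
        · exact absurd (h hz) hzg
      rw [show conn (f.avoidSide k ⊓ f.avoid g) z v = ∅ from
        Set.eq_empty_of_forall_notMem fun ω hω => ?_, measure_empty]
      have key : ∀ {a b : V} (p : (openGraph (f.avoidSide k ⊓ f.avoid g) ω).Walk a b),
          f.pr a ∉ k.side → f.pr b ∉ k.side := by
        intro a b p
        induction p with
        | nil => exact id
        | cons h _ ih => exact fun _ => ih h.1.1.2.2
      obtain ⟨p⟩ := hω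
      exact key p hz (hgk v.2.1.1)
  have hmain : ∑ g ∈ A₁, ∑' v : f.port g, perc V q (conn (f.avoidSide k ⊓ f.avoid g) z v) ≤
      K * W := by
    have hA₁A : A₁ ⊆ A := (Finset.filter_subset _ _).trans Finset.sdiff_subset
    have h := hroot k y' y' hy' .nil le_rfl A₁ w
      (fun g hg g' hg' hne => hA g (hA₁A hg) g' (hA₁A hg') hne)
      fun g hg => Or.inl (Finset.mem_filter.1 hg).2.1
    refine le_trans ?_ (mul_le_mul_right h K)
    rw [Finset.mul_sum]
    refine Finset.sum_le_sum fun g hg => ?_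
    rw [← ENNReal.tsum_mul_left]
    refine ENNReal.tsum_le_tsum fun v => ?_
    obtain ⟨hg', -, hzg⟩ := Finset.mem_filter.1 hg
    obtain ⟨hgA, hgE⟩ := Finset.mem_sdiff.1 hg'
    have htr : ∀ e ∈ r.edges, e ∈ (f.avoid k ⊓ f.avoid g).edgeSet := fun e he => by
      induction e using Sym2.ind with
      | _ u u' => exact ⟨r.adj_of_mem_edges he, (r.adj_of_mem_edges he).1,
          fun hh => hclear g hgA hgE hzg u (r.fst_mem_support_of_mem_edges he) hh.1.1⟩
    calc perc V q (conn (f.avoidSide k ⊓ f.avoid g) z v)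
        ≤ perc V q (conn (f.avoid k ⊓ f.avoid g) z v) :=
          perc_conn_le (inf_le_inf (f.avoidSide_le_avoid k) le_rfl) _ _
      _ = K * (ENNReal.ofReal (c ^ (M + M₁)) * perc V q (conn (f.avoid k ⊓ f.avoid g) z v)) := by
          rw [← mul_assoc, hK, ← ENNReal.ofReal_mul (by positivity),
            inv_mul_cancel₀ (by positivity), ENNReal.ofReal_one, one_mul]
      _ ≤ _ := mul_le_mul_right (walk_conn (r.transfer _ htr).reverse hc0.le hcq
          (by rw [Walk.length_reverse, Walk.length_transfer]; omega) _) _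
  rw [← Finset.sum_sdiff hEA]
  rw [← Finset.sum_subset (Finset.filter_subset _ _ : A₁ ⊆ A \ E) hzero]
  refine le_trans (add_le_add hmain ((Finset.sum_le_card_nsmul _ _ _ hexc).trans
    (le_of_eq (nsmul_eq_mul _ _)))) ?_
  rw [← one_add_mul, ← mul_assoc]
  refine mul_le_mul_left ?_ _
  have hnum : ((1 + E.card : ℕ) : ℝ) * (c ^ (M + M₁))⁻¹ ≤
      (2 * B₀ * (c ^ (M₁ + 1))⁻¹) ^ (M + 1) := by
    have h1 : 1 + E.card ≤ (2 * B₀) ^ (M + 1) := by
      have h5 : 2 * f.L * (M + Dg) ≤ 2 * f.L * (Dg + 1) * (M + 1) := by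
        rw [mul_assoc (2 * f.L)]
        exact Nat.mul_le_mul_left _ (by nlinarith)
      have h6 : 1 + E.card ≤ B₀ * (M + 1) := by
        simp only [B₀, add_mul, one_mul]
        omega
      refine h6.trans ?_
      rw [mul_pow, mul_comm]
      exact Nat.mul_le_mul (Nat.le_of_lt Nat.lt_two_pow_self) (Nat.le_self_pow (by omega) _)
    rw [mul_pow]
    refine mul_le_mul (by exact_mod_cast h1) ?_ (by positivity) (by positivity)
    rw [inv_pow, ← pow_mul]
    exact inv_anti₀ (by positivity) (pow_le_pow_of_le_one hc0.le hc1 (by nlinarith))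
  rw [hK, ← ENNReal.ofReal_one, ← ENNReal.ofReal_natCast E.card,
    ← ENNReal.ofReal_add zero_le_one (Nat.cast_nonneg _), ← ENNReal.ofReal_mul (by positivity)]
  exact ENNReal.ofReal_le_ofReal (by exact_mod_cast hnum)

end Vale.Agent.P165.TreeAct
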