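import Mathlib
import Vale.Agent.P165.TreeAct.Rest
import Vale.Agent.P165.TreeAct.Exponent

/-!
The linear recursion: over every separated family away from a vertex the expected port counts are
at most a fixed power of the root bound.
-/

namespace Vale.Agent.P165.TreeAct

open MeasureTheory SimpleGraph
open scoped ENNReal

variable {V τ Γ : Type} [Group Γ] [MulAction Γ V] [MulAction Γ τ] (f : Frame V τ Γ)

/-- Below the critical point the port counts over any family are bounded. -/
lemma Frame.exists_Y_bound {q : unitInterval} (hq : (q : ℝ) < pc f.H) :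
    ∃ U : ℝ≥0∞, U ≠ ⊤ ∧ ∀ (x : V) (A : Finset (Half f.T)), ∑ g ∈ A, f.Y q x g ≤ U := by
  classical
  obtain ⟨X, -, -, hX⟩ := f.susc_finite hq
  obtain ⟨D, hD⟩ := f.exists_mult
  refine ⟨(D : ℝ≥0∞) * ENNReal.ofReal X,
    ENNReal.mul_ne_top (ENNReal.natCast_ne_top D) ENNReal.ofReal_ne_top, fun x A => ?_⟩
  calc ∑ g ∈ A, f.Y q x g
      ≤ ∑ g ∈ A, ∑' z, (f.port g).indicator (fun z => perc V q (conn f.H x z)) z := by
        refine Finset.sum_le_sum fun g _ => ?_
        rw [Frame.Y, ← tsum_subtype (f.port g) fun z => perc V q (conn f.H x z)]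
        exact ENNReal.tsum_le_tsum fun z => perc_conn_le (f.avoid_le g) _ _
    _ = ∑' z, ∑ g ∈ A, (f.port g).indicator (fun z => perc V q (conn f.H x z)) z :=
        (Summable.tsum_finsetSum fun _ _ => ENNReal.summable).symm
    _ ≤ ∑' z, (D : ℝ≥0∞) * perc V q (conn f.H x z) := by
        refine ENNReal.tsum_le_tsum fun z => ?_
        simp only [Set.indicator_apply]
        rw [← Finset.sum_filter, Finset.sum_const, nsmul_eq_mul]
        exact mul_le_mul_left (Nat.cast_le.2
          (hD z (A.filter fun g => z ∈ f.port g) fun g hg => (Finset.mem_filter.1 hg).2)) _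
    _ ≤ _ := by
        rw [ENNReal.tsum_mul_left]
        exact mul_le_mul_right (hX _) _

/-- The bound over separated families is a power of the root bound. -/
theorem Frame.code_sum {a : ℝ} (ha : 0 < a) (Cn : Chain f) :
    ∃ C β : ℝ, 1 ≤ C ∧ 0 ≤ β ∧ ∀ R : ℕ, ∀ q : unitInterval, a ≤ q → (q : ℝ) < pc f.H →
      ∀ W : ℝ, 1 ≤ W → f.RootBound q R 0 (ENNReal.ofReal W) →
      (∀ (g : Half f.T), ∀ y ∈ f.port g, f.Y q y g ≤ ENNReal.ofReal W) →
        f.CodeBound q R (ENNReal.ofReal (C * W ^ β)) := by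
  classical
  obtain ⟨b, hb1, hrest'⟩ := f.exists_rest ha
  set M := Cn.M
  set c : ℝ := b ^ (M + 1) with hc
  have hc1 : 1 ≤ c := one_le_pow₀ hb1
  set β₀ : ℝ := Real.logb 2 (b ^ M) with hβ₀
  have hβ0 : 0 ≤ β₀ := Real.logb_nonneg one_lt_two (one_le_pow₀ hb1)
  refine ⟨2 * c * (16 * c) ^ β₀, 1 + β₀, ?_, by linarith, fun R q haq hqc W hW hroot hport => ?_⟩
  · have : 1 ≤ (16 * c) ^ β₀ := Real.one_le_rpow (by linarith) hβ0
    nlinarith
  obtain ⟨L, hL1, hL2⟩ : ∃ L : ℕ, 8 * c * W ≤ (2 : ℝ) ^ L ∧ (2 : ℝ) ^ L ≤ 16 * c * W := by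
    have hpos : 1 ≤ 8 * c * W := by nlinarith
    obtain ⟨n, hn1, hn2⟩ := exists_nat_pow_near hpos one_lt_two
    refine ⟨n + 1, hn2.le, ?_⟩
    rw [pow_succ]
    nlinarith
  have hrest := hrest' R
  have hrest' := fun k z y' hy' hz r hr A w hA hin => hrest q haq (ENNReal.ofReal W) hroot hport
    (M := M) k z y' hy' hz r hr A w hA hin
  obtain ⟨U₀, hU₀, hYle⟩ := f.exists_Y_bound hqc
  set U : ℝ≥0∞ := ⨆ (x : V) (A : Finset (Half f.T)) (w : Half f.T → τ) (_ : Sep R A w)
    (_ : ∀ g ∈ A, f.pr x ∉ g.side), ∑ g ∈ A, f.Y q x g with hU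
  have hUfin : U ≠ ⊤ := ne_top_of_le_ne_top hU₀ (iSup_le fun x => iSup_le fun A =>
    iSup_le fun _ => iSup_le fun _ => iSup_le fun _ => hYle x A)
  have hUle : ∀ x A w, Sep R A w → (∀ g ∈ A, f.pr x ∉ g.side) → ∑ g ∈ A, f.Y q x g ≤ U :=
    fun x A w h1 h2 => le_iSup_of_le x (le_iSup_of_le A (le_iSup_of_le w
      (le_iSup_of_le h1 (le_iSup_of_le h2 le_rfl))))
  set B : ℝ≥0∞ := ENNReal.ofReal (b ^ (M * (L + 1) + 1)) * ENNReal.ofReal W
  set S : ℝ≥0∞ := 2 * (ENNReal.ofReal c * ENNReal.ofReal W) with hS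
  have hstep : ∀ x A w, Sep R A w → (∀ g ∈ A, f.pr x ∉ g.side) →
      ∑ g ∈ A, f.Y q x g ≤ B + ∑' j : ℕ, (2⁻¹ : ℝ≥0∞) ^ (L + j) * (U * S) := by
    intro x A w hA hx
    set Hd : Half f.T → V → ℝ≥0∞ := fun g v => (2⁻¹ : ℝ≥0∞) ^ L *
      ∑ k ∈ Cn.head L x, perc V q (conn (f.avoid g ⊓ f.avoidSide k) x v)
    set Lv : Half f.T → V → ℝ≥0∞ := fun g v => ∑' j : ℕ, (2⁻¹ : ℝ≥0∞) ^ (L + j) *
      ∑' N : Cn.Lev L x j, ∑' z : f.port (N : Half f.T),
        perc V q (conn (f.avoid (N : Half f.T)) x z) *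
          ∑ l : Fin 2, perc V q (conn (f.avoid g ⊓ f.avoidSide (Cn.deep N z l)) z v) with hLv
    have h1 : ∑ g ∈ A, f.Y q x g ≤
        (∑ g ∈ A, ∑' v : f.port g, Hd g v) + ∑ g ∈ A, ∑' v : f.port g, Lv g v := by
      rw [← Finset.sum_add_distrib]
      refine Finset.sum_le_sum fun g _ => ?_
      rw [← ENNReal.tsum_add]
      exact ENNReal.tsum_le_tsum fun v => Cn.split q L x (f.avoid g) (f.avoid_le g) v
    refine h1.trans (add_le_add ?_ ?_)
    · calc ∑ g ∈ A, ∑' v : f.port g, Hd g v
          = (2⁻¹ : ℝ≥0∞) ^ L * ∑ k ∈ Cn.head L x, ∑ g ∈ A,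
              ∑' v : f.port g, perc V q (conn (f.avoid g ⊓ f.avoidSide k) x v) := by
            simp only [Hd, ENNReal.tsum_mul_left, ← Finset.mul_sum]
            rw [Finset.sum_comm]
            congr 1
            exact Finset.sum_congr rfl fun g _ =>
              Summable.tsum_finsetSum fun _ _ => ENNReal.summable
        _ ≤ (2⁻¹ : ℝ≥0∞) ^ L * ∑ _k ∈ Cn.head L x, B := by
            refine mul_le_mul_right (Finset.sum_le_sum fun k hk => ?_) _
            obtain ⟨hk1, -, y', hy', r, hr⟩ := Cn.head_prop L x k hk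
            refine le_trans (le_of_eq (Finset.sum_congr rfl fun g _ => by rw [inf_comm]))
              (hrest q haq _ hroot hport (M * (L + 1)) k x y' hy' hk1 r hr A w hA
                fun g hg hxg => absurd hxg (hx g hg))
        _ ≤ (2⁻¹ : ℝ≥0∞) ^ L * (((2 ^ L : ℕ) : ℝ≥0∞) * B) := by
            rw [Finset.sum_const, nsmul_eq_mul]
            exact mul_le_mul_right (mul_le_mul_left (Nat.cast_le.2 (Cn.card_head L x)) _) _
        _ = B := by
            rw [← mul_assoc, Nat.cast_pow, Nat.cast_ofNat, ← mul_pow,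
              ENNReal.inv_mul_cancel two_ne_zero ENNReal.ofNat_ne_top, one_pow, one_mul]
    · have hswap : ∑ g ∈ A, ∑' v : f.port g, Lv g v = ∑' j : ℕ, (2⁻¹ : ℝ≥0∞) ^ (L + j) *
          ∑' N : Cn.Lev L x j, ∑' z : f.port (N : Half f.T),
            perc V q (conn (f.avoid (N : Half f.T)) x z) * ∑ l : Fin 2, ∑ g ∈ A,
              ∑' v : f.port g, perc V q (conn (f.avoid g ⊓ f.avoidSide (Cn.deep N z l)) z v) := by
        simp only [Lv]
        rw [Finset.sum_congr rfl fun g _ => ENNReal.tsum_comm,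
          ← Summable.tsum_finsetSum fun _ _ => ENNReal.summable]
        refine tsum_congr fun j => ?_
        simp only [ENNReal.tsum_mul_left, ← Finset.mul_sum]
        congr 1
        rw [Finset.sum_congr rfl fun g _ => ENNReal.tsum_comm,
          ← Summable.tsum_finsetSum fun _ _ => ENNReal.summable]
        refine tsum_congr fun N => ?_
        rw [Finset.sum_congr rfl fun g _ => ENNReal.tsum_comm,
          ← Summable.tsum_finsetSum fun _ _ => ENNReal.summable]
        refine tsum_congr fun z => ?_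
        simp only [ENNReal.tsum_mul_left, ← Finset.mul_sum]
        congr 1
        rw [Finset.sum_comm]
        exact Finset.sum_congr rfl fun g _ =>
          Summable.tsum_finsetSum fun _ _ => ENNReal.summable
      rw [hswap]
      refine ENNReal.tsum_le_tsum fun j => mul_le_mul_right ?_ _
      calc ∑' N : Cn.Lev L x j, ∑' z : f.port (N : Half f.T),
            perc V q (conn (f.avoid (N : Half f.T)) x z) * ∑ l : Fin 2, ∑ g ∈ A,
              ∑' v : f.port g, perc V q (conn (f.avoid g ⊓ f.avoidSide (Cn.deep N z l)) z v)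
          ≤ ∑' N : Cn.Lev L x j, ∑' z : f.port (N : Half f.T),
              perc V q (conn (f.avoid (N : Half f.T)) x z) * S := by
            refine ENNReal.tsum_le_tsum fun N => ENNReal.tsum_le_tsum fun z =>
              mul_le_mul_right ?_ _
            rw [hS, two_mul, Fin.sum_univ_two]
            have hone : ∀ l : Fin 2, ∑ g ∈ A, ∑' v : f.port g,
                perc V q (conn (f.avoid g ⊓ f.avoidSide (Cn.deep N z l)) z v) ≤
                  ENNReal.ofReal c * ENNReal.ofReal W := by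
              intro l
              obtain ⟨hd1, -, y', hy', r, hr⟩ := Cn.deep_prop L x j N N.2 z z.2 l
              refine le_trans (le_of_eq (Finset.sum_congr rfl fun g _ => by rw [inf_comm]))
                (hrest' _ _ y' hy' hd1 r hr A w hA fun g hg hzg hall => ?_)
              have hxN := (Cn.lev_prop L x j N N.2).1
              rcases Half.subset_or_subset f.tree z.2.1.1 hzg hxN (hx g hg) with h | h
              · obtain ⟨u, hu, hus⟩ := f.port_out z.2
                exact absurd (h (hall u hu)) hus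
              · exact f.Vs_mono h z.2.1
            exact add_le_add (hone 0) (hone 1)
        _ = (∑' N : Cn.Lev L x j, f.Y q x N) * S := by
            simp only [Frame.Y, ENNReal.tsum_mul_right]
        _ ≤ U * S := by
            refine mul_le_mul_left ?_ _
            rw [ENNReal.tsum_eq_iSup_sum]
            refine iSup_le fun A' => ?_
            refine le_trans (le_of_eq ?_) (hUle x (A'.map (Function.Embedding.subtype _))
              (fun _ => f.pr x) ?_ ?_)
            · rw [Finset.sum_map]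
              rfl
            · intro g hg g' hg' hne
              obtain ⟨N, -, rfl⟩ := Finset.mem_map.1 hg
              obtain ⟨N', -, rfl⟩ := Finset.mem_map.1 hg'
              exact Or.inl (Or.inl (Cn.lev_code L x j N.2 N'.2 hne))
            · intro g hg
              obtain ⟨N, -, rfl⟩ := Finset.mem_map.1 hg
              exact (Cn.lev_prop L x j N N.2).1
  have hgeo : ∑' j : ℕ, (2⁻¹ : ℝ≥0∞) ^ (L + j) * (U * S) ≤ U / 2 := by
    simp only [pow_add, mul_assoc]
    rw [ENNReal.tsum_mul_left, ENNReal.tsum_mul_right, ENNReal.tsum_geometric,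
      ENNReal.one_sub_inv_two, inv_inv, hS]
    calc (2⁻¹ : ℝ≥0∞) ^ L * (2 * (U * (2 * (ENNReal.ofReal c * ENNReal.ofReal W))))
        = U * ((2⁻¹ : ℝ≥0∞) ^ L * ENNReal.ofReal (4 * c * W)) := by
          rw [ENNReal.ofReal_mul (by positivity), ENNReal.ofReal_mul (by norm_num)]
          simp only [ENNReal.ofReal_ofNat]
          ring
      _ ≤ U * 2⁻¹ := by
          refine mul_le_mul_right ?_ _
          rw [← ENNReal.inv_pow, ← ENNReal.ofReal_ofNat 2, ← ENNReal.ofReal_pow zero_le_two,
            ← ENNReal.ofReal_inv_of_pos (by positivity), ← ENNReal.ofReal_inv_of_pos two_pos,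
            ← ENNReal.ofReal_mul (by positivity)]
          refine ENNReal.ofReal_le_ofReal ?_
          rw [inv_mul_le_iff₀ (by positivity)]
          linarith
      _ = U / 2 := (div_eq_mul_inv _ _).symm
  have hU2 : U ≤ 2 * B := by
    have h : U ≤ B + U / 2 := iSup_le fun x => iSup_le fun A => iSup_le fun w =>
      iSup_le fun h1 => iSup_le fun h2 => (hstep x A w h1 h2).trans (add_le_add le_rfl hgeo)
    conv_lhs at h => rw [← ENNReal.add_halves U]
    have h' := (ENNReal.add_le_add_iff_right (ENNReal.div_ne_top hUfin two_ne_zero)).1 h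
    calc U = 2 * (U / 2) := by rw [ENNReal.mul_div_cancel two_ne_zero ENNReal.ofNat_ne_top]
      _ ≤ 2 * B := mul_le_mul_right h' _
  intro x A w h1 h2
  refine (hUle x A w h1 h2).trans (hU2.trans ?_)
  simp only [B]
  rw [← ENNReal.ofReal_ofNat 2, ← ENNReal.ofReal_mul (by positivity),
    ← ENNReal.ofReal_mul zero_le_two]
  refine ENNReal.ofReal_le_ofReal ?_
  have hpow : b ^ (M * (L + 1) + 1) = c * ((b ^ M) ^ L) := by
    rw [hc, ← pow_mul, ← pow_add]; congr 1; ring
  have hbl : (b ^ M) ^ L = ((2 : ℝ) ^ L) ^ β₀ := by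
    rw [← Real.rpow_natCast (2 : ℝ) L, ← Real.rpow_mul zero_le_two, mul_comm,
      Real.rpow_mul zero_le_two, hβ₀,
      Real.rpow_logb two_pos (by norm_num) (lt_of_lt_of_le one_pos (one_le_pow₀ hb1)),
      Real.rpow_natCast]
  rw [hpow, hbl]
  calc 2 * (c * ((2 : ℝ) ^ L) ^ β₀ * W) ≤ 2 * (c * (16 * c * W) ^ β₀ * W) := by
        gcongr
    _ = _ := by
        rw [Real.mul_rpow (by positivity) (by linarith), Real.rpow_add (by linarith), Real.rpow_one]
        ring

end Vale.Agent.P165.TreeAct
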