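import Mathlib
import Vale.Agent.P165.TreeAct.Defs

/-!
Contracting the edges of a tree outside one orbit: from an action on a tree with a branched edge
to the standing data of a frame.
-/

namespace Vale.Agent.P165.TreeAct

open SimpleGraph

section Sides

variable {τ : Type} {T : SimpleGraph τ}

lemma tree_path_length (hT : T.IsTree) {u v : τ} {p : T.Walk u v} (hp : p.IsPath) :
    p.length = T.dist u v := by
  obtain ⟨q, hq, hl⟩ := hT.connected.exists_path_of_dist u v
  obtain rfl : p = q :=
    congrArg Subtype.val ((hT.isAcyclic.subsingleton_path u v).elim ⟨p, hp⟩ ⟨q, hq⟩)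
  exact hl

/-- In a tree without one edge every point is joined to exactly one of its ends. -/
lemma split_reach (hT : T.IsTree) {x y : τ} (h : T.Adj x y) (z : τ) :
    ((T.deleteEdges {s(x, y)}).Reachable z x ∨ (T.deleteEdges {s(x, y)}).Reachable z y) ∧
      ¬((T.deleteEdges {s(x, y)}).Reachable z x ∧ (T.deleteEdges {s(x, y)}).Reachable z y) := by
  set D := T.deleteEdges {s(x, y)}
  refine ⟨?_, fun ⟨h1, h2⟩ => ?_⟩
  · obtain ⟨w⟩ := hT.connected.preconnected z x
    suffices ∀ {u v : τ}, T.Walk u v → (D.Reachable v x ∨ D.Reachable v y) →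
        (D.Reachable u x ∨ D.Reachable u y) from this w (Or.inl (Reachable.refl _))
    intro u v w
    induction w with
    | nil => exact id
    | @cons u u' _ e _ ih =>
      intro hv
      by_cases he : s(u, u') = s(x, y)
      · rcases Sym2.eq_iff.1 he with ⟨rfl, rfl⟩ | ⟨rfl, rfl⟩
        · exact Or.inl (Reachable.refl _)
        · exact Or.inr (Reachable.refl _)
      · have hd : D.Adj u u' := deleteEdges_adj.2 ⟨e, by simpa using he⟩
        exact (ih hv).imp hd.reachable.trans hd.reachable.trans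
  · exact SimpleGraph.isBridge_iff.1 (isAcyclic_iff_forall_adj_isBridge.1 hT.isAcyclic h)
      (h1.symm.trans h2)

/-- A half-tree consists of the points joined to its head without its edge. -/
lemma mem_sideOf (hT : T.IsTree) {x y : τ} (h : T.Adj x y) (z : τ) :
    z ∈ sideOf T x y ↔ (T.deleteEdges {s(x, y)}).Reachable z y := by
  classical
  set D := T.deleteEdges {s(x, y)}
  obtain ⟨hor, hand⟩ := split_reach hT h z
  have key : ∀ {u v : τ}, T.Adj u v → D.Reachable z u → ¬D.Reachable z v →
      T.dist z v = T.dist z u + 1 := by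
    intro u v huv hu hv
    obtain ⟨p, hp⟩ := hu.exists_isPath
    have hle : D ≤ T := deleteEdges_le _
    have hv' : v ∉ (p.mapLe hle).support := fun hmem => by
      refine hv ?_
      have : v ∈ p.support := by simpa [Walk.mapLe] using hmem
      exact ⟨p.takeUntil v this⟩
    have hp' : (p.mapLe hle).IsPath := (Walk.isPath_mapLe hle).2 hp
    have := tree_path_length hT (hp'.concat hv' huv)
    rw [Walk.length_concat, tree_path_length hT hp'] at this
    omega
  show T.dist z y < T.dist z x ↔ _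
  constructor
  · intro hlt
    refine hor.resolve_left fun hx => ?_
    have := key h hx fun hy => hand ⟨hx, hy⟩
    omega
  · intro hy
    have := key h.symm hy fun hx => hand ⟨hx, hy⟩
    omega

/-- The only edge leaving a half-tree is its own one. -/
lemma sideOf_crossing (hT : T.IsTree) {x y u v : τ} (h : T.Adj x y) (huv : T.Adj u v)
    (hu : u ∈ sideOf T x y) (hv : v ∉ sideOf T x y) : s(u, v) = s(x, y) := by
  by_contra hne
  rw [mem_sideOf hT h] at hu hv
  exact hv ((Adj.reachable (deleteEdges_adj.2 ⟨huv.symm, by simpa [Sym2.eq_swap] using hne⟩)).trans hu)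

lemma head_mem_sideOf {x y : τ} (h : T.Adj x y) : y ∈ sideOf T x y := by
  show T.dist y y < T.dist y x
  rw [dist_self, dist_comm, SimpleGraph.dist_eq_one_iff_adj.2 h]
  exact one_pos

lemma tail_notMem_sideOf {x y : τ} : x ∉ sideOf T x y := by
  show ¬T.dist x y < T.dist x x
  simp

end Sides

section Collapse

variable {τ Γ : Type} [Group Γ] [MulAction Γ τ] (T : SimpleGraph τ)
  (htadj : ∀ (g : Γ) (x y : τ), T.Adj x y → T.Adj (g • x) (g • y)) (a b : τ)

/-- The edges in the orbit of `{a, b}`. -/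
def orbEdges (Γ : Type) {τ : Type} [Group Γ] [MulAction Γ τ] (a b : τ) : Set (Sym2 τ) :=
  {e | ∃ g : Γ, e = s(g • a, g • b)}

lemma mem_orbEdges_smul (g : Γ) {x y : τ} (h : s(x, y) ∈ orbEdges Γ a b) :
    s(g • x, g • y) ∈ orbEdges Γ a b := by
  obtain ⟨k, hk⟩ := h
  refine ⟨g * k, ?_⟩
  have := congrArg (Sym2.map (g • ·)) hk
  simpa [mul_smul] using this

/-- The tree without the orbit of the edge. -/
def restTree (Γ : Type) {τ : Type} [Group Γ] [MulAction Γ τ] (T : SimpleGraph τ) (a b : τ) :
    SimpleGraph τ :=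
  T.deleteEdges (orbEdges Γ a b)

/-- The contracted graph on the pieces. -/
def pieceTree (Γ : Type) {τ : Type} [Group Γ] [MulAction Γ τ] (T : SimpleGraph τ) (a b : τ) :
    SimpleGraph (restTree Γ T a b).ConnectedComponent where
  Adj C D := C ≠ D ∧ ∃ x y, (restTree Γ T a b).connectedComponentMk x = C ∧
    (restTree Γ T a b).connectedComponentMk y = D ∧ T.Adj x y
  symm := ⟨fun _ _ ⟨h, x, y, hx, hy, hxy⟩ => ⟨h.symm, y, x, hy, hx, hxy.symm⟩⟩
  loopless := ⟨fun _ h => h.1 rfl⟩

include htadj in
lemma restTree_smul (g : Γ) {x y : τ} (h : (restTree Γ T a b).Adj x y) :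
    (restTree Γ T a b).Adj (g • x) (g • y) := by
  obtain ⟨h1, h2⟩ := deleteEdges_adj.1 h
  refine deleteEdges_adj.2 ⟨htadj g x y h1, fun h3 => h2 ?_⟩
  simpa using mem_orbEdges_smul a b g⁻¹ h3

/-- Translation by a group element as an endomorphism of the pieces. -/
def restHom (g : Γ) : restTree Γ T a b →g restTree Γ T a b :=
  ⟨(g • ·), fun {_ _} h => restTree_smul T htadj a b g h⟩

/-- The action on the pieces. -/
@[implicit_reducible] def pieceAction : MulAction Γ (restTree Γ T a b).ConnectedComponent where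
  smul g C := C.map (restHom T htadj a b g)
  one_smul C := C.ind fun x => congrArg (restTree Γ T a b).connectedComponentMk (one_smul Γ x)
  mul_smul g k C := C.ind fun x => congrArg (restTree Γ T a b).connectedComponentMk (mul_smul g k x)

variable {T}

/-- A half-tree of an orbit edge is a union of pieces. -/
lemma side_const (hT : T.IsTree) {x y : τ} (h : T.Adj x y) (he : s(x, y) ∈ orbEdges Γ a b)
    {u v : τ} (huv : (restTree Γ T a b).Reachable u v) :
    u ∈ sideOf T x y ↔ v ∈ sideOf T x y := by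
  obtain ⟨w⟩ := huv
  induction w with
  | nil => rfl
  | @cons u u' _ e _ ih =>
    refine Iff.trans ?_ ih
    obtain ⟨h1, h2⟩ := deleteEdges_adj.1 e
    constructor <;> intro hm <;> by_contra hn
    · exact h2 (sideOf_crossing hT h h1 hm hn ▸ he)
    · refine h2 ?_
      rw [Sym2.eq_swap]
      exact sideOf_crossing hT h h1.symm hm hn ▸ he

lemma orbEdge_of_ne {x y : τ} (h : T.Adj x y)
    (hne : (restTree Γ T a b).connectedComponentMk x ≠ (restTree Γ T a b).connectedComponentMk y) :
    s(x, y) ∈ orbEdges Γ a b := by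
  by_contra hn
  exact hne (ConnectedComponent.sound (deleteEdges_adj.2 ⟨h, hn⟩).reachable)

lemma piece_ne (hT : T.IsTree) {x y : τ} (h : T.Adj x y) (he : s(x, y) ∈ orbEdges Γ a b) :
    (restTree Γ T a b).connectedComponentMk x ≠ (restTree Γ T a b).connectedComponentMk y :=
  fun e => tail_notMem_sideOf
    ((side_const a b hT h he (ConnectedComponent.exact e)).2 (head_mem_sideOf h))

lemma piece_reach (hT : T.IsTree) {x y u v : τ} (h : T.Adj x y) (he : s(x, y) ∈ orbEdges Γ a b)
    (huv : (T.deleteEdges {s(x, y)}).Reachable u v) :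
    ((pieceTree Γ T a b).deleteEdges {s((restTree Γ T a b).connectedComponentMk x,
        (restTree Γ T a b).connectedComponentMk y)}).Reachable
      ((restTree Γ T a b).connectedComponentMk u) ((restTree Γ T a b).connectedComponentMk v) := by
  obtain ⟨w⟩ := huv
  induction w with
  | nil => exact Reachable.refl _
  | @cons u u' _ e _ ih =>
    obtain ⟨h1, h2⟩ := deleteEdges_adj.1 e
    by_cases hc : (restTree Γ T a b).connectedComponentMk u =
        (restTree Γ T a b).connectedComponentMk u'
    · rw [hc]; exact ih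
    refine Reachable.trans (Adj.reachable
      (deleteEdges_adj.2 ⟨⟨hc, u, u', rfl, rfl, h1⟩, fun hm => h2 ?_⟩)) ih
    have cst := fun {p q : τ} => side_const (Γ := Γ) a b hT h he (u := p) (v := q)
    rcases Sym2.eq_iff.1 (Set.mem_singleton_iff.1 hm) with ⟨e1, e2⟩ | ⟨e1, e2⟩
    · refine Set.mem_singleton_iff.2 (Sym2.eq_swap.trans (sideOf_crossing hT h h1.symm
        ((cst (ConnectedComponent.exact e2)).2 (head_mem_sideOf h))
        fun hu => tail_notMem_sideOf ((cst (ConnectedComponent.exact e1)).1 hu)))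
    · refine Set.mem_singleton_iff.2 (sideOf_crossing hT h h1
        ((cst (ConnectedComponent.exact e1)).2 (head_mem_sideOf h))
        fun hu => tail_notMem_sideOf ((cst (ConnectedComponent.exact e2)).1 hu))

lemma pieceTree_isTree (hT : T.IsTree) : (pieceTree Γ T a b).IsTree := by
  set K := restTree Γ T a b with hK
  refine ⟨?_, ?_⟩
  · have : Nonempty K.ConnectedComponent := hT.connected.nonempty.map K.connectedComponentMk
    refine ⟨fun C D => ?_⟩
    induction C using ConnectedComponent.ind with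
    | _ x =>
    induction D using ConnectedComponent.ind with
    | _ y =>
    obtain ⟨w⟩ := hT.connected.preconnected x y
    induction w with
    | nil => exact Reachable.refl _
    | @cons u u' _ e _ ih =>
      by_cases hc : K.connectedComponentMk u = K.connectedComponentMk u'
      · rw [hc]; exact ih
      · exact Reachable.trans
          (Adj.reachable (show (pieceTree Γ T a b).Adj _ _ from ⟨hc, u, u', rfl, rfl, e⟩)) ih
  · refine isAcyclic_iff_forall_adj_isBridge.2 ?_
    rintro C D ⟨hne, x, y, rfl, rfl, hxy⟩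
    have he := orbEdge_of_ne a b hxy hne
    refine isBridge_iff.2 ?_
    intro hr
    suffices ∀ p q : K.ConnectedComponent, ((pieceTree Γ T a b).deleteEdges
        {s(K.connectedComponentMk x, K.connectedComponentMk y)}).Reachable p q →
        ∀ u v, K.connectedComponentMk u = p → K.connectedComponentMk v = q →
          (u ∈ sideOf T x y ↔ v ∈ sideOf T x y) from
      tail_notMem_sideOf ((this _ _ hr x y rfl rfl).2 (head_mem_sideOf hxy))
    intro p q hpq
    obtain ⟨w⟩ := hpq
    induction w with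
    | nil =>
      intro u v hu hv
      exact side_const a b hT hxy he (ConnectedComponent.exact (hu.trans hv.symm))
    | @cons p p' _ e _ ih =>
      intro u v hu hv
      obtain ⟨⟨-, x', y', hx', hy', hxy'⟩, hne'⟩ := deleteEdges_adj.1 e
      refine Iff.trans (Iff.trans
        (side_const a b hT hxy he (ConnectedComponent.exact (hu.trans hx'.symm))) ?_) (ih y' v hy' hv)
      have ne' : s(x', y') ≠ s(x, y) := fun e' => hne' (by
        rw [Set.mem_singleton_iff, ← hx', ← hy']
        have := congrArg (Sym2.map K.connectedComponentMk) e'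
        exact this)
      constructor <;> intro hm <;> by_contra hn
      · exact ne' (sideOf_crossing hT hxy hxy' hm hn)
      · exact ne' (Sym2.eq_swap.trans (sideOf_crossing hT hxy hxy'.symm hm hn))

lemma mem_piece_side (hT : T.IsTree) {x y : τ} (h : T.Adj x y) (he : s(x, y) ∈ orbEdges Γ a b)
    (z : τ) :
    (restTree Γ T a b).connectedComponentMk z ∈ sideOf (pieceTree Γ T a b)
      ((restTree Γ T a b).connectedComponentMk x) ((restTree Γ T a b).connectedComponentMk y) ↔
      z ∈ sideOf T x y := by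
  set K := restTree Γ T a b
  have hT' := pieceTree_isTree (Γ := Γ) a b hT
  have hA : (pieceTree Γ T a b).Adj (K.connectedComponentMk x) (K.connectedComponentMk y) :=
    ⟨piece_ne a b hT h he, x, y, rfl, rfl, h⟩
  rw [mem_sideOf hT' hA, mem_sideOf hT h]
  refine ⟨fun hz => ?_, piece_reach a b hT h he⟩
  obtain ⟨hor, -⟩ := split_reach hT h z
  refine hor.resolve_left fun hx => ?_
  exact (split_reach hT' hA _).2 ⟨piece_reach a b hT h he hx, hz⟩

end Collapse

/-- An action on a tree with a branched edge gives a frame. -/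
theorem exists_frame {V τ Γ : Type} (H : SimpleGraph V) [H.LocallyFinite] (T : SimpleGraph τ)
    [Group Γ] [MulAction Γ V] [MulAction Γ τ] (pr : V → τ) (hconn : H.Connected) (hT : T.IsTree)
    (hadj : ∀ (g : Γ) u v, H.Adj u v → H.Adj (g • u) (g • v))
    (htadj : ∀ (g : Γ) x y, T.Adj x y → T.Adj (g • x) (g • y))
    (horb : ∃ O : Finset V, ∀ v, ∃ o ∈ O, ∃ g : Γ, g • o = v)
    (hpr : ∀ (g : Γ) v, pr (g • v) = g • pr v)
    (hunim : ∀ (g : Γ) (v : V), (MulAction.orbit (MulAction.stabilizer Γ v) (g • v)).ncard =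
      (MulAction.orbit (MulAction.stabilizer Γ (g • v)) v).ncard)
    (hbranch : ∃ (a b : τ) (g₁ g₂ g₃ : Γ), T.Adj a b ∧
      (fun x : τ => g₁ • x) '' sideOf T a b ⊂ sideOf T a b ∧
      (fun x : τ => g₂ • x) '' sideOf T a b ⊂ sideOf T a b ∧
      Disjoint ((fun x : τ => g₁ • x) '' sideOf T a b) ((fun x : τ => g₂ • x) '' sideOf T a b) ∧
      (fun x : τ => g₃ • x) '' (sideOf T a b)ᶜ ⊂ sideOf T a b) :
    ∃ (τ' : Type) (_ : MulAction Γ τ') (f : Frame V τ' Γ), f.H = H := by
  obtain ⟨a, b, g₁, g₂, g₃, hab, h₁, h₂, h₁₂, h₃⟩ := hbranch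
  obtain ⟨O, hO⟩ := horb
  let K := restTree Γ T a b
  let π := K.connectedComponentMk
  let act : MulAction Γ K.ConnectedComponent := pieceAction T htadj a b
  have he : s(a, b) ∈ orbEdges Γ a b := ⟨1, by simp⟩
  have hsm : ∀ (g : Γ) (x : τ), π (g • x) = g • π x := fun g x => by
    show _ = (π x).map (restHom T htadj a b g)
    rfl
  let S' := sideOf (pieceTree Γ T a b) (π a) (π b)
  have hS : π ⁻¹' S' = sideOf T a b := Set.ext fun z => mem_piece_side a b hT hab he z
  have himg : ∀ (g : Γ) (A : Set K.ConnectedComponent),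
      π ⁻¹' ((fun C => g • C) '' A) = (fun x : τ => g • x) '' (π ⁻¹' A) := by
    intro g A
    ext z
    constructor
    · rintro ⟨C, hC, hz⟩
      refine ⟨g⁻¹ • z, ?_, smul_inv_smul g z⟩
      show π (g⁻¹ • z) ∈ A
      rw [hsm, ← hz]
      simpa using hC
    · rintro ⟨x, hx, rfl⟩
      exact ⟨π x, hx, (hsm g x).symm⟩
  have hsurj : Function.Surjective π := fun C => C.exists_rep
  have hstrict : ∀ {A B : Set K.ConnectedComponent}, π ⁻¹' A ⊂ π ⁻¹' B → A ⊂ B := fun {A B} h =>
    ⟨(Set.preimage_subset_preimage_iff (by rw [hsurj.range_eq]; exact Set.subset_univ _)).1 h.1,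
      fun h' => h.2 (Set.preimage_mono h')⟩
  refine ⟨K.ConnectedComponent, inferInstance,
    { H := H
      locFin := inferInstance
      connected := hconn
      hadj := hadj
      T := pieceTree Γ T a b
      tree := pieceTree_isTree a b hT
      tadj := ?_
      pr := fun v => π (pr v)
      equiv := fun g v => by rw [hpr, hsm]
      O := O
      hO := hO
      unim := hunim
      e₀ := ⟨π a, π b, piece_ne a b hT hab he, a, b, rfl, rfl, hab⟩
      trans := ?_
      γ₁ := g₁
      γ₂ := g₂
      ψ := g₃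
      hγ₁ := ?_
      hγ₂ := ?_
      hγ := ?_
      hψ := ?_ }, rfl⟩
  · rintro g C D ⟨hne, x, y, rfl, rfl, hxy⟩
    exact ⟨fun e => hne (MulAction.injective g e), g • x, g • y, rfl, rfl, htadj g x y hxy⟩
  · rintro ⟨C, D, hne, x, y, rfl, rfl, hxy⟩
    obtain ⟨g, hg⟩ := orbEdge_of_ne a b hxy hne
    refine ⟨g, (Sym2.eq_iff.1 hg).imp (fun h => ?_) (fun h => ?_)⟩
    · exact ⟨(hsm g a).symm.trans (congrArg π h.1.symm), (hsm g b).symm.trans (congrArg π h.2.symm)⟩
    · exact ⟨(hsm g a).symm.trans (congrArg π h.2.symm), (hsm g b).symm.trans (congrArg π h.1.symm)⟩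
  · refine hstrict ?_
    rw [himg]
    show (fun x : τ => g₁ • x) '' (π ⁻¹' S') ⊂ π ⁻¹' S'
    rw [hS]
    exact h₁
  · refine hstrict ?_
    rw [himg]
    show (fun x : τ => g₂ • x) '' (π ⁻¹' S') ⊂ π ⁻¹' S'
    rw [hS]
    exact h₂
  · refine Set.disjoint_left.2 fun C h h' => ?_
    obtain ⟨x, rfl⟩ := hsurj C
    have e1 : x ∈ π ⁻¹' ((fun C => g₁ • C) '' S') := h
    have e2 : x ∈ π ⁻¹' ((fun C => g₂ • C) '' S') := h'
    rw [himg, hS] at e1 e2
    exact Set.disjoint_left.1 h₁₂ e1 e2
  · refine hstrict ?_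
    rw [himg, Set.preimage_compl]
    show (fun x : τ => g₃ • x) '' (π ⁻¹' S')ᶜ ⊂ π ⁻¹' S'
    rw [hS]
    exact h₃

/-- A free cofinite action on a graph and a branched action on a tree give a frame. -/
theorem exists_frame_free {V τ Γ : Type} (H : SimpleGraph V) [H.LocallyFinite] (T : SimpleGraph τ)
    [Group Γ] [MulAction Γ V] [MulAction Γ τ] (hconn : H.Connected) (hT : T.IsTree)
    (hadj : ∀ (g : Γ) u v, H.Adj u v → H.Adj (g • u) (g • v))
    (htadj : ∀ (g : Γ) x y, T.Adj x y → T.Adj (g • x) (g • y))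
    (hfree : ∀ (g : Γ) (v : V), g • v = v → g = 1)
    (horb : ∃ O : Finset V, ∀ v, ∃ o ∈ O, ∃ g : Γ, g • o = v)
    (hbranch : ∃ (a b : τ) (g₁ g₂ g₃ : Γ), T.Adj a b ∧
      (fun x : τ => g₁ • x) '' sideOf T a b ⊂ sideOf T a b ∧
      (fun x : τ => g₂ • x) '' sideOf T a b ⊂ sideOf T a b ∧
      Disjoint ((fun x : τ => g₁ • x) '' sideOf T a b) ((fun x : τ => g₂ • x) '' sideOf T a b) ∧
      (fun x : τ => g₃ • x) '' (sideOf T a b)ᶜ ⊂ sideOf T a b) :
    ∃ (τ' : Type) (_ : MulAction Γ τ') (f : Frame V τ' Γ), f.H = H := by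
  obtain ⟨a, -⟩ := id hbranch
  let ι := Quotient (MulAction.orbitRel Γ V)
  have hrep : ∀ v : V, ∃ g : Γ, g • (⟦v⟧ : ι).out = v := fun v => by
    obtain ⟨g, hg⟩ := MulAction.orbitRel_apply.1 (Quotient.mk_out (s := MulAction.orbitRel Γ V) v)
    simp only at hg
    exact ⟨g⁻¹, by rw [← hg, inv_smul_smul]⟩
  choose c hc using hrep
  refine exists_frame H T (fun v => c v • a) hconn hT hadj htadj horb (fun g v => ?_) (fun g v => ?_)
    hbranch
  · have e : (⟦g • v⟧ : ι) = ⟦v⟧ := Quotient.sound (MulAction.orbitRel_apply.2 ⟨g, rfl⟩)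
    have h := hc (g • v)
    rw [e] at h
    conv_rhs at h => rw [← hc v, ← mul_smul]
    have h1 : ((g * c v)⁻¹ * c (g • v)) • (⟦v⟧ : ι).out = (⟦v⟧ : ι).out := by
      rw [mul_smul, h, inv_smul_smul]
    rw [← inv_mul_eq_one.1 (hfree _ _ h1), mul_smul]
  · have one : ∀ u w : V, (MulAction.orbit (MulAction.stabilizer Γ u) w).ncard = 1 := fun u w => by
      have : MulAction.orbit (MulAction.stabilizer Γ u) w = {w} := by
        ext z
        refine ⟨fun ⟨k, hk⟩ => ?_, fun h => h ▸ MulAction.mem_orbit_self _⟩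
        have hk1 : (k : Γ) = 1 := hfree _ _ k.2
        rw [← hk]
        show (k : Γ) • w = w
        rw [hk1, one_smul]
      rw [this, Set.ncard_singleton]
    rw [one, one]

end Vale.Agent.P165.TreeAct
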