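import Mathlib
import Vale.Agent.P165.TreeAct.Sums
import Vale.Agent.P165.TreeAct.Susc

/-!
Connections by bounded walks: composing, forcing a short walk, translating, and stopping at a
half-tree.
-/

namespace Vale.Agent.P165.TreeAct

open MeasureTheory SimpleGraph
open Large (joins Meas force_le up_openOcc)
open P151 (openOcc)
open scoped ENNReal

section Events

variable {W : Type} {p : unitInterval}

/-- Connections by bounded walks grow with the graph and compose. -/
lemma openOcc_witUpTo_trans {K K₁ K₂ : SimpleGraph W} (h₁ : K₁ ≤ K) (h₂ : K₂ ≤ K) {x v : W}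
    {T : Set W} {m n : ℕ} :
    openOcc (witUpTo K₁ x {v} m) ∩ openOcc (witUpTo K₂ v T n) ⊆
      openOcc (witUpTo K x T (m + n)) := by
  classical
  rintro ω ⟨⟨E₁, ⟨_, rfl, q₁, hl₁, hq₁⟩, ho₁⟩, E₂, ⟨y, hy, q₂, hl₂, hq₂⟩, ho₂⟩
  refine ⟨((q₁.mapLe h₁).append (q₂.mapLe h₂)).edges.toFinset,
    ⟨y, hy, _, ?_, fun e => List.mem_toFinset⟩, fun e he => ?_⟩
  · rw [Walk.length_append, Walk.length_map, Walk.length_map]
    omega
  · rw [List.mem_toFinset, Walk.edges_append, List.mem_append, Walk.edges_mapLe_eq_edges,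
      Walk.edges_mapLe_eq_edges] at he
    exact he.elim (fun h => ho₁ e ((hq₁ e).2 h)) fun h => ho₂ e ((hq₂ e).2 h)

/-- Connections by bounded walks grow with the graph. -/
lemma openOcc_witUpTo_le {K K' : SimpleGraph W} (h : K ≤ K') (x : W) (T : Set W) (n : ℕ) :
    openOcc (witUpTo K x T n) ⊆ openOcc (witUpTo K' x T n) := by
  rintro ω ⟨E, ⟨y, hy, q, hl, hq⟩, ho⟩
  exact ⟨E, ⟨y, hy, q.mapLe h, by rwa [Walk.length_map],
    fun e => by rw [Walk.edges_mapLe_eq_edges]; exact hq e⟩, ho⟩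

/-- A bounded walk moves the start of connections by bounded walks at cost `p ^ M`. -/
lemma walk_witUpTo [Countable W] {K : SimpleGraph W} {a b : W} (r : K.Walk a b) {M n : ℕ}
    (hM : r.length ≤ M) (T : Set W) :
    ENNReal.ofReal ((p : ℝ) ^ M) * perc W p (openOcc (witUpTo K b T n)) ≤
      perc W p (openOcc (witUpTo K a T (M + n))) := by
  classical
  refine le_trans ?_ (le_trans (force_le (up_openOcc _) (measurableSet_witUpTo K b T n)
    r.edges.toFinset) (measure_mono fun ω hω => openOcc_witUpTo_trans le_rfl le_rfl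
      ⟨⟨r.edges.toFinset, ⟨b, rfl, r, hM, fun e => List.mem_toFinset⟩, hω.2⟩, hω.1⟩))
  refine mul_le_mul_left (ENNReal.ofReal_le_ofReal (pow_le_pow_of_le_one p.2.1 p.2.2 ?_)) _
  exact (List.toFinset_card_le _).trans (by simpa using hM)

/-- An increasing event is more likely at larger parameters. -/
lemma perc_up_mono {q q' : unitInterval} (h : (q : ℝ) ≤ q') {A : Set (Sym2 W → Bool)}
    (hU : Large.Up A) (hA : MeasurableSet A) : perc W q A ≤ perc W q' A := by
  rw [← ENNReal.ofReal_toReal (measure_ne_top (perc W q) A),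
    ← ENNReal.ofReal_toReal (measure_ne_top (perc W q') A)]
  exact ENNReal.ofReal_le_ofReal (Product.real_mono hA hU h)

/-- A weighted average of finitely many sub-probability weights of one total. -/
lemma exists_average {α κ : Type} [DecidableEq α] (I : Finset κ) (lam : κ → ℝ≥0∞)
    (h0 : ∑ k ∈ I, lam k ≠ 0) (ht : ∑ k ∈ I, lam k ≠ ⊤) (F : κ → Finset α)
    (π : κ → α → ℝ≥0∞) (h1 : ∀ k ∈ I, ∀ w ∈ F k, π k w ≤ 1) {c : ℝ≥0∞}
    (hc : ∀ k ∈ I, ∑ w ∈ F k, π k w = c) :
    ∃ π' : α → ℝ≥0∞, (∀ w, π' w ≤ 1) ∧ ∑ w ∈ I.biUnion F, π' w = c ∧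
      ∀ w, (∑ k ∈ I, lam k) * π' w = ∑ k ∈ I, lam k * (if w ∈ F k then π k w else 0) := by
  set Λ := ∑ k ∈ I, lam k
  refine ⟨fun w => Λ⁻¹ * ∑ k ∈ I, lam k * (if w ∈ F k then π k w else 0), fun w => ?_, ?_,
    fun w => by rw [← mul_assoc, ENNReal.mul_inv_cancel h0 ht, one_mul]⟩
  · refine (mul_le_mul_right (Finset.sum_le_sum fun k hk => ?_) _).trans
      (ENNReal.inv_mul_cancel h0 ht).le
    refine mul_le_of_le_one_right' ?_
    split_ifs with h
    · exact h1 k hk w h
    · exact zero_le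
  · rw [← Finset.mul_sum, Finset.sum_comm]
    have e : ∀ k ∈ I, ∑ w ∈ I.biUnion F, lam k * (if w ∈ F k then π k w else 0) = lam k * c := by
      intro k hk
      rw [← Finset.mul_sum, Finset.sum_ite_mem,
        Finset.inter_eq_right.2 (Finset.subset_biUnion_of_mem F hk), hc k hk]
    rw [Finset.sum_congr rfl e, ← Finset.sum_mul, ← mul_assoc, ENNReal.inv_mul_cancel h0 ht,
      one_mul]

end Events

/-- Depths add along a chain of half-trees. -/
lemma Half.dist_add_of_subset {τ : Type} {T : SimpleGraph τ} (hT : T.IsTree) {g k w : Half T}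
    (h1 : k.side ⊆ g.side) (h2 : w.side ⊆ k.side) :
    T.dist g.fst w.fst = T.dist g.fst k.fst + T.dist k.fst w.fst := by
  rcases (Half.subset_iff hT).1 h2 with rfl | ⟨h, -⟩
  · simp
  rcases (Half.subset_iff hT).1 h1 with rfl | ⟨a, b⟩
  · simp
  exact (Half.nested hT a b).2 _ h

variable {V τ Γ : Type} [Group Γ] [MulAction Γ V] [MulAction Γ τ] (f : Frame V τ Γ)

include f in
/-- Translated bounded connections are at least as likely. -/
lemma Frame.perc_witUpTo_smul {q : unitInterval} (γ : Γ) {K K' : SimpleGraph V}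
    (hK : ∀ a b, K.Adj a b → K'.Adj (γ • a) (γ • b)) (x : V) {T T' : Set V}
    (hT : ∀ y ∈ T, γ • y ∈ T') (n : ℕ) :
    perc V q (openOcc (witUpTo K x T n)) ≤ perc V q (openOcc (witUpTo K' (γ • x) T' n)) := by
  classical
  have := f.countable
  conv_rhs => rw [← perc_map (MulAction.toPerm (α := Γ) (β := V) γ⁻¹)]
  rw [Measure.map_apply (measurable_pi_lambda _ fun _ => measurable_pi_apply _)
    (measurableSet_witUpTo K' (γ • x) T' n)]
  refine measure_mono ?_
  rintro ω ⟨E, ⟨y, hy, p, hl, hp⟩, ho⟩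
  let φ : K →g K' := ⟨fun v => γ • v, fun {a b} h => hK a b h⟩
  refine ⟨(p.map φ).edges.toFinset, ⟨γ • y, hT y hy, p.map φ, by simpa using hl,
    fun e => List.mem_toFinset⟩, fun e he => ?_⟩
  rw [List.mem_toFinset, Walk.edges_map, List.mem_map] at he
  obtain ⟨e₀, h0, rfl⟩ := he
  simp only [Sym2.map_map]
  convert ho e₀ ((hp e₀).2 h0) using 2
  induction e₀ using Sym2.ind with
  | _ a b => simp [φ]

/-- A port of a half-tree which lies over a smaller one is a port of it. -/
lemma Frame.port_of_subset {g w : Half f.T} (hs : w.side ⊆ g.side) {z : V} (hz : z ∈ f.port g)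
    (hw : z ∈ f.Vs w) : z ∈ f.port w := by
  obtain ⟨-, u, ha, hu⟩ := hz
  exact ⟨hw, u, ha, fun h => hu (f.Vs_mono hs h)⟩

/-- A walk into `Vs w` reaches a port of `w` without an inner edge of `w`. -/
lemma Frame.cut_port (w : Half f.T) {K : SimpleGraph V} (hK : K ≤ f.H) :
    ∀ {z y : V} (q : K.Walk z y), y ∈ f.Vs w → (z ∈ f.Vs w → z ∈ f.port w) →
      ∃ y' ∈ f.port w, ∃ q' : (K ⊓ f.avoid w).Walk z y', q'.length ≤ q.length ∧
        ∀ e ∈ q'.edges, e ∈ q.edges := by
  intro z y q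
  induction q with
  | nil => exact fun hy hz => ⟨_, hz hy, .nil, le_rfl, by simp⟩
  | @cons a c b hac q ih =>
    intro hy hz
    by_cases ha : a ∈ f.Vs w
    · exact ⟨a, hz ha, .nil, Nat.zero_le _, by simp⟩
    have hA : (K ⊓ f.avoid w).Adj a c := ⟨hac, hK hac, fun h => ha h.1⟩
    obtain ⟨y', hy', q', hl, he⟩ := ih hy fun hc => ⟨hc, a, (hK hac).symm, ha⟩
    refine ⟨y', hy', .cons hA q', by simpa using hl, fun e h => ?_⟩
    rw [Walk.edges_cons, List.mem_cons] at h ⊢
    exact h.imp id (he e)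

include f in
/-- Bounded connections to the port of `w` continue a short walk, stopping at `w`. -/
lemma Frame.forced {q : unitInterval} {K K₁ : SimpleGraph V} (hK : K ≤ f.H) (hK₁ : K₁ ≤ K)
    (w : Half f.T) {z b : V} (hz : z ∈ f.Vs w → z ∈ f.port w) (r : K.Walk z b) {M n : ℕ}
    (hM : r.length ≤ M) :
    ENNReal.ofReal ((q : ℝ) ^ M) * perc V q (openOcc (witUpTo K₁ b (f.port w) n)) ≤
      perc V q (openOcc (witUpTo (K ⊓ f.avoid w) z (f.port w) (M + n))) := by
  classical
  have := f.countable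
  refine ((mul_le_mul_right (measure_mono (openOcc_witUpTo_le hK₁ b _ n)) _).trans
    (walk_witUpTo r hM _)).trans (measure_mono ?_)
  rintro ω ⟨E, ⟨y, hy, p, hl, hp⟩, ho⟩
  obtain ⟨y', hy', p', hl', he'⟩ := f.cut_port w hK p (f.port_sub hy) hz
  exact ⟨p'.edges.toFinset, ⟨y', hy', p', hl'.trans hl, fun e => List.mem_toFinset⟩,
    fun e he => ho e ((hp e).2 (he' e (List.mem_toFinset.1 he)))⟩

end Vale.Agent.P165.TreeAct
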