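import Mathlib
import Vale.Agent.P165.TreeAct.Walks

/-!
Iterating a seed from every port: many port points of a half-tree reach leaves of total weight
`|A| ^ (i + 1)`, each with a probability close to its weight.
-/

namespace Vale.Agent.P165.TreeAct

open MeasureTheory SimpleGraph
open Large (joins Meas up_openOcc)
open P151 (openOcc)
open scoped ENNReal

variable {V τ Γ : Type} [Group Γ] [MulAction Γ V] [MulAction Γ τ] {f : Frame V τ Γ}
variable {σ₁ : ℝ}

/-- Weighted leaves below each member of the code of a translated root form leaves of the root. -/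
lemma Seed.glue (S : Seed f σ₁) (γ : Γ) (d : ℕ) (c : ℝ≥0∞) (P : Half f.T → ℝ≥0∞ → Prop)
    (h : ∀ g ∈ S.A, ∃ (F : Finset (Half f.T)) (π : Half f.T → ℝ≥0∞),
      (∀ w ∈ F, w.side ⊆ (f.sm γ g).side ∧ f.T.dist (f.sm γ g).fst w.fst = d) ∧
      (∀ w ∈ F, π w ≤ 1) ∧ ∑ w ∈ F, π w = c ∧ ∀ w ∈ F, P w (π w)) :
    ∃ (F : Finset (Half f.T)) (π : Half f.T → ℝ≥0∞),
      (∀ w ∈ F, w.side ⊆ (f.sm γ S.h.op).side ∧
        f.T.dist (f.sm γ S.h.op).fst w.fst = S.n + d) ∧
      (∀ w ∈ F, π w ≤ 1) ∧ ∑ w ∈ F, π w = S.A.card * c ∧ ∀ w ∈ F, P w (π w) := by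
  classical
  choose! F π hw h1 hsum hP using h
  have hd : ∀ g ∈ S.A, ∀ g' ∈ S.A, ∀ w, w ∈ F g → w ∈ F g' → g = g' := by
    intro g hg g' hg' w hm hm'
    by_contra hne
    exact Set.disjoint_left.1 (f.sm_disjoint (S.code.1 hg hg' hne))
      ((hw g hg w hm).1 w.snd_mem) ((hw g' hg' w hm').1 w.snd_mem)
  have hpi : ∀ g ∈ S.A, ∀ w ∈ F g, (∑ g' ∈ S.A, if w ∈ F g' then π g' w else 0) = π g w := by
    intro g hg w hm
    rw [Finset.sum_eq_single g (fun g' hg' hne => if_neg fun hm' => hne (hd g' hg' g hg w hm' hm))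
      fun hh => absurd hg hh, if_pos hm]
  refine ⟨S.A.biUnion F, fun w => ∑ g' ∈ S.A, if w ∈ F g' then π g' w else 0, fun w hm => ?_,
    fun w hm => ?_, ?_, fun w hm => ?_⟩
  · obtain ⟨g, hg, hm⟩ := Finset.mem_biUnion.1 hm
    have hs : (f.sm γ g).side ⊆ (f.sm γ S.h.op).side := by
      refine f.sm_subset ?_
      rw [Half.op_side f.tree]
      exact Set.subset_compl_iff_disjoint_right.2 (S.code.2 g hg)
    refine ⟨(hw g hg w hm).1.trans hs, ?_⟩
    rw [Half.dist_add_of_subset f.tree hs (hw g hg w hm).1, (hw g hg w hm).2]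
    congr 1
    exact (f.dist_smul γ _ _).trans (S.level g hg)
  · obtain ⟨g, hg, hm⟩ := Finset.mem_biUnion.1 hm
    exact (hpi g hg w hm).trans_le (h1 g hg w hm)
  · rw [Finset.sum_biUnion fun g hg g' hg' hne => Finset.disjoint_left.2 fun w hm hm' =>
      hne (hd g hg g' hg' w hm hm'), Finset.sum_congr rfl fun g hg =>
      (Finset.sum_congr rfl (hpi g hg)).trans (hsum g hg), Finset.sum_const, nsmul_eq_mul]
  · obtain ⟨g, hg, hm⟩ := Finset.mem_biUnion.1 hm
    simp only [hpi g hg w hm]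
    exact hP g hg w hm

/-- Disjoint landings on a member of the code, one event for each landing point. -/
lemma Seed.exists_landings (S : Seed f σ₁) (γ : Γ) {g : Half f.T} (hg : g ∈ S.A) :
    ∃ D : V → Set (Sym2 V → Bool),
      (∀ v ∈ S.Land g,
        D v ⊆ openOcc (witUpTo (f.avoid (f.sm γ S.h) ⊓ f.avoid (f.sm γ g)) (γ • S.y)
          {γ • v} S.ℓ) ∧
        Meas (f.avoid (f.sm γ S.h) ⊓ f.avoid (f.sm γ g)).edgeSet (D v)) ∧
      (S.Land g : Set V).PairwiseDisjoint D ∧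
      ENNReal.ofReal S.r ≤
        ENNReal.ofReal ((S.q₀ : ℝ) ^ S.M) * ∑ v ∈ S.Land g, perc V S.q₀ (D v) := by
  classical
  have := f.countable
  set K := f.avoid (f.sm γ S.h) ⊓ f.avoid (f.sm γ g)
  obtain ⟨D, hD, hdisj, hsum⟩ := exists_disjointed (p := S.q₀) (S := K.edgeSet) (S.Land g)
    (fun v => openOcc (witUpTo K (γ • S.y) {γ • v} S.ℓ)) fun v _ => meas_witUpTo ..
  refine ⟨D, hD, hdisj, (S.prob g hg).trans (mul_le_mul_right ?_ _)⟩
  rw [← hsum]
  refine le_trans (f.perc_witUpTo_smul γ (K := f.avoid S.h ⊓ f.avoid g) (K' := K) (fun a b hab =>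
    ⟨(f.avoid_smul γ _ a b).1 hab.1, (f.avoid_smul γ _ a b).1 hab.2⟩) S.y
    (T' := (fun v : V => γ • v) '' (S.Land g : Set V)) (fun v hv => ⟨v, hv, rfl⟩) S.ℓ)
    (measure_mono ?_)
  rintro ω ⟨E, ⟨_, ⟨v, hv, rfl⟩, p, hl, hp⟩, ho⟩
  exact Set.mem_biUnion (Finset.mem_coe.1 hv) ⟨E, ⟨_, rfl, p, hl, hp⟩, ho⟩

/-- From the root of any translate the leaves after `i + 1` crossings are reached. -/
theorem Seed.iterate (S : Seed f σ₁) (i : ℕ) :
    ∀ γ : Γ, ∃ (F : Finset (Half f.T)) (π : Half f.T → ℝ≥0∞),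
      (∀ w ∈ F, w.side ⊆ (f.sm γ S.h.op).side ∧
        f.T.dist (f.sm γ S.h.op).fst w.fst = i * (S.n + S.D₀) + S.n) ∧
      (∀ w ∈ F, π w ≤ 1) ∧ ∑ w ∈ F, π w = (S.A.card : ℝ≥0∞) ^ (i + 1) ∧
      ∀ w ∈ F, ENNReal.ofReal (S.r ^ (i + 1)) * π w ≤
        perc V S.q₀ (openOcc (witUpTo (f.avoid (f.sm γ S.h) ⊓ f.avoid w) (γ • S.y) (f.port w)
          (i * (S.ℓ + S.M) + S.ℓ))) := by
  classical
  have := f.countable
  induction i with
  | zero =>
    intro γ
    obtain ⟨F, π, hw, h1, hsum, hP⟩ := S.glue γ 0 1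
      (fun w x => ENNReal.ofReal (S.r ^ (0 + 1)) * x ≤
        perc V S.q₀ (openOcc (witUpTo (f.avoid (f.sm γ S.h) ⊓ f.avoid w) (γ • S.y) (f.port w)
          (0 * (S.ℓ + S.M) + S.ℓ)))) fun g hg => by
      refine ⟨{f.sm γ g}, fun _ => 1, fun w hw => ?_, fun _ _ => le_rfl, by simp, fun w hw => ?_⟩
      · rw [Finset.mem_singleton.1 hw]
        exact ⟨subset_rfl, SimpleGraph.dist_self⟩
      · rw [Finset.mem_singleton.1 hw, pow_one, mul_one, Nat.zero_mul, Nat.zero_add]
        refine (S.prob g hg).trans ((mul_le_of_le_one_left' ?_).trans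
          (f.perc_witUpTo_smul γ (K := f.avoid S.h ⊓ f.avoid g) (K' := f.avoid (f.sm γ S.h) ⊓ f.avoid (f.sm γ g))
            (fun a b hab => ⟨(f.avoid_smul γ _ a b).1 hab.1,
            (f.avoid_smul γ _ a b).1 hab.2⟩) S.y
            (fun v hv => (f.port_smul γ g v).2 (S.land g hg v hv)) S.ℓ))
        exact ENNReal.ofReal_le_one.2 (pow_le_one₀ S.q₀.2.1 S.q₀.2.2)
    exact ⟨F, π, fun w hm => by simpa using hw w hm, h1, by simpa using hsum, hP⟩
  | succ i ih =>
    intro γ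
    obtain ⟨F, π, hw, h1, hsum, hP⟩ := S.glue γ (S.D₀ + (i * (S.n + S.D₀) + S.n))
      ((S.A.card : ℝ≥0∞) ^ (i + 1))
      (fun w x => ENNReal.ofReal (S.r ^ (i + 1 + 1)) * x ≤
        perc V S.q₀ (openOcc (witUpTo (f.avoid (f.sm γ S.h) ⊓ f.avoid w) (γ • S.y) (f.port w)
          (S.ℓ + (S.M + (i * (S.ℓ + S.M) + S.ℓ)))))) fun g hg => by
      obtain ⟨D, hD, hdisj, hΛ⟩ := S.exists_landings γ hg
      set h' := f.sm γ S.h
      set g' := f.sm γ g
      choose! δ hk1 hk2 hkd hav pw hpw using S.entry g hg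
      choose F π hw h1 hsum hP using fun v => ih (γ * δ v)
      have hQ : (0 : ℝ) < (S.q₀ : ℝ) ^ S.M := pow_pos S.q₀_pos _
      have hr0 : ENNReal.ofReal S.r ≠ 0 := by simpa using S.r_pos
      obtain ⟨π', h1', hsum', hmul⟩ := exists_average (S.Land g) (fun v => perc V S.q₀ (D v))
        (fun h0 => hr0 (nonpos_iff_eq_zero.1 (hΛ.trans_eq (by rw [h0, mul_zero]))))
        (ENNReal.sum_ne_top.2 fun v _ => measure_ne_top _ _) F π (fun v _ => h1 v)
        fun v _ => hsum v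
      have hs : ∀ v ∈ S.Land g, (f.sm (γ * δ v) S.h.op).side ⊆ g'.side := fun v hv => by
        rw [f.sm_mul]
        exact f.sm_subset (Half.nested f.tree (hk1 v hv) (hk2 v hv)).1
      refine ⟨(S.Land g).biUnion F, π', fun w hm => ?_, fun w _ => h1' w, hsum', fun w hm => ?_⟩
      · obtain ⟨v, hv, hm⟩ := Finset.mem_biUnion.1 hm
        refine ⟨(hw v w hm).1.trans (hs v hv), ?_⟩
        rw [Half.dist_add_of_subset f.tree (hs v hv) (hw v w hm).1, (hw v w hm).2, f.sm_mul]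
        congr 1
        exact (f.dist_smul γ _ _).trans (hkd v hv)
      have hsw : w.side ⊆ g'.side := by
        obtain ⟨v, hv, hm⟩ := Finset.mem_biUnion.1 hm
        exact (hw v w hm).1.trans (hs v hv)
      have hgh : Disjoint g'.side h'.side := f.sm_disjoint (S.code.2 g hg)
      have hb : ∀ v ∈ S.Land g, ENNReal.ofReal ((S.q₀ : ℝ) ^ S.M) *
          (ENNReal.ofReal (S.r ^ (i + 1)) * (if w ∈ F v then π v w else 0)) ≤
          perc V S.q₀ (openOcc (witUpTo (f.inner g' ⊓ f.avoid w) (γ • v) (f.port w)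
            (S.M + (i * (S.ℓ + S.M) + S.ℓ)))) := by
        intro v hv
        by_cases hm : w ∈ F v
        swap
        · simp [hm]
        rw [if_pos hm]
        refine le_trans (mul_le_mul_right (hP v w hm) _) ?_
        let φ : f.inner g →g f.inner g' :=
          ⟨fun u => γ • u, fun {a b} h => (f.inner_smul γ g a b).1 h⟩
        refine f.forced (f.inner_le g') (fun a b hab => ?_) w
          (f.port_of_subset hsw ((f.port_smul γ g v).2 (S.land g hg v hv)))
          (((pw v hv).map φ).copy rfl (mul_smul γ (δ v) S.y).symm) ?_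
        · have h2 := hab.1
          rw [f.sm_mul, ← smul_inv_smul γ a, ← smul_inv_smul γ b, ← f.avoid_smul γ] at h2
          have h3 := (f.inner_smul γ g _ _).1 (hav v hv h2)
          rwa [smul_inv_smul, smul_inv_smul] at h3
        · simpa using hpw v hv
      have hST : Disjoint (f.avoid h' ⊓ f.avoid g').edgeSet
          (f.inner g' ⊓ f.avoid w).edgeSet :=
        (f.disjoint_inner_avoid g').symm.mono (edgeSet_mono inf_le_right)
          (edgeSet_mono inf_le_left)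
      calc ENNReal.ofReal (S.r ^ (i + 1 + 1)) * π' w
          = ENNReal.ofReal S.r * (ENNReal.ofReal (S.r ^ (i + 1)) * π' w) := by
            rw [← mul_assoc, ← ENNReal.ofReal_mul S.r_pos.le, ← pow_succ']
        _ ≤ ENNReal.ofReal ((S.q₀ : ℝ) ^ S.M) * (∑ v ∈ S.Land g, perc V S.q₀ (D v)) *
            (ENNReal.ofReal (S.r ^ (i + 1)) * π' w) := mul_le_mul_left hΛ _
        _ = ∑ v ∈ S.Land g, perc V S.q₀ (D v) * (ENNReal.ofReal ((S.q₀ : ℝ) ^ S.M) *
            (ENNReal.ofReal (S.r ^ (i + 1)) * (if w ∈ F v then π v w else 0))) := by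
            rw [show ∀ a b c d : ℝ≥0∞, a * b * (c * d) = a * c * (b * d) from
              fun a b c d => by ring, hmul w, Finset.mul_sum]
            exact Finset.sum_congr rfl fun v _ => by ring
        _ ≤ perc V S.q₀ (⋃ v ∈ S.Land g, D v ∩ openOcc (witUpTo (f.inner g' ⊓ f.avoid w)
            (γ • v) (f.port w) (S.M + (i * (S.ℓ + S.M) + S.ℓ)))) :=
            indep_sum hST _ (fun v hv => (hD v hv).2) (fun v _ => meas_witUpTo ..) hdisj hb
        _ ≤ _ := measure_mono (Set.iUnion₂_subset fun v hv ω hω =>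
            openOcc_witUpTo_trans (inf_le_inf le_rfl (f.avoid_anti hsw))
              (inf_le_inf (f.inner_le_avoid hgh) le_rfl) ⟨(hD v hv).1 hω.1, hω.2⟩)
    refine ⟨F, π, fun w hm => ⟨(hw w hm).1, ?_⟩, h1, ?_, fun w hm => ?_⟩
    · rw [(hw w hm).2]; ring
    · rw [hsum, ← pow_succ']
    · rw [show (i + 1) * (S.ℓ + S.M) + S.ℓ = S.ℓ + (S.M + (i * (S.ℓ + S.M) + S.ℓ)) by ring]
      exact hP w hm

/-- The amplified bound, solved for the probability of the union. -/
lemma ratio_le {T a mI U S Y π : ℝ} (ha : 0 < a) (hm : 0 < mI) (hT : 0 ≤ T) (hπ1 : π ≤ 1)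
    (hU0 : 0 ≤ U) (hU1 : U ≤ 1) (hS : a * T * π ≤ S) (hY : Y ≤ a * mI)
    (h : S ≤ U * (S + Y)) : T / (T + mI) * π ≤ U := by
  rw [div_mul_eq_mul_div, div_le_iff₀ (by linarith)]
  have h1 : a * T * π * (1 - U) ≤ U * (a * mI) := by
    have h2 := mul_le_mul_of_nonneg_right hS (sub_nonneg.2 hU1)
    have h3 := mul_le_mul_of_nonneg_left hY hU0
    linarith
  have h4 : T * π * (1 - U) ≤ U * mI := le_of_mul_le_mul_left (by linarith) ha
  have h5 : U * (T * π) ≤ U * T := mul_le_mul_of_nonneg_left (mul_le_of_le_one_right hT hπ1) hU0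
  linarith

/-- A seed spreads many port points to its leaves above its parameter. -/
theorem Seed.spreads (S : Seed f σ₁) : ∃ (R : ℕ) (m : ℝ), 0 < m ∧ ∀ q : unitInterval,
    (S.q₀ : ℝ) ≤ q → f.Spreads q S.r S.A.card R m := by
  classical
  have := f.countable
  obtain ⟨R₀, M₀, hr⟩ := f.exists_reroot 0
  obtain ⟨X₀, hX₀⟩ := susc_finite_of_cofinite f.H f.connected
    ⟨f.O, fun v => by
      obtain ⟨o, ho, γ, rfl⟩ := f.hO v
      exact ⟨f.hIso γ⁻¹, by simpa [Frame.hIso] using ho⟩⟩ S.q₀_lt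
  set X := max X₀ 1 with hXdef
  have hX1 : 1 ≤ X := le_max_right _ _
  set a : ℝ := (S.q₀ : ℝ) ^ M₀ / (R₀ + 1) with hadef
  have hQ : (0 : ℝ) < (S.q₀ : ℝ) ^ M₀ := pow_pos S.q₀_pos _
  have ha : 0 < a := div_pos hQ (by positivity)
  set c : ℝ := (M₀ + S.ℓ + S.M + 1) * X with hcdef
  have hc : 0 < c := mul_pos (by positivity) (by linarith)
  refine ⟨R₀ + f.L * (M₀ + 1), c / a, div_pos hc ha,
    fun q hq i => ⟨i * (S.n + S.D₀) + S.n, fun g u J hJ hne => ?_⟩⟩
  choose! δ hk1 hk2 _hk0 hkR hku hav pw hpw using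
    fun z hz => hr g z (hJ z hz) S.h S.y S.hy u
  obtain ⟨d, hd, hmax⟩ := (Finset.range (R₀ + 1)).exists_max_image
    (fun d => (J.filter fun z => f.T.dist g.fst (f.sm (δ z) S.h.op).fst = d).card) ⟨0, by simp⟩
  set J' := J.filter fun z => f.T.dist g.fst (f.sm (δ z) S.h.op).fst = d
  have hcard : (J.card : ℝ) ≤ J'.card * (R₀ + 1) := by
    have h1 := Finset.card_le_mul_card_image_of_maps_to (s := J)
      (f := fun z => f.T.dist g.fst (f.sm (δ z) S.h.op).fst) (t := Finset.range (R₀ + 1))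
      (fun z hz => Finset.mem_range.2 (Nat.lt_succ_of_le (hkR z hz))) _ hmax
    rw [Finset.card_range] at h1
    exact_mod_cast h1
  have hJ' : (0 : ℝ) < J'.card := by
    have h1 : (0 : ℝ) < J.card := by exact_mod_cast hne.card_pos
    nlinarith
  choose F π hw h1 hsum hP using fun z => S.iterate i (δ z)
  obtain ⟨π', h1', hsum', hmul⟩ := exists_average J' (fun _ => (1 : ℝ≥0∞))
    (by simpa using (Nat.cast_pos.1 hJ').ne') (by simp) F π (fun z _ => h1 z) fun z _ => hsum z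
  have hgeo : ∀ z ∈ J', z ∈ J ∧ (f.sm (δ z) S.h.op).side ⊆ g.side ∧
      f.T.dist g.fst (f.sm (δ z) S.h.op).fst = d := fun z hz => by
    obtain ⟨hz, he⟩ := Finset.mem_filter.1 hz
    exact ⟨hz, (Half.nested f.tree (hk1 z hz) (hk2 z hz)).1, he⟩
  have hlev : ∀ w ∈ J'.biUnion F, w.side ⊆ g.side ∧
      f.T.dist g.fst w.fst = d + (i * (S.n + S.D₀) + S.n) := fun w hm => by
    obtain ⟨z, hz, hm⟩ := Finset.mem_biUnion.1 hm
    obtain ⟨-, hs, he⟩ := hgeo z hz
    refine ⟨(hw z w hm).1.trans hs, ?_⟩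
    rw [Half.dist_add_of_subset f.tree hs (hw z w hm).1, (hw z w hm).2, he]
  have hout : ∀ p : Half f.T, Rel (R₀ + f.L * (M₀ + 1)) u g p → ∀ z (hz : z ∈ J),
      p.side ⊆ (f.sm (δ z) S.h).side ∧
        ∀ v ∈ (pw z hz).support, ∀ v' ∈ (pw z hz).support, (f.inner g).Adj v v' →
          (f.avoid p).Adj v v' := by
    intro p hp z hz
    have hks := (Half.nested f.tree (hk1 z hz) (hk2 z hz)).1
    rw [← compl_compl (f.sm (δ z) S.h).side, ← Half.op_side f.tree, ← f.sm_op,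
      Set.subset_compl_iff_disjoint_left]
    rcases hp with hd' | ⟨hs, hu, hR⟩
    · exact ⟨hd'.mono_left hks, fun v _ v' _ h => f.inner_le_avoid hd' h⟩
    refine ⟨Set.disjoint_left.2 fun x hx hx' => ?_, fun v hv v' _ h => ?_⟩
    · have hg : g.fst ∉ p.side := fun h => g.fst_notMem (hs h)
      rcases Half.subset_or_subset f.tree hx hx' (hk2 z hz) hg with h | h
      · exact hku z hz (h hu)
      · have h2 := Half.dist_add_of_subset f.tree hs h
        have := hkR z hz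
        omega
    · refine ⟨h.1, fun hV => ?_⟩
      have h2 : f.T.dist g.fst p.fst < f.T.dist g.fst (f.pr v) :=
        Half.dist_fst_lt f.tree hV.1.1 fun h => g.fst_notMem (hs h)
      have h3 := f.port_dist (hJ z hz)
      have h4 := f.dist_support ((pw z hz).mapLe (f.inner_le g)) (w := v)
        (by rwa [Walk.support_mapLe_eq_support])
      have h5 := f.tree.connected.dist_triangle (u := g.fst) (v := f.pr z) (w := f.pr v)
      have h6 : f.L * ((pw z hz).mapLe (f.inner_le g)).length ≤ f.L * M₀ :=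
        Nat.mul_le_mul_left _ (by rw [Walk.length_map]; exact hpw z hz)
      rw [Nat.mul_succ] at hR
      omega
  refine ⟨J'.biUnion F, π', fun w hm => ?_, fun w hm => ⟨(hlev w hm).1, fun p hp => ?_⟩, ?_,
    fun w _ => h1' w, hsum', fun w hm p hp => ?_⟩
  · have := Finset.mem_range.1 hd
    rw [(hlev w hm).2]
    omega
  · obtain ⟨z, hz, hm⟩ := Finset.mem_biUnion.1 hm
    have h2 := (hw z w hm).1
    rw [f.sm_op, Half.op_side f.tree] at h2
    exact (disjoint_compl_left.mono_left h2).mono_right (hout p hp z (hgeo z hz).1).1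
  · intro w hm w' hm' hne
    refine Set.disjoint_left.2 fun x hx hx' => hne ?_
    exact Half.eq_of_dist_eq f.tree hx hx' (fun h => g.fst_notMem ((hlev w hm).1 h))
      (fun h => g.fst_notMem ((hlev w' hm').1 h)) ((hlev w hm).2.trans (hlev w' hm').2.symm)
  set K := f.inner g ⊓ f.avoid w ⊓ f.avoid p with hKdef
  set ℓ' := M₀ + (i * (S.ℓ + S.M) + S.ℓ) with hℓ'
  set A : V → Set (Sym2 V → Bool) := fun z => openOcc (witUpTo K z (f.port w) ℓ')
  have hA : ∀ z ∈ J', ENNReal.ofReal ((S.q₀ : ℝ) ^ M₀) *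
      (ENNReal.ofReal (S.r ^ (i + 1)) * (1 * if w ∈ F z then π z w else 0)) ≤
      perc V S.q₀ (A z) := by
    intro z hz
    by_cases hm' : w ∈ F z
    swap
    · simp [hm']
    obtain ⟨hzJ, -, -⟩ := hgeo z hz
    rw [if_pos hm', one_mul]
    refine le_trans (mul_le_mul_right (hP z w hm') _) ?_
    obtain ⟨hps, hav'⟩ := hout p hp z hzJ
    refine le_trans (f.forced (K := f.inner g ⊓ f.avoid p) (inf_le_left.trans (f.inner_le g))
      (le_inf (inf_le_left.trans (hav z hzJ)) (inf_le_left.trans (f.avoid_anti hps))) w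
      (f.port_of_subset (hlev w hm).1 (hJ z hzJ)) ((pw z hzJ).transfer _ fun e he => ?_)
      (M := M₀) (by simpa using hpw z hzJ))
      (measure_mono (openOcc_witUpTo_le (le_of_eq ?_) _ _ _))
    · induction e using Sym2.ind with
      | _ v v' => exact ⟨(pw z hzJ).adj_of_mem_edges he, hav' v ((pw z hzJ).fst_mem_support_of_mem_edges he)
          v' ((pw z hzJ).snd_mem_support_of_mem_edges he) ((pw z hzJ).adj_of_mem_edges he)⟩
    · rw [hKdef, inf_right_comm]
  have hX : ∀ v, ∑ z ∈ J', perc V S.q₀ (conn f.H v z) ≤ ENNReal.ofReal X := fun v =>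
    (ENNReal.sum_le_tsum _).trans (tsum_conn_le fun U => (hX₀ v U).trans (le_max_left _ _))
  have hamp : ∑ z ∈ J', perc V S.q₀ (A z) ≤ perc V S.q₀ (⋃ z ∈ J', A z) *
      (∑ z ∈ J', perc V S.q₀ (A z) + (ℓ' + 1) * ENNReal.ofReal X) :=
    amplify (inf_le_left.trans (inf_le_left.trans (f.inner_le g))) S.q₀ J' (f.port w) ℓ' hX
  have hlow : ENNReal.ofReal ((S.q₀ : ℝ) ^ M₀) * (ENNReal.ofReal (S.r ^ (i + 1)) *
      ((J'.card : ℝ≥0∞) * π' w)) ≤ ∑ z ∈ J', perc V S.q₀ (A z) := by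
    refine le_trans (le_of_eq ?_) (Finset.sum_le_sum hA)
    rw [← Finset.mul_sum, ← Finset.mul_sum, ← hmul w]
    simp
  have hπt : π' w ≠ ⊤ := ne_top_of_le_ne_top ENNReal.one_ne_top (h1' w)
  have hSt : ∑ z ∈ J', perc V S.q₀ (A z) ≠ ⊤ := ENNReal.sum_ne_top.2 fun z _ => measure_ne_top _ _
  have hYt : ((ℓ' : ℝ≥0∞) + 1) * ENNReal.ofReal X ≠ ⊤ :=
    ENNReal.mul_ne_top (by simp) ENNReal.ofReal_ne_top
  have h2 := ENNReal.toReal_mono
    (ENNReal.mul_ne_top (measure_ne_top _ _) (ENNReal.add_ne_top.2 ⟨hSt, hYt⟩)) hamp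
  rw [ENNReal.toReal_mul, ENNReal.toReal_add hSt hYt] at h2
  have h3 := ENNReal.toReal_mono hSt hlow
  simp only [ENNReal.toReal_mul, ENNReal.toReal_ofReal hQ.le,
    ENNReal.toReal_ofReal (pow_nonneg S.r_pos.le _), ENNReal.toReal_natCast] at h3
  have key := ratio_le (T := J.card * S.r ^ (i + 1)) (a := a) (mI := c / a * (i + 1))
    (π := (π' w).toReal) ha (by positivity) (mul_nonneg (Nat.cast_nonneg _) (pow_nonneg S.r_pos.le _))
    (ENNReal.toReal_le_of_le_ofReal zero_le_one (by simpa using h1' w)) ENNReal.toReal_nonneg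
    (ENNReal.toReal_le_of_le_ofReal zero_le_one (by simpa using prob_le_one)) (le_trans ?_ h3)
    (Y := ((((ℓ' : ℝ≥0∞) + 1) * ENNReal.ofReal X)).toReal) ?_ h2
  · have hfin : ENNReal.ofReal (J.card * S.r ^ (i + 1) /
        (J.card * S.r ^ (i + 1) + c / a * (i + 1))) * π' w ≤
        perc V S.q₀ (⋃ z ∈ J', A z) := by
      rw [← ENNReal.ofReal_toReal hπt, ← ENNReal.ofReal_mul (div_nonneg
        (mul_nonneg (Nat.cast_nonneg _) (pow_nonneg S.r_pos.le _))
        (add_nonneg (mul_nonneg (Nat.cast_nonneg _) (pow_nonneg S.r_pos.le _)) (by positivity))),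
        ← ENNReal.ofReal_toReal (measure_ne_top (perc V S.q₀) (⋃ z ∈ J', A z))]
      exact ENNReal.ofReal_le_ofReal key
    refine hfin.trans ((perc_up_mono hq ?_ ?_).trans (measure_mono ?_))
    · intro ω η hle hω
      simp only [Set.mem_iUnion] at hω ⊢
      obtain ⟨z, hz, hω⟩ := hω
      exact ⟨z, hz, up_openOcc _ ω η hle hω⟩
    · exact J'.measurableSet_biUnion fun z _ => measurableSet_witUpTo ..
    · exact Set.iUnion₂_subset fun z hz => (openOcc_witUpTo_subset K z _ _).trans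
        (Set.subset_biUnion_of_mem (u := fun z => joins K z (f.port w)) (hgeo z hz).1)
  · rw [hadef]
    have h4 : (0 : ℝ) ≤ S.r ^ (i + 1) * (π' w).toReal := by
      have := S.r_pos
      positivity
    have h5 := mul_le_mul_of_nonneg_left hcard h4
    field_simp
    linarith
  · rw [ENNReal.toReal_mul, ENNReal.toReal_add (by simp) (by simp), ENNReal.toReal_natCast,
      ENNReal.toReal_one, ENNReal.toReal_ofReal (by linarith), ← mul_assoc,
      mul_div_cancel₀ _ ha.ne', hcdef, hℓ']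
    push_cast
    have h6 : (0 : ℝ) ≤ M₀ * i + i + 0 := by positivity
    nlinarith

end Vale.Agent.P165.TreeAct
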