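import Mathlib
import Vale.Agent.P165.TreeAct.Sums
import Vale.Agent.P165.TreeAct.Pairs
import Vale.Agent.P165.TreeAct.Susc

/-!
Root sums: a cluster holding many port points of the members of a separated family spreads to one
code of leaves at a root, so the expected port counts are a small power of the susceptibility.
-/

namespace Vale.Agent.P165.TreeAct

open MeasureTheory SimpleGraph
open Large (joins mem_joins meas_conn meas_joins joins_mono walk_joins Meas)
open scoped ENNReal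

variable {V τ Γ : Type} [Group Γ] [MulAction Γ V] [MulAction Γ τ] (f : Frame V τ Γ)

/-- The cluster of `x` away from `h` and `g` holds at least `n` port vertices of `g`. -/
def Frame.many (h g : Half f.T) (x : V) (n : ℕ) : Set (Sym2 V → Bool) :=
  ⋃ J : {J : Finset V // (∀ z ∈ J, z ∈ f.port g) ∧ n ≤ J.card},
    ⋂ z ∈ J.1, conn (f.avoid h ⊓ f.avoid g) x z

/-- The probability that many starts at level `i` reach a leaf, relative to its weight. -/
noncomputable def share (r m : ℝ) (i n : ℕ) : ℝ≥0∞ :=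
  ENNReal.ofReal (n * r ^ (i + 1) / (n * r ^ (i + 1) + m * (i + 1)))

lemma share_mono {r m : ℝ} (hr : 0 < r) (hm : 0 < m) (i : ℕ) {n n' : ℕ} (h : n ≤ n') :
    share r m i n ≤ share r m i n' := by
  have h' : (n : ℝ) ≤ n' := Nat.cast_le.2 h
  have hk : 0 < m * (i + 1) := by positivity
  refine ENNReal.ofReal_le_ofReal ?_
  rw [div_le_div_iff₀ (by positivity) (by positivity)]
  nlinarith [mul_nonneg (mul_nonneg (sub_nonneg.2 h') (pow_pos hr (i + 1)).le) hk.le]

lemma share_le_one {r m : ℝ} (hr : 0 < r) (hm : 0 < m) (i n : ℕ) : share r m i n ≤ 1 := by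
  refine ENNReal.ofReal_le_one.2 (div_le_one_of_le₀ ?_ (by positivity))
  exact le_add_of_nonneg_right (by positivity)

/-- Weights below a common bound keep their mass under a concave power. -/
lemma mass_le_sum_rpow {α : Type} (s : Finset α) (S : α → ℝ≥0∞) {D B : ℝ≥0∞} {σ : ℝ}
    (hσ : 0 < σ) (hσ1 : σ ≤ 1) (hS : ∀ l ∈ s, S l ≤ D) (hsum : ∑ l ∈ s, S l = D * B)
    (hD : D ≠ ⊤) : D ^ σ * B ≤ ∑ l ∈ s, S l ^ σ := by
  rcases eq_or_ne D 0 with h0 | h0
  · simp [h0, ENNReal.zero_rpow_of_pos hσ]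
  refine (ENNReal.mul_le_mul_iff_right (a := D ^ (1 - σ))
    (ENNReal.rpow_pos (pos_iff_ne_zero.2 h0) hD).ne'
    (ENNReal.rpow_ne_top_of_nonneg (by linarith) hD)).1 ?_
  rw [← mul_assoc, ← ENNReal.rpow_add _ _ h0 hD, sub_add_cancel, ENNReal.rpow_one, ← hsum,
    Finset.mul_sum]
  refine Finset.sum_le_sum fun l hl => ?_
  calc S l = S l ^ (1 - σ) * S l ^ σ := by
        rw [← ENNReal.rpow_add_of_nonneg _ _ (by linarith) hσ.le, sub_add_cancel, ENNReal.rpow_one]
    _ ≤ _ := mul_le_mul_left (ENNReal.rpow_le_rpow (hS l hl) (by linarith)) _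

/-- A cluster holding many port points of `g` spreads to leaves at nearly one distance inside it. -/
lemma Frame.many_spread {q : unitInterval} {σ r m : ℝ} (hσ : 0 < σ) (hσ1 : σ ≤ 1) (hr : 0 < r)
    (hm : 0 < m) {b R i N : ℕ}
    (hN : ∀ (g : Half f.T) (u : τ) (J : Finset V), (∀ z ∈ J, z ∈ f.port g) → J.Nonempty →
      ∃ (F : Finset (Half f.T)) (π : Half f.T → ℝ≥0∞),
        (∀ w ∈ F, N ≤ f.T.dist g.fst w.fst ∧ f.T.dist g.fst w.fst ≤ N + R) ∧
        (∀ w ∈ F, w.side ⊆ g.side ∧ ∀ p : Half f.T, Rel R u g p → Disjoint w.side p.side) ∧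
        (F : Set (Half f.T)).PairwiseDisjoint Half.side ∧ (∀ w ∈ F, π w ≤ 1) ∧
        ∑ w ∈ F, π w = (b : ℝ≥0∞) ^ (i + 1) ∧
        ∀ w ∈ F, ∀ p : Half f.T, Rel R u g p → share r m i J.card * π w ≤
          perc V q (⋃ z ∈ J, joins (f.inner g ⊓ f.avoid w ⊓ f.avoid p) z (f.port w)))
    {h g : Half f.T} {x : V} {u : τ} (hrel : Rel R u g h) {n : ℕ} (hn : 1 ≤ n) :
    ∃ L : Finset (Half f.T),
      (∀ w ∈ L, w.side ⊆ g.side ∧ (∀ p : Half f.T, Rel R u g p → Disjoint w.side p.side) ∧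
        N ≤ f.T.dist g.fst w.fst ∧ f.T.dist g.fst w.fst ≤ N + R) ∧
      share r m i n ^ σ * (b : ℝ≥0∞) ^ (i + 1) * (perc V q (f.many h g x n) / 2) ^ σ ≤
        ∑ w ∈ L, perc V q (joins (f.avoid h ⊓ f.avoid w) x (f.port w)) ^ σ := by
  classical
  have := f.countable
  obtain ⟨I, D, hD, hdisj, hsum⟩ := exists_landing (p := q)
    (fun J : {J : Finset V // (∀ z ∈ J, z ∈ f.port g) ∧ n ≤ J.card} =>
      ⋂ z ∈ J.1, conn (f.avoid h ⊓ f.avoid g) x z)
    (S := (f.avoid h ⊓ f.avoid g).edgeSet)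
    fun J => Finset.measurableSet_biInter _ fun z _ => meas_conn _ _ _
  choose F π hdist hsub hFd hπ hπsum hπle using
    fun J : {J : Finset V // (∀ z ∈ J, z ∈ f.port g) ∧ n ≤ J.card} =>
      hN g u J.1 J.2.1 (Finset.card_pos.1 (hn.trans J.2.2))
  set Dm := ∑ J ∈ I, perc V q (D J) with hDm
  let S : Half f.T → ℝ≥0∞ := fun l => ∑ J ∈ I.filter (fun J => l ∈ F J), perc V q (D J) * π J l
  refine ⟨I.biUnion F, fun l hl => ?_, ?_⟩
  · obtain ⟨J, -, hl⟩ := Finset.mem_biUnion.1 hl
    exact ⟨(hsub J l hl).1, (hsub J l hl).2, hdist J l hl⟩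
  have hS : ∀ l ∈ I.biUnion F, S l ≤ Dm := fun l _ =>
    (Finset.sum_le_sum fun J hJ =>
      mul_le_of_le_one_right' (hπ J l (Finset.mem_filter.1 hJ).2)).trans
      (Finset.sum_le_sum_of_subset (Finset.filter_subset _ _))
  have hSsum : ∑ l ∈ I.biUnion F, S l = Dm * (b : ℝ≥0∞) ^ (i + 1) := by
    rw [Finset.sum_comm' (s' := F) (t' := I) fun l J => by
      simp only [Finset.mem_biUnion, Finset.mem_filter]; tauto, hDm, Finset.sum_mul]
    exact Finset.sum_congr rfl fun J _ => by rw [← Finset.mul_sum, hπsum]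
  have hreach : ∀ l ∈ I.biUnion F,
      share r m i n * S l ≤ perc V q (joins (f.avoid h ⊓ f.avoid l) x (f.port l)) := by
    intro l hl
    have hlg : l.side ⊆ g.side := by
      obtain ⟨J, -, hl⟩ := Finset.mem_biUnion.1 hl
      exact (hsub J l hl).1
    refine le_trans (le_of_eq ?_) ((indep_sum (p := q)
      (S := (f.avoid h ⊓ f.avoid g).edgeSet) (T := (f.inner g ⊓ f.avoid l ⊓ f.avoid h).edgeSet)
      (b := fun J => share r m i n * π J l)
      ((f.disjoint_inner_avoid g).symm.mono (edgeSet_mono inf_le_right)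
        (edgeSet_mono (inf_le_left.trans inf_le_left)))
      (I.filter fun J => l ∈ F J) (A := D)
      (B := fun J => ⋃ z ∈ J.1, joins (f.inner g ⊓ f.avoid l ⊓ f.avoid h) z (f.port l))
      (fun J hJ => (hD J (Finset.mem_filter.1 hJ).1).2)
      (fun J _ => Finset.measurableSet_biUnion _ fun z _ => meas_joins _ _ _)
      (hdisj.subset (Finset.coe_subset.2 (Finset.filter_subset _ _)))
      fun J hJ => le_trans (mul_le_mul_left (share_mono hr hm i J.2.2) _)
        (hπle J l (Finset.mem_filter.1 hJ).2 h hrel)).trans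
      (measure_mono (Set.iUnion₂_subset fun J hJ ω hω => ?_)))
    · simp only [S]
      rw [Finset.mul_sum]
      exact Finset.sum_congr rfl fun J _ => mul_left_comm _ _ _
    · obtain ⟨z, hz, hj⟩ := Set.mem_iUnion₂.1 hω.2
      obtain ⟨v, hv, hc⟩ := mem_joins.1 hj
      have hc₁ := Set.mem_iInter₂.1 ((hD J (Finset.mem_filter.1 hJ).1).1 hω.1) z hz
      have mono : ∀ {K K' : SimpleGraph V}, K ≤ K' → openGraph K ω ≤ openGraph K' ω :=
        fun h' _ _ ha => ⟨h' ha.1, ha.2⟩
      exact mem_joins.2 ⟨v, hv, Reachable.trans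
        (Reachable.mono (mono (inf_le_inf le_rfl (f.avoid_anti hlg))) hc₁)
        (Reachable.mono (mono (le_inf inf_le_right (inf_le_left.trans inf_le_right))) hc)⟩
  refine le_trans ?_ (Finset.sum_le_sum fun l hl => ENNReal.rpow_le_rpow (hreach l hl) hσ.le)
  simp only [ENNReal.mul_rpow_of_nonneg _ _ hσ.le]
  rw [← Finset.mul_sum, mul_assoc, mul_comm _ ((_ / 2) ^ σ)]
  refine mul_le_mul_right (le_trans (mul_le_mul_left (ENNReal.rpow_le_rpow ?_ hσ.le) _)
    (mass_le_sum_rpow _ S hσ hσ1 hS hSsum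
      (ENNReal.sum_ne_top.2 fun J _ => measure_ne_top _ _))) _
  exact ENNReal.div_le_of_le_mul' hsum

/-- Leaves of one distance class over a separated family form a code at the root, up to the few
which meet a short walk to it. -/
lemma Frame.class_le {q : unitInterval} {σ a : ℝ} (hσ : 0 < σ) (hσ1 : σ ≤ 1) (ha : 0 < a)
    (hq : a ≤ q) {R M N : ℕ} {K : ℝ≥0∞} (hgrow : f.growth q σ ≤ K) {h : Half f.T} {x y : V}
    (hy : y ∈ f.port h) (ρ : (f.avoid h).Walk x y) (hρ : ρ.length ≤ M) (A : Finset (Half f.T))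
    (w : Half f.T → τ) (hsep : Sep R A w) (hrel : ∀ g ∈ A, Rel R (w g) g h)
    (L : Half f.T → Finset (Half f.T))
    (hL : ∀ g ∈ A, ∀ l ∈ L g, l.side ⊆ g.side ∧
      (∀ p : Half f.T, Rel R (w g) g p → Disjoint l.side p.side) ∧
      N ≤ f.T.dist g.fst l.fst ∧ f.T.dist g.fst l.fst ≤ N + R) (d : ℕ) :
    ∑ g ∈ A, ∑ l ∈ (L g).filter (fun l => f.T.dist g.fst l.fst - N = d),
      perc V q (joins (f.avoid h ⊓ f.avoid l) x (f.port l)) ^ σ ≤
        ((ENNReal.ofReal (a ^ M))⁻¹ + 1) * K + (M + 1 : ℕ) := by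
  classical
  have := f.countable
  have hapart : ∀ g ∈ A, ∀ g' ∈ A, g ≠ g' → ∀ l ∈ L g, ∀ l' ∈ L g',
      Disjoint l.side l'.side := fun g hg g' hg' hne l hl l' hl' => by
    rcases hsep g hg g' hg' hne with h1 | h1
    · exact ((hL g hg l hl).2.1 g' h1).mono_right (hL g' hg' l' hl').1
    · exact ((hL g' hg' l' hl').2.1 g h1).symm.mono_left (hL g hg l hl).1
  set P : Half f.T → Finset (Half f.T) :=
    fun g => (L g).filter fun l => f.T.dist g.fst l.fst - N = d
  have hcode : ((A.biUnion P : Finset (Half f.T)) : Set (Half f.T)).PairwiseDisjoint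
      Half.side := by
    intro l hl l' hl' hne
    obtain ⟨g, hg, hl⟩ := Finset.mem_biUnion.1 (Finset.mem_coe.1 hl)
    obtain ⟨g', hg', hl'⟩ := Finset.mem_biUnion.1 (Finset.mem_coe.1 hl')
    obtain ⟨hl, hd⟩ := Finset.mem_filter.1 hl
    obtain ⟨hl', hd'⟩ := Finset.mem_filter.1 hl'
    rcases eq_or_ne g g' with rfl | hgg
    · obtain ⟨h1, -, h2, -⟩ := hL g hg l hl
      obtain ⟨h1', -, h2', -⟩ := hL g hg l' hl'
      exact Set.disjoint_left.2 fun z hz hz' => hne (Half.eq_of_dist_eq f.tree hz hz'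
        (fun e => g.fst_notMem (h1 e)) (fun e => g.fst_notMem (h1' e)) (by omega))
    · exact hapart g hg g' hg' hgg l hl l' hl'
  have hPd : (A : Set (Half f.T)).PairwiseDisjoint P := fun g hg g' hg' hne =>
    Finset.disjoint_left.2 fun l hl hl' => Set.disjoint_left.1
      (hapart g hg g' hg' hne l (Finset.mem_filter.1 hl).1 l (Finset.mem_filter.1 hl').1)
      l.snd_mem l.snd_mem
  rw [← Finset.sum_biUnion hPd, ← Finset.sum_filter_add_sum_filter_not (A.biUnion P)
    (fun l => ∀ v ∈ ρ.support, f.pr v ∉ l.side)]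
  refine add_le_add ?_ ?_
  · set G := (A.biUnion P).filter fun l => ∀ v ∈ ρ.support, f.pr v ∉ l.side
    have hG : RootCode h G := ⟨hcode.subset (Finset.coe_subset.2 (Finset.filter_subset _ _)),
      fun l hl => by
        obtain ⟨g, hg, hl'⟩ := Finset.mem_biUnion.1 (Finset.mem_filter.1 hl).1
        exact (hL g hg l (Finset.mem_filter.1 hl').1).2.1 h (hrel g hg)⟩
    refine le_trans ?_ (mul_le_mul_right ((f.le_growth q σ hy hG).trans hgrow) _)
    rw [Finset.mul_sum]
    refine Finset.sum_le_sum fun l hl => ?_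
    set J := perc V q (joins (f.avoid h ⊓ f.avoid l) x (f.port l))
    set k := ENNReal.ofReal (a ^ M) with hk
    have hedge : ∀ e ∈ ρ.reverse.edges, e ∈ (f.avoid h ⊓ f.avoid l).edgeSet := fun e he => by
      induction e using Sym2.ind with
      | _ u v =>
        exact ⟨ρ.reverse.adj_of_mem_edges he, (ρ.reverse.adj_of_mem_edges he).1, fun hh =>
          (Finset.mem_filter.1 hl).2 u (by
            simpa using ρ.reverse.fst_mem_support_of_mem_edges he) hh.1.1⟩
    have hmove : k * J ≤ f.meet q h l y :=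
      le_trans (mul_le_mul_left (ENNReal.ofReal_le_ofReal (pow_le_pow_left₀ ha.le hq M)) _)
        (walk_joins (p := q) (ρ.reverse.transfer _ hedge) (M := M) (by simpa using hρ) _)
    have hk0 : k ≠ 0 := by simp [hk, pow_pos ha M]
    have hkt : k ≠ ⊤ := ENNReal.ofReal_ne_top
    calc J ^ σ = (k⁻¹ * (k * J)) ^ σ := by
          rw [← mul_assoc, ENNReal.inv_mul_cancel hk0 hkt, one_mul]
      _ ≤ (k⁻¹ * f.meet q h l y) ^ σ := ENNReal.rpow_le_rpow (mul_le_mul_right hmove _) hσ.le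
      _ = k⁻¹ ^ σ * f.meet q h l y ^ σ := ENNReal.mul_rpow_of_nonneg _ _ hσ.le
      _ ≤ _ := by
          refine mul_le_mul_left ?_ _
          rcases _root_.le_total k⁻¹ 1 with h' | h'
          · exact (ENNReal.rpow_le_one h' hσ.le).trans le_add_self
          · exact ((ENNReal.rpow_le_rpow_of_exponent_le h' hσ1).trans
              (ENNReal.rpow_one _).le).trans le_self_add
  · refine (Finset.sum_le_card_nsmul _ _ 1 fun l _ =>
      ENNReal.rpow_le_one prob_le_one hσ.le).trans ?_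
    rw [nsmul_one, Nat.cast_le]
    refine le_trans (Finset.card_le_card fun l hl => ?_)
      ((Finset.card_biUnion_le_card_mul ρ.support.toFinset
        (fun v => (A.biUnion P).filter fun l => f.pr v ∈ l.side) 1 fun v _ =>
          Finset.card_le_one.2 fun l hl l' hl' => ?_).trans ?_)
    · obtain ⟨hl, hbad⟩ := Finset.mem_filter.1 hl
      push Not at hbad
      obtain ⟨v, hv, hs⟩ := hbad
      exact Finset.mem_biUnion.2 ⟨v, List.mem_toFinset.2 hv, Finset.mem_filter.2 ⟨hl, hs⟩⟩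
    · obtain ⟨hl, hs⟩ := Finset.mem_filter.1 hl
      obtain ⟨hl', hs'⟩ := Finset.mem_filter.1 hl'
      by_contra hne
      exact Set.disjoint_left.1 (hcode hl hl' hne) hs hs'
    · rw [mul_one]
      refine (List.toFinset_card_le _).trans ?_
      rw [Walk.length_support]
      omega

/-- A sum sorted by the place of a value in a window. -/
lemma sum_window {α : Type} (s : Finset α) (φ : α → ℕ) (F : α → ℝ≥0∞) {N R : ℕ}
    (h : ∀ a ∈ s, φ a ≤ N + R) :
    ∑ a ∈ s, F a = ∑ d ∈ Finset.range (R + 1), ∑ a ∈ s.filter (fun a => φ a - N = d), F a :=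
  (Finset.sum_fiberwise_of_maps_to
    (fun a ha => Finset.mem_range.2 (by have := h a ha; omega)) _).symm

/-- The probabilities of holding many port points, over a separated family at a root. -/
lemma Frame.tail {q : unitInterval} {σ a r m : ℝ} (hσ : 0 < σ) (hσ1 : σ ≤ 1) (ha : 0 < a)
    (hq : a ≤ q) (hr : 0 < r) (hm : 0 < m) {b R M : ℕ} (hsp : f.Spreads q r b R m)
    {K : ℝ≥0∞} (hgrow : f.growth q σ ≤ K) {h : Half f.T} {x y : V} (hy : y ∈ f.port h)
    (ρ : (f.avoid h).Walk x y) (hρ : ρ.length ≤ M) (A : Finset (Half f.T)) (w : Half f.T → τ)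
    (hsep : Sep R A w) (hrel : ∀ g ∈ A, Rel R (w g) g h) (i : ℕ) {n : ℕ} (hn : 1 ≤ n) :
    share r m i n ^ σ * (b : ℝ≥0∞) ^ (i + 1) * ∑ g ∈ A, perc V q (f.many h g x n) ^ σ ≤
      2 * ((R + 1 : ℕ) * (((ENNReal.ofReal (a ^ M))⁻¹ + 1) * K + (M + 1 : ℕ))) := by
  classical
  have := f.countable
  obtain ⟨N, hN⟩ := hsp i
  choose! L hL hLsum using fun g (hg : g ∈ A) =>
    f.many_spread hσ hσ1 hr hm hN (hrel g hg) (x := x) hn
  set c := ((ENNReal.ofReal (a ^ M))⁻¹ + 1) * K + (M + 1 : ℕ)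
  have hclass := f.class_le hσ hσ1 ha hq hgrow hy ρ hρ A w hsep hrel L hL
  calc share r m i n ^ σ * (b : ℝ≥0∞) ^ (i + 1) * ∑ g ∈ A, perc V q (f.many h g x n) ^ σ
      ≤ ∑ g ∈ A, 2 * (share r m i n ^ σ * (b : ℝ≥0∞) ^ (i + 1) *
          (perc V q (f.many h g x n) / 2) ^ σ) := by
        rw [Finset.mul_sum]
        refine Finset.sum_le_sum fun g _ => ?_
        rw [mul_left_comm]
        refine mul_le_mul_right ?_ _
        conv_lhs => rw [← ENNReal.mul_div_cancel (a := 2) (b := perc V q (f.many h g x n))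
          two_ne_zero ENNReal.ofNat_ne_top]
        rw [ENNReal.mul_rpow_of_nonneg _ _ hσ.le]
        exact mul_le_mul_left ((ENNReal.rpow_le_rpow_of_exponent_le one_le_two hσ1).trans
          (ENNReal.rpow_one _).le) _
    _ ≤ 2 * ∑ g ∈ A, ∑ l ∈ L g, perc V q (joins (f.avoid h ⊓ f.avoid l) x (f.port l)) ^ σ := by
        rw [← Finset.mul_sum]
        exact mul_le_mul_right (Finset.sum_le_sum hLsum) _
    _ = 2 * ∑ g ∈ A, ∑ d ∈ Finset.range (R + 1),
          ∑ l ∈ (L g).filter (fun l => f.T.dist g.fst l.fst - N = d),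
            perc V q (joins (f.avoid h ⊓ f.avoid l) x (f.port l)) ^ σ := by
        congr 1
        exact Finset.sum_congr rfl fun g hg => sum_window (L g)
          (fun l => f.T.dist g.fst l.fst) _ fun l hl => (hL g hg l hl).2.2.2
    _ ≤ _ := by
        rw [Finset.sum_comm]
        refine mul_le_mul_right ((Finset.sum_le_card_nsmul _ _ c fun d _ => hclass d).trans ?_) _
        rw [Finset.card_range, nsmul_eq_mul]

/-- The pointwise split of a count into levels and a square. -/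
lemma count_split (n : ℕ → ℕ) (i₀ : ℕ) {N : ℝ} (hN : 0 < N) {I : ℕ} (hI : i₀ ≤ I)
    (hNI : N ≤ n I) (k : ℕ) :
    (k : ℝ≥0∞) ≤ (n i₀ : ℝ≥0∞) * (if 1 ≤ k then 1 else 0) +
      ∑ i ∈ Finset.Ico i₀ I, (n (i + 1) : ℝ≥0∞) * (if n i ≤ k then 1 else 0) +
      (k : ℝ≥0∞) * k / ENNReal.ofReal N := by
  by_cases hk : N ≤ k
  · refine le_trans ?_ le_add_self
    rw [ENNReal.le_div_iff_mul_le (Or.inl (by simpa using hN)) (Or.inl ENNReal.ofReal_ne_top)]
    exact mul_le_mul_right ((ENNReal.ofReal_le_ofReal hk).trans (ENNReal.ofReal_natCast k).le) _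
  rcases Nat.eq_zero_or_pos k with rfl | hk0
  · simp
  refine le_trans ?_ le_self_add
  rcases lt_or_ge k (n i₀) with hlow | hlow
  · refine le_trans ?_ le_self_add
    rw [if_pos (show 1 ≤ k from hk0), mul_one]
    exact Nat.cast_le.2 hlow.le
  refine le_trans ?_ le_add_self
  have hkI : k < n I := by exact_mod_cast lt_of_lt_of_le (not_le.1 hk) hNI
  obtain ⟨i, hi, h1, h2⟩ : ∃ i ∈ Finset.Ico i₀ I, n i ≤ k ∧ k < n (i + 1) := by
    by_contra hne
    push Not at hne
    have : ∀ j, i₀ + j ≤ I → n (i₀ + j) ≤ k := by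
      intro j
      induction j with
      | zero => exact fun _ => hlow
      | succ j ih =>
        intro hj
        exact hne (i₀ + j) (Finset.mem_Ico.2 ⟨by omega, by omega⟩) (ih (by omega))
    have h3 := this (I - i₀) (by omega)
    rw [Nat.add_sub_cancel' hI] at h3
    omega
  refine le_trans ?_ (Finset.single_le_sum (fun j _ => zero_le) hi)
  rw [if_pos h1, mul_one]
  exact Nat.cast_le.2 h2.le

/-- The expected port count is at most its levels plus a second moment. -/
lemma Frame.count_le (n : ℕ → ℕ) (i₀ : ℕ) {N : ℝ} (hN : 0 < N) {I : ℕ} (hI : i₀ ≤ I)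
    (hNI : N ≤ n I) (q : unitInterval) (h g : Half f.T) (x : V) :
    ∑' z : f.port g, perc V q (conn (f.avoid h ⊓ f.avoid g) x z) ≤
      (n i₀ : ℝ≥0∞) * perc V q (f.many h g x 1) +
      ∑ i ∈ Finset.Ico i₀ I, (n (i + 1) : ℝ≥0∞) * perc V q (f.many h g x (n i)) +
      (∑' z : f.port g, ∑' z', perc V q (conn f.H x z ∩ conn f.H x z')) / ENNReal.ofReal N := by
  classical
  have := f.countable
  rw [ENNReal.tsum_eq_iSup_sum]
  refine iSup_le fun F => ?_
  let E : f.port g → Set (Sym2 V → Bool) := fun z => conn (f.avoid h ⊓ f.avoid g) x z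
  have hE : ∀ z, MeasurableSet (E z) := fun z => (meas_conn _ _ _).measurableSet
  let k : (Sym2 V → Bool) → ℕ := fun ω => (F.filter fun z => ω ∈ E z).card
  have hM : ∀ j, MeasurableSet (f.many h g x j) := fun j =>
    MeasurableSet.iUnion fun J => Finset.measurableSet_biInter _ fun z _ =>
      (meas_conn _ _ _).measurableSet
  have hk : ∀ ω, (k ω : ℝ≥0∞) = ∑ z ∈ F, (E z).indicator 1 ω := by
    intro ω
    simp only [k, Finset.card_filter, Nat.cast_sum, Set.indicator_apply, Pi.one_apply]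
    exact Finset.sum_congr rfl fun z _ => by split_ifs <;> simp
  have hkm : ∀ ω j, (if j ≤ k ω then (1 : ℝ≥0∞) else 0) ≤ (f.many h g x j).indicator 1 ω := by
    intro ω j
    by_cases hj : j ≤ k ω
    · rw [if_pos hj, Set.indicator_of_mem]
      · rfl
      · refine Set.mem_iUnion.2 ⟨⟨(F.filter fun z => ω ∈ E z).map (.subtype _), fun z hz => ?_,
          by rwa [Finset.card_map]⟩, Set.mem_iInter₂.2 fun z hz => ?_⟩
        · obtain ⟨a, -, rfl⟩ := Finset.mem_map.1 hz
          exact a.2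
        · obtain ⟨a, ha, rfl⟩ := Finset.mem_map.1 hz
          exact (Finset.mem_filter.1 ha).2
    · rw [if_neg hj]; exact zero_le
  have hint : ∑ z ∈ F, perc V q (E z) = ∫⁻ ω, (k ω : ℝ≥0∞) ∂perc V q := by
    simp only [hk]
    rw [lintegral_finsetSum _ fun z _ => measurable_one.indicator (hE z)]
    exact Finset.sum_congr rfl fun z _ => (lintegral_indicator_one (hE z)).symm
  change ∑ z ∈ F, perc V q (E z) ≤ _
  rw [hint]
  calc ∫⁻ ω, (k ω : ℝ≥0∞) ∂perc V q
      ≤ ∫⁻ ω, ((n i₀ : ℝ≥0∞) * (f.many h g x 1).indicator 1 ω +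
          ∑ i ∈ Finset.Ico i₀ I, (n (i + 1) : ℝ≥0∞) * (f.many h g x (n i)).indicator 1 ω) +
          (∑ z ∈ F, ∑ z' ∈ F, (E z ∩ E z').indicator 1 ω) / ENNReal.ofReal N ∂perc V q := by
        refine lintegral_mono fun ω => (count_split n i₀ hN hI hNI (k ω)).trans ?_
        refine add_le_add (add_le_add (mul_le_mul_right (hkm ω 1) _)
          (Finset.sum_le_sum fun i _ => mul_le_mul_right (hkm ω _) _)) (le_of_eq ?_)
        rw [hk ω, Finset.sum_mul_sum]
        congr 1
        refine Finset.sum_congr rfl fun z _ => Finset.sum_congr rfl fun z' _ => ?_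
        by_cases h1 : ω ∈ E z <;> by_cases h2 : ω ∈ E z' <;> simp [h1, h2]
    _ = ((n i₀ : ℝ≥0∞) * perc V q (f.many h g x 1) +
          ∑ i ∈ Finset.Ico i₀ I, (n (i + 1) : ℝ≥0∞) * perc V q (f.many h g x (n i))) +
          (∑ z ∈ F, ∑ z' ∈ F, perc V q (E z ∩ E z')) / ENNReal.ofReal N := by
        have hEE : ∀ z z', MeasurableSet (E z ∩ E z') := fun z z' => (hE z).inter (hE z')
        rw [lintegral_add_left, lintegral_add_left,
          lintegral_const_mul _ (measurable_one.indicator (hM 1)),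
          lintegral_finsetSum _ fun i _ => (measurable_one.indicator (hM _)).const_mul _]
        · simp only [lintegral_const_mul _ (measurable_one.indicator (hM _)),
            lintegral_indicator_one (hM _), div_eq_mul_inv]
          rw [lintegral_mul_const _ (Finset.measurable_sum _ fun z _ =>
              Finset.measurable_sum _ fun z' _ => measurable_one.indicator (hEE z z')),
            lintegral_finsetSum _ fun z _ =>
              Finset.measurable_sum _ fun z' _ => measurable_one.indicator (hEE z z')]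
          simp only [lintegral_finsetSum _ fun z' _ => measurable_one.indicator (hEE _ z'),
            lintegral_indicator_one (hEE _ _)]
        · exact (measurable_one.indicator (hM 1)).const_mul _
        · exact ((measurable_one.indicator (hM 1)).const_mul _).add
            (Finset.measurable_sum _ fun i _ => (measurable_one.indicator (hM _)).const_mul _)
    _ ≤ _ := by
        gcongr
        refine le_trans (Finset.sum_le_sum fun z _ => ?_) (ENNReal.sum_le_tsum F)
        refine le_trans ?_ (ENNReal.tsum_comp_le_tsum_of_injective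
          (Subtype.val_injective (p := fun v => v ∈ f.port g)) _)
        refine le_trans ?_ (ENNReal.sum_le_tsum F)
        refine Finset.sum_le_sum fun z' _ => measure_mono (Set.inter_subset_inter ?_ ?_) <;>
          exact fun ω hω => Reachable.mono
            (show openGraph (f.avoid h ⊓ f.avoid g) ω ≤ openGraph f.H ω from
              fun _ _ ha => ⟨ha.1.1.1, ha.2⟩) hω

include f in
/-- Over any family the second moments add up to a multiple of that of the cluster. -/
lemma Frame.exists_sum_sq : ∃ D : ℕ, ∀ (q : unitInterval) (X : ℝ≥0∞),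
    (∀ x, ∑' y, perc V q (conn f.H x y) ≤ X) → ∀ (x : V) (A : Finset (Half f.T)),
      ∑ g ∈ A, ∑' z : f.port g, ∑' z', perc V q (conn f.H x z ∩ conn f.H x z') ≤ D * X ^ 3 := by
  classical
  have := f.countable
  obtain ⟨D, hD⟩ := f.exists_mult
  refine ⟨D, fun q X hX x A => ?_⟩
  set F : V → ℝ≥0∞ := fun z => ∑' z', perc V q (conn f.H x z ∩ conn f.H x z')
  calc ∑ g ∈ A, ∑' z : f.port g, F z = ∑' z, ∑ g ∈ A, (f.port g).indicator F z := by
        rw [Summable.tsum_finsetSum fun g _ => ENNReal.summable]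
        exact Finset.sum_congr rfl fun g _ => tsum_subtype (f.port g) F
    _ ≤ ∑' z, (D : ℝ≥0∞) * F z := by
        refine ENNReal.tsum_le_tsum fun z => ?_
        simp only [Set.indicator_apply]
        rw [← Finset.sum_filter, Finset.sum_const, nsmul_eq_mul]
        exact mul_le_mul_left (Nat.cast_le.2 (hD z _ fun g hg => (Finset.mem_filter.1 hg).2)) _
    _ = (D : ℝ≥0∞) * ∑' z, F z := ENNReal.tsum_mul_left
    _ ≤ _ := mul_le_mul_right (tsum_two_le hX x) _

/-- A sum is at most the power of the sum of the concave powers. -/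
lemma sum_le_rpow {α : Type} (s : Finset α) (v : α → ℝ≥0∞) {σ : ℝ} (h0 : 0 < σ) (h1 : σ ≤ 1) :
    ∑ a ∈ s, v a ≤ (∑ a ∈ s, v a ^ σ) ^ (1 / σ) := by
  classical
  have h : (∑ a ∈ s, v a) ^ σ ≤ ∑ a ∈ s, v a ^ σ := by
    induction s using Finset.induction with
    | empty => simp [ENNReal.zero_rpow_of_pos h0]
    | @insert a s ha ih =>
      rw [Finset.sum_insert ha, Finset.sum_insert ha]
      exact (ENNReal.rpow_add_le_add_rpow _ _ h0.le h1).trans (add_le_add le_rfl ih)
  refine le_trans (le_of_eq ?_) (ENNReal.rpow_le_rpow h (by positivity))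
  rw [← ENNReal.rpow_mul, mul_one_div_cancel h0.ne', ENNReal.rpow_one]

/-- The sums of expected port counts from near a root are a small power of the susceptibility. -/
theorem Frame.rootBound {σ₁ σ e a r m : ℝ} {b R : ℕ} (hσ0 : 0 < σ) (hσ1 : σ ≤ 1) (he : 0 < e)
    (hζ : σ₁ < σ * (1 + e)) (ha : 0 < a) (hr0 : 0 < r) (hr1 : r < 1) (hm : 0 < m)
    (hcount : 1 ≤ (b : ℝ) * r ^ σ₁) {K : ℝ≥0∞} (hK : K ≠ ⊤) (M : ℕ) :
    ∃ C : ℝ≥0∞, C ≠ ⊤ ∧ ∀ q : unitInterval, a ≤ q → f.Spreads q r b R m → f.growth q σ ≤ K →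
      ∀ X : ℝ, 1 ≤ X → SuscLe f.H q X → f.RootBound q R M
        (C * ENNReal.ofReal (X ^ (3 * ((σ * (1 + e) - σ₁) / (1 + e)) / σ))) := by
  classical
  obtain ⟨D, hD⟩ := f.exists_sum_sq
  set κ : ℝ := (σ * (1 + e) - σ₁) / (1 + e) / σ with hκdef
  have hκ : 0 < κ := div_pos (div_pos (by linarith) (by linarith)) hσ0
  set B : ℝ := (1 / r) ^ (1 + e) with hB
  have hr' : 1 < 1 / r := by rw [lt_div_iff₀ hr0]; linarith
  have hB1 : 1 < B := Real.one_lt_rpow hr' (by linarith)
  have hB0 : 0 < B := by linarith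
  have hρ : B * (r ^ σ₁) ^ (1 / σ) = B ^ κ := by
    rw [hB, ← Real.rpow_mul hr0.le, ← Real.rpow_mul (by positivity),
      show r ^ (σ₁ * (1 / σ)) = (1 / r) ^ (-(σ₁ * (1 / σ))) by
        rw [one_div r, Real.inv_rpow hr0.le, Real.rpow_neg hr0.le, inv_inv],
      ← Real.rpow_add (by positivity), hκdef]
    congr 1
    field_simp
    ring
  obtain ⟨i₀, hi₀⟩ : ∃ i₀ : ℕ, ∀ i ≥ i₀, m * (i + 1) ≤ B ^ i * r ^ (i + 1) := by
    set y := ((1 / r) ^ e)⁻¹
    have hE1 : 1 < (1 / r) ^ e := Real.one_lt_rpow hr' he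
    have hy0 : 0 ≤ y := by positivity
    have hy1 : y < 1 := inv_lt_one_of_one_lt₀ hE1
    have h1 : Filter.Tendsto (fun i : ℕ => m * (i * y ^ i + y ^ i)) Filter.atTop (nhds 0) := by
      simpa using ((tendsto_self_mul_const_pow_of_lt_one hy0 hy1).add
        (tendsto_pow_atTop_nhds_zero_of_lt_one hy0 hy1)).const_mul m
    obtain ⟨i₀, h⟩ := Filter.eventually_atTop.1 (h1.eventually (eventually_le_nhds hr0))
    refine ⟨i₀, fun i hi => ?_⟩
    have h3 : y ^ i * ((1 / r) ^ e) ^ i = 1 := by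
      rw [← mul_pow, inv_mul_cancel₀ (by linarith), one_pow]
    have h4 : B ^ i * r ^ (i + 1) = r * ((1 / r) ^ e) ^ i := by
      rw [hB, Real.rpow_add (by positivity), Real.rpow_one, mul_pow, pow_succ]
      have : (1 / r) ^ i * r ^ i = 1 := by
        rw [← mul_pow, one_div_mul_cancel hr0.ne', one_pow]
      linear_combination (((1 / r) ^ e) ^ i * r) * this
    calc m * (i + 1) = m * (i * y ^ i + y ^ i) * ((1 / r) ^ e) ^ i := by
          linear_combination (-m * (i + 1)) * h3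
      _ ≤ r * ((1 / r) ^ e) ^ i := mul_le_mul_of_nonneg_right (h i hi) (by positivity)
      _ = _ := h4.symm
  let n : ℕ → ℕ := fun i => ⌈B ^ i⌉₊
  have hn : ∀ i, B ^ i ≤ n i ∧ (n i : ℝ) ≤ 2 * B ^ i := fun i => by
    have h1 : 1 ≤ B ^ i := one_le_pow₀ hB1.le
    refine ⟨Nat.le_ceil _, ?_⟩
    have := Nat.ceil_lt_add_one (show 0 ≤ B ^ i by linarith)
    linarith
  set T : ℝ≥0∞ := 2 * ((R + 1 : ℕ) * (((ENNReal.ofReal (a ^ M))⁻¹ + 1) * K + (M + 1 : ℕ))) with hT
  set C₁ : ℝ≥0∞ := (n i₀ : ℝ≥0∞) *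
    ((share r m 0 1)⁻¹ * T * ENNReal.ofReal (r ^ σ₁)) ^ (1 / σ) with hC₁
  set C₂ : ℝ≥0∞ := 2 * (2 * T) ^ (1 / σ) * ENNReal.ofReal
    ((B ^ (i₀ + 1)) ^ κ * B ^ κ / (B ^ κ - 1)) with hC₂
  refine ⟨C₁ + C₂ + D, ?_, fun q hq hsp hgrow X hX hsusc h x y hy ρ hρl A w hsep hrel => ?_⟩
  · have hTt : T ≠ ⊤ := by
      simp [hT, ENNReal.mul_eq_top, hK, pow_pos ha M]
    have hs : (share r m 0 1)⁻¹ ≠ ⊤ :=
      ENNReal.inv_ne_top.2 (ENNReal.ofReal_pos.2 (by positivity)).ne'
    have hσ' : (0 : ℝ) ≤ 1 / σ := by positivity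
    refine ENNReal.add_ne_top.2 ⟨ENNReal.add_ne_top.2 ⟨ENNReal.mul_ne_top
      (ENNReal.natCast_ne_top _) (ENNReal.rpow_ne_top_of_nonneg hσ' (ENNReal.mul_ne_top
        (ENNReal.mul_ne_top hs hTt) ENNReal.ofReal_ne_top)), ENNReal.mul_ne_top
      (ENNReal.mul_ne_top ENNReal.ofNat_ne_top (ENNReal.rpow_ne_top_of_nonneg hσ'
        (ENNReal.mul_ne_top ENNReal.ofNat_ne_top hTt))) ENNReal.ofReal_ne_top⟩,
      ENNReal.natCast_ne_top _⟩
  have htail : ∀ (i n : ℕ), 1 ≤ n → share r m i n *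
      ∑ g ∈ A, perc V q (f.many h g x n) ^ σ ≤ T * ENNReal.ofReal ((r ^ σ₁) ^ (i + 1)) := by
    intro i n hn1
    have hb : (1 : ℝ≥0∞) ≤ (b : ℝ≥0∞) ^ (i + 1) * ENNReal.ofReal ((r ^ σ₁) ^ (i + 1)) := by
      rw [← ENNReal.ofReal_natCast, ← ENNReal.ofReal_pow (Nat.cast_nonneg _),
        ← ENNReal.ofReal_mul (by positivity), ← mul_pow, ENNReal.one_le_ofReal]
      exact one_le_pow₀ hcount
    have hs : share r m i n ≤ share r m i n ^ σ := by
      conv_lhs => rw [← ENNReal.rpow_one (share r m i n)]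
      exact ENNReal.rpow_le_rpow_of_exponent_ge (share_le_one hr0 hm i n) hσ1
    refine le_trans ?_ (mul_le_mul_left (f.tail hσ0 hσ1 ha hq hr0 hm hsp hgrow hy ρ hρl A w hsep
      hrel i hn1) _)
    rw [mul_right_comm, mul_assoc _ ((b : ℝ≥0∞) ^ (i + 1))]
    refine mul_le_mul' ((le_mul_of_one_le_right zero_le hb).trans (mul_le_mul_left hs _)) le_rfl
  set N : ℝ := X ^ 3 with hN
  have hN1 : 1 ≤ N := one_le_pow₀ hX
  have hNκ : X ^ (3 * ((σ * (1 + e) - σ₁) / (1 + e)) / σ) = N ^ κ := by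
    rw [hN, hκdef, ← Real.rpow_natCast X 3, ← Real.rpow_mul (by linarith)]
    congr 1
    push_cast
    ring
  have hex : ∃ I, i₀ ≤ I ∧ N ≤ B ^ I := by
    obtain ⟨j, hj⟩ := pow_unbounded_of_one_lt N hB1
    exact ⟨max i₀ j, le_max_left _ _, hj.le.trans (pow_le_pow_right₀ hB1.le (le_max_right _ _))⟩
  obtain ⟨hI, hNI⟩ := Nat.find_spec hex
  set I := Nat.find hex
  have hIle : B ^ I ≤ B ^ (i₀ + 1) * N := by
    rcases eq_or_lt_of_le hI with h' | h'
    · rw [← h']
      exact (pow_le_pow_right₀ hB1.le i₀.le_succ).trans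
        (le_mul_of_one_le_right (by positivity) hN1)
    · have h2 := Nat.find_min hex (m := I - 1) (by omega)
      push Not at h2
      calc B ^ I = B * B ^ (I - 1) := by rw [← pow_succ']; congr 1; omega
        _ ≤ B * N := mul_le_mul_of_nonneg_left (h2 (by omega)).le hB0.le
        _ ≤ _ := mul_le_mul_of_nonneg_right (le_self_pow₀ hB1.le (Nat.succ_ne_zero _))
            (zero_le_one.trans hN1)
  set P : ℕ → ℝ≥0∞ := fun j => ∑ g ∈ A, perc V q (f.many h g x j)
  have h1 : (n i₀ : ℝ≥0∞) * P 1 ≤ C₁ := by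
    refine mul_le_mul_right ((sum_le_rpow _ _ hσ0 hσ1).trans
      (ENNReal.rpow_le_rpow ?_ (by positivity))) _
    have h' := htail 0 1 le_rfl
    rw [zero_add, pow_one] at h'
    have hs0 : share r m 0 1 ≠ 0 := (ENNReal.ofReal_pos.2 (by positivity)).ne'
    have hst : share r m 0 1 ≠ ⊤ := ENNReal.ofReal_ne_top
    rw [mul_assoc, ← ENNReal.div_eq_inv_mul, ENNReal.le_div_iff_mul_le
      (Or.inl hs0) (Or.inl hst), mul_comm]
    exact h'
  have h2 : ∀ i ∈ Finset.Ico i₀ I, (n (i + 1) : ℝ≥0∞) * P (n i) ≤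
      2 * (2 * T) ^ (1 / σ) * ENNReal.ofReal ((B ^ κ) ^ (i + 1)) := by
    intro i hi
    have hni : 0 < n i := Nat.ceil_pos.2 (pow_pos hB0 _)
    have hhalf : ENNReal.ofReal (1 / 2) ≤ share r m i (n i) := by
      refine ENNReal.ofReal_le_ofReal ?_
      have h5 : m * (i + 1) ≤ n i * r ^ (i + 1) := (hi₀ i (Finset.mem_Ico.1 hi).1).trans
        (mul_le_mul_of_nonneg_right (hn i).1 (by positivity))
      have h6 : 0 < m * (i + 1) := by positivity
      rw [le_div_iff₀ (by positivity)]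
      linarith
    have h3 : ∑ g ∈ A, perc V q (f.many h g x (n i)) ^ σ ≤
        2 * T * ENNReal.ofReal ((r ^ σ₁) ^ (i + 1)) := by
      have h' := (mul_le_mul_left hhalf _).trans (htail i (n i) hni)
      rw [mul_assoc]
      calc ∑ g ∈ A, perc V q (f.many h g x (n i)) ^ σ
          = 2 * (ENNReal.ofReal (1 / 2) * ∑ g ∈ A, perc V q (f.many h g x (n i)) ^ σ) := by
            rw [← mul_assoc, ← ENNReal.ofReal_ofNat, ← ENNReal.ofReal_mul (by norm_num)]
            norm_num
        _ ≤ _ := mul_le_mul_right h' _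
    calc (n (i + 1) : ℝ≥0∞) * P (n i)
        ≤ ENNReal.ofReal (2 * B ^ (i + 1)) *
          (2 * T * ENNReal.ofReal ((r ^ σ₁) ^ (i + 1))) ^ (1 / σ) := by
          refine mul_le_mul' ?_ ((sum_le_rpow _ _ hσ0 hσ1).trans
            (ENNReal.rpow_le_rpow h3 (by positivity)))
          rw [← ENNReal.ofReal_natCast]
          exact ENNReal.ofReal_le_ofReal (hn _).2
      _ = _ := by
          rw [← hρ, mul_pow, ENNReal.mul_rpow_of_nonneg _ _ (by positivity),
            ENNReal.ofReal_rpow_of_nonneg (by positivity) (by positivity),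
            ENNReal.ofReal_mul (by norm_num), ENNReal.ofReal_mul (by positivity),
            ENNReal.ofReal_ofNat,
            show ((r ^ σ₁) ^ (i + 1)) ^ (1 / σ) = ((r ^ σ₁) ^ (1 / σ)) ^ (i + 1) by
              rw [← Real.rpow_natCast, ← Real.rpow_natCast, ← Real.rpow_mul (by positivity),
                mul_comm, Real.rpow_mul (by positivity)]]
          ring
  calc ∑ g ∈ A, ∑' z : f.port g, perc V q (conn (f.avoid h ⊓ f.avoid g) x z)
      ≤ ∑ g ∈ A, ((n i₀ : ℝ≥0∞) * perc V q (f.many h g x 1) +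
          ∑ i ∈ Finset.Ico i₀ I, (n (i + 1) : ℝ≥0∞) * perc V q (f.many h g x (n i)) +
          (∑' z : f.port g, ∑' z', perc V q (conn f.H x z ∩ conn f.H x z')) / ENNReal.ofReal N) :=
        Finset.sum_le_sum fun g _ =>
          f.count_le n i₀ (lt_of_lt_of_le one_pos hN1) hI (hNI.trans (hn I).1) q h g x
    _ = (n i₀ : ℝ≥0∞) * P 1 + ∑ i ∈ Finset.Ico i₀ I, (n (i + 1) : ℝ≥0∞) * P (n i) +
          (∑ g ∈ A, ∑' z : f.port g, ∑' z', perc V q (conn f.H x z ∩ conn f.H x z')) /
            ENNReal.ofReal N := by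
        simp only [P, Finset.sum_add_distrib, Finset.mul_sum]
        rw [Finset.sum_comm (s := A)]
        simp only [div_eq_mul_inv, Finset.sum_mul]
    _ ≤ C₁ * ENNReal.ofReal (N ^ κ) + C₂ * ENNReal.ofReal (N ^ κ) +
          D * ENNReal.ofReal (N ^ κ) := by
        have hone : (1 : ℝ≥0∞) ≤ ENNReal.ofReal (N ^ κ) :=
          ENNReal.one_le_ofReal.2 (Real.one_le_rpow hN1 hκ.le)
        refine add_le_add (add_le_add (h1.trans (le_mul_of_one_le_right zero_le hone))
          ((Finset.sum_le_sum h2).trans ?_)) ?_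
        · have hBκ : 1 < B ^ κ := Real.one_lt_rpow hB1 hκ
          have hBκ' : 0 < B ^ κ - 1 := by linarith
          rw [← Finset.mul_sum, ← ENNReal.ofReal_sum_of_nonneg fun i _ => by positivity, hC₂,
            mul_assoc _ (ENNReal.ofReal _), ← ENNReal.ofReal_mul (by positivity)]
          refine mul_le_mul_right (ENNReal.ofReal_le_ofReal ?_) _
          calc ∑ i ∈ Finset.Ico i₀ I, (B ^ κ) ^ (i + 1)
              ≤ ∑ i ∈ Finset.range I, (B ^ κ) ^ (i + 1) :=
                Finset.sum_le_sum_of_subset_of_nonneg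
                  (fun i hi => Finset.mem_range.2 (Finset.mem_Ico.1 hi).2) fun i _ _ => by positivity
            _ = ((B ^ κ) ^ I - 1) / (B ^ κ - 1) * B ^ κ := by
                rw [← geom_sum_eq hBκ.ne', Finset.sum_mul]
                simp only [pow_succ]
            _ ≤ (B ^ (i₀ + 1)) ^ κ * N ^ κ / (B ^ κ - 1) * B ^ κ := by
                gcongr
                rw [← Real.mul_rpow (by positivity) (by positivity), ← Real.rpow_natCast (B ^ κ) I,
                  ← Real.rpow_mul hB0.le, mul_comm κ, Real.rpow_mul hB0.le, Real.rpow_natCast]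
                exact (sub_le_self _ zero_le_one).trans
                  (Real.rpow_le_rpow (by positivity) hIle hκ.le)
            _ = _ := by ring
        · refine le_trans (ENNReal.div_le_of_le_mul ?_) (le_mul_of_one_le_right zero_le hone)
          refine (hD q (ENNReal.ofReal X) (fun x => tsum_conn_le (hsusc x)) x A).trans (le_of_eq ?_)
          rw [hN, ENNReal.ofReal_pow (by linarith)]
    _ = _ := by rw [hNκ]; ring

end Vale.Agent.P165.TreeAct
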