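import Mathlib
import Vale.Agent.P165.TreeAct.Exponent
import Vale.Agent.P165.TreeAct.Amp

/-!
Below the critical point long connections decay exponentially in the graph distance.
-/

namespace Vale.Agent.P165.TreeAct

open MeasureTheory SimpleGraph
open Large (bk_two wit joins mem_joins joins_singleton)
open P151 (openOcc)
open scoped ENNReal

variable {V τ Γ : Type} [Group Γ] [MulAction Γ V] [MulAction Γ τ] (f : Frame V τ Γ)

lemma Frame.hdist_smul (g : Γ) (x y : V) : f.H.dist (g • x) (g • y) = f.H.dist x y := by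
  have key : ∀ (g : Γ) (x y : V), f.H.dist (g • x) (g • y) ≤ f.H.dist x y := fun g x y => by
    obtain ⟨q, hq⟩ := f.connected.exists_walk_length_eq_dist x y
    have := dist_le (f.moveWalk g q)
    rwa [f.length_moveWalk, hq] at this
  refine le_antisymm (key g x y) ?_
  have := key g⁻¹ (g • x) (g • y)
  simpa using this

/-- Reaching graph distance `k * R` has probability at most `2⁻ᵏ`. -/
theorem Frame.exists_decay {q : unitInterval} (hq : (q : ℝ) < pc f.H) :
    ∃ R : ℕ, ∀ (k : ℕ) (x : V),
      perc V q (joins f.H x {v | k * R < f.H.dist x v}) ≤ (2⁻¹ : ℝ≥0∞) ^ k := by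
  classical
  have := f.countable
  obtain ⟨X, -, -, hX⟩ := f.susc_finite hq
  have hfin : ∀ o, ∑' y, perc V q (conn f.H o y) ≠ ⊤ := fun o =>
    ne_top_of_le_ne_top ENNReal.ofReal_ne_top (hX o)
  have hex : ∀ o, ∃ s : Finset V, ∑' y : {y // y ∉ s}, perc V q (conn f.H o y) ≤ 2⁻¹ := fun o =>
    ((ENNReal.tendsto_tsum_compl_atTop_zero (hfin o)).eventually
      (ge_mem_nhds (by simp : (0 : ℝ≥0∞) < 2⁻¹))).exists
  choose s hs using hex
  set R₀ := f.O.sup fun o => (s o).sup fun y => f.H.dist o y with hR₀
  have hone : ∀ x, ∑' y : {y // R₀ < f.H.dist x y}, perc V q (conn f.H x y) ≤ 2⁻¹ := by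
    intro x
    obtain ⟨o, ho, γ, rfl⟩ := f.hO x
    refine le_trans ?_ (hs o)
    let e : {y // R₀ < f.H.dist (γ • o) y} → {y // y ∉ s o} := fun y => ⟨γ⁻¹ • y.1, fun hy => by
      have h1 : f.H.dist o (γ⁻¹ • y.1) ≤ R₀ :=
        (Finset.le_sup (f := fun y => f.H.dist o y) hy).trans
          (Finset.le_sup (f := fun o => (s o).sup fun y => f.H.dist o y) ho)
      have h2 : f.H.dist o (γ⁻¹ • y.1) = f.H.dist (γ • o) y.1 := by
        rw [← f.hdist_smul γ, smul_inv_smul]
      have := y.2
      omega⟩
    have hinj : Function.Injective e := fun a b h => Subtype.ext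
      (MulAction.injective γ⁻¹ (congrArg Subtype.val h))
    refine le_trans (le_of_eq ?_) (ENNReal.tsum_comp_le_tsum_of_injective hinj
      fun y : {y // y ∉ s o} => perc V q (conn f.H o y))
    refine tsum_congr fun y => ?_
    conv_lhs => rw [← smul_inv_smul γ y.1]
    exact f.perc_conn_smul γ o _ fun a b => f.hadj_iff γ a b
  refine ⟨R₀ + 1, fun k => ?_⟩
  induction k with
  | zero => exact fun x => by simpa using prob_le_one
  | succ k ih =>
    intro x
    refine le_trans (measure_mono (t := ⋃ c : {c // R₀ < f.H.dist x c}, {ω | ∃ s ∈ wit f.H x {c.1},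
      ∃ t ∈ wit f.H c.1 {v | k * (R₀ + 1) < f.H.dist c.1 v},
        Disjoint s t ∧ (∀ e ∈ s, ω e = true) ∧ ∀ e ∈ t, ω e = true}) fun ω hω => ?_) ?_
    · obtain ⟨v, hv, hc⟩ := mem_joins.1 hω
      obtain ⟨p, hp, hpo⟩ := exists_path_of_mem_conn hc
      simp only [Set.mem_ofPred_eq, Nat.succ_mul] at hv
      obtain ⟨y, c, r, hac, r', hcS, hpq, hr⟩ := cut_first {u | R₀ < f.H.dist x u} p
        (by simp) ⟨v, p.end_mem_support, show R₀ < _ by omega⟩
      have hd : f.H.dist x c ≤ R₀ + 1 := by
        have h1 := f.connected.dist_triangle (u := x) (v := y) (w := c)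
        have h2 : f.H.dist y c = 1 := SimpleGraph.dist_eq_one_iff_adj.2 hac
        have h3 : ¬R₀ < f.H.dist x y := hr y r.end_mem_support
        omega
      have hnd := hp.isTrail.edges_nodup
      rw [hpq, Walk.edges_append, List.nodup_append, Walk.edges_cons, List.nodup_cons] at hnd
      refine Set.mem_iUnion.2 ⟨⟨c, hcS⟩, (r.concat hac).edges.toFinset,
        ⟨c, rfl, r.concat hac, fun e => List.mem_toFinset⟩, r'.edges.toFinset,
        ⟨v, ?_, r', fun e => List.mem_toFinset⟩, ?_, fun e he => hpo e ?_, fun e he => hpo e ?_⟩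
      · have h1 := f.connected.dist_triangle (u := x) (v := c) (w := v)
        show k * (R₀ + 1) < f.H.dist c v
        omega
      · refine Finset.disjoint_left.2 fun e he he' => ?_
        simp only [List.mem_toFinset, Walk.edges_concat, List.concat_eq_append, List.mem_append,
          List.mem_singleton] at he he'
        rcases he with he | rfl
        · exact hnd.2.2 e he e (List.mem_cons_of_mem _ he') rfl
        · exact hnd.2.1.1 he'
      · rw [hpq, List.mem_toFinset]
        simp only [List.mem_toFinset, Walk.edges_concat, List.concat_eq_append, List.mem_append,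
          List.mem_singleton] at he
        simp only [Walk.edges_append, Walk.edges_cons, List.mem_append, List.mem_cons]
        tauto
      · rw [hpq, List.mem_toFinset]
        simp [List.mem_toFinset.1 he]
    · refine (measure_iUnion_le _).trans ?_
      calc ∑' c : {c // R₀ < f.H.dist x c}, perc V q _
          ≤ ∑' c : {c // R₀ < f.H.dist x c}, perc V q (conn f.H x c.1) * (2⁻¹) ^ k := by
            refine ENNReal.tsum_le_tsum fun c => (bk_two _ _).trans ?_
            refine mul_le_mul' (le_of_eq ?_) (ih c.1)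
            rw [← joins_singleton]; rfl
        _ ≤ 2⁻¹ * (2⁻¹) ^ k := by
            rw [ENNReal.tsum_mul_right]
            exact mul_le_mul_left (hone x) _
        _ = _ := (pow_succ' _ _).symm

end Vale.Agent.P165.TreeAct
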