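import Mathlib
import Vale.Agent.P165.TreeAct.Sums
import Vale.Agent.P165.TreeAct.Decay

/-!
Below the critical exponent there are seeds.
-/

namespace Vale.Agent.P165.TreeAct

open MeasureTheory SimpleGraph
open Large (joins mem_joins)
open P151 (openOcc)
open scoped ENNReal

variable {V τ Γ : Type} [Group Γ] [MulAction Γ V] [MulAction Γ τ] (f : Frame V τ Γ)

/-- A large sum of powers forces one dyadic level with many members against its index. -/
lemma exists_dyadic {α : Type} (A : Finset α) (v : α → ℝ) (hv : ∀ a ∈ A, v a ≤ 1)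
    (hv0 : ∀ a ∈ A, 0 ≤ v a) {σ₁ σ₂ K : ℝ} (hσ0 : 0 < σ₂) (hσ : σ₁ < σ₂) (hK : 0 ≤ K)
    (hsum : K * (2 : ℝ) ^ σ₁ * ∑' j : ℕ, ((j : ℝ) + 1) * ((1 / 2 : ℝ) ^ (σ₂ - σ₁)) ^ j <
      ∑ a ∈ A, v a ^ σ₂) :
    ∃ j : ℕ, K * (j + 1) < (A.filter fun a => (1 / 2 : ℝ) ^ (j + 1) < v a).card *
      ((1 / 2 : ℝ) ^ (j + 1)) ^ σ₁ := by
  classical
  by_contra hn
  push Not at hn
  have hlev : ∀ a, ∃ j : ℕ, a ∈ A → 0 < v a →
      (1 / 2 : ℝ) ^ (j + 1) < v a ∧ v a ≤ (1 / 2 : ℝ) ^ j := by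
    intro a
    by_cases h : a ∈ A ∧ 0 < v a
    · obtain ⟨j, hj⟩ := exists_nat_pow_near_of_lt_one h.2 (hv a h.1)
        (by norm_num : (0 : ℝ) < 1 / 2) (by norm_num)
      exact ⟨j, fun _ _ => hj⟩
    · exact ⟨0, fun h1 h2 => absurd ⟨h1, h2⟩ h⟩
  choose J hJ using hlev
  set A' := A.filter fun a => 0 < v a
  set x : ℝ := (1 / 2 : ℝ) ^ (σ₂ - σ₁) with hx
  have hx0 : 0 ≤ x := (Real.rpow_pos_of_pos (by norm_num) _).le
  have hx1 : x < 1 := Real.rpow_lt_one (by norm_num) (by norm_num) (by linarith)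
  have h1 : ∑ a ∈ A, v a ^ σ₂ = ∑ a ∈ A', v a ^ σ₂ := by
    rw [Finset.sum_filter_of_ne]
    intro a ha hne
    rcases (hv0 a ha).lt_or_eq with h | h
    · exact h
    · exact absurd (by rw [← h, Real.zero_rpow hσ0.ne']) hne
  have h2 : ∀ j : ℕ, ∑ a ∈ A'.filter (fun a => J a = j), v a ^ σ₂ ≤
      K * (2 : ℝ) ^ σ₁ * (((j : ℝ) + 1) * x ^ j) := by
    intro j
    refine (Finset.sum_le_card_nsmul _ _ (((1 / 2 : ℝ) ^ j) ^ σ₂) fun a ha => ?_).trans ?_
    · obtain ⟨ha', rfl⟩ := Finset.mem_filter.1 ha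
      obtain ⟨haA, hpos⟩ := Finset.mem_filter.1 ha'
      exact Real.rpow_le_rpow (hv0 a haA) (hJ a haA hpos).2 hσ0.le
    · rw [nsmul_eq_mul]
      have hcard : ((A'.filter fun a => J a = j).card : ℝ)
          ≤ (A.filter fun a => (1 / 2 : ℝ) ^ (j + 1) < v a).card := by
        refine Nat.cast_le.2 (Finset.card_le_card fun a ha => ?_)
        obtain ⟨ha', rfl⟩ := Finset.mem_filter.1 ha
        obtain ⟨haA, hpos⟩ := Finset.mem_filter.1 ha'
        exact Finset.mem_filter.2 ⟨haA, (hJ a haA hpos).1⟩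
      have key : ((1 / 2 : ℝ) ^ j) ^ σ₂
          = ((1 / 2 : ℝ) ^ (j + 1)) ^ σ₁ * ((2 : ℝ) ^ σ₁ * x ^ j) := by
        rw [← mul_assoc, ← Real.mul_rpow (by positivity) (by norm_num), hx,
          ← Real.rpow_natCast ((1 / 2 : ℝ) ^ (σ₂ - σ₁)) j, ← Real.rpow_mul (by norm_num),
          show ((1 / 2 : ℝ) ^ (j + 1) * 2) = (1 / 2 : ℝ) ^ j by rw [pow_succ]; ring,
          ← Real.rpow_natCast (1 / 2 : ℝ) j, ← Real.rpow_mul (by norm_num),
          ← Real.rpow_mul (by norm_num), ← Real.rpow_add (by norm_num)]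
        congr 1; ring
      rw [key, ← mul_assoc]
      calc _ ≤ ((A.filter fun a => (1 / 2 : ℝ) ^ (j + 1) < v a).card : ℝ)
              * ((1 / 2 : ℝ) ^ (j + 1)) ^ σ₁ * ((2 : ℝ) ^ σ₁ * x ^ j) := by
            gcongr
        _ ≤ K * (j + 1) * ((2 : ℝ) ^ σ₁ * x ^ j) :=
            mul_le_mul_of_nonneg_right (hn j) (by positivity)
        _ = _ := by ring
  have hsm : Summable fun j : ℕ => ((j : ℝ) + 1) * x ^ j := by
    have h := summable_pow_mul_geometric_of_norm_lt_one (R := ℝ) 1 (r := x)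
      (by rwa [Real.norm_of_nonneg hx0])
    simp only [pow_one] at h
    simp only [add_mul, one_mul]
    exact Summable.add h (summable_geometric_of_lt_one hx0 hx1)
  have h3 : ∑ a ∈ A', v a ^ σ₂ ≤ K * (2 : ℝ) ^ σ₁ * ∑' j : ℕ, ((j : ℝ) + 1) * x ^ j := by
    rw [← Finset.sum_fiberwise_of_maps_to (g := J) (t := A'.image J)
      fun a ha => Finset.mem_image_of_mem _ ha]
    refine (Finset.sum_le_sum fun j _ => h2 j).trans ?_
    rw [← Finset.mul_sum]
    exact mul_le_mul_of_nonneg_left (hsm.sum_le_tsum _ fun j _ => by positivity) (by positivity)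
  linarith

/-- A crossing probability above `2⁻ᵏ` bounds the distance to the half-tree linearly in `k`. -/
lemma Frame.meet_far {q : unitInterval} {R : ℕ}
    (hR : ∀ (k : ℕ) (x : V), perc V q (joins f.H x {v | k * R < f.H.dist x v}) ≤ (2⁻¹ : ℝ≥0∞) ^ k)
    {h g : Half f.T} {y : V} (hy : y ∈ f.port h) (hgh : Disjoint g.side h.side) {k : ℕ}
    (hm : (2⁻¹ : ℝ≥0∞) ^ k < f.meet q h g y) :
    f.T.dist h.snd g.fst ≤ f.L * (k * R) + f.L := by
  by_contra hn
  refine not_le.2 hm (le_trans (measure_mono fun ω hω => ?_) (hR k y))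
  obtain ⟨v, hv, hc⟩ := mem_joins.1 hω
  refine mem_joins.2 ⟨v, ?_, Reachable.mono (show openGraph _ ω ≤ openGraph f.H ω from
    fun _ _ ha => ⟨f.avoid_le h (inf_le_left (b := f.avoid g) ha.1), ha.2⟩) hc⟩
  show k * R < f.H.dist y v
  obtain ⟨p, hp⟩ := f.connected.exists_walk_length_eq_dist y v
  have h1 := f.walk_dist p
  rw [hp] at h1
  have h2 : h.snd ∉ g.side := fun hh => Set.disjoint_left.1 hgh hh h.snd_mem
  have h3 := Half.dist_fst_lt f.tree hv.1.1 h2
  have h4 := f.tree.connected.dist_triangle (u := h.snd) (v := f.pr y) (w := f.pr v)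
  have h5 := f.port_dist hy
  have h6 := Half.dist_fst f.tree hy.1.1
  by_contra hle
  have := Nat.mul_le_mul_left f.L (not_lt.1 hle)
  omega

/-- Crossing probabilities are nearly carried by finitely many landings and short walks. -/
lemma exists_finite_wit {W : Type} [Countable W] {p : unitInterval} (K : SimpleGraph W) (y : W)
    (P : Set W) {r : ℝ≥0∞} (hr : r < perc W p (joins K y P)) :
    ∃ (J : Finset W) (ℓ : ℕ), (J : Set W) ⊆ P ∧
      r ≤ perc W p (openOcc (witUpTo K y (J : Set W) ℓ)) := by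
  classical
  let U : Finset P × ℕ → Set (Sym2 W → Bool) := fun x =>
    openOcc (witUpTo K y ((x.1.map (Function.Embedding.subtype _) : Finset W) : Set W) x.2)
  have hU : joins K y P = ⋃ x, U x := by
    refine Set.Subset.antisymm (fun ω hω => ?_) (Set.iUnion_subset fun x ω ⟨s, hs, ho⟩ => ?_)
    · obtain ⟨v, hv, hc⟩ := mem_joins.1 hω
      obtain ⟨q, -, hq⟩ := exists_path_of_mem_conn hc
      exact Set.mem_iUnion.2 ⟨({⟨v, hv⟩}, q.length), q.edges.toFinset,
        ⟨v, by simp, q, le_rfl, fun e => List.mem_toFinset⟩, hq⟩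
    · obtain ⟨v, hv, q, -, hq⟩ := hs
      simp only [Finset.coe_map, Function.Embedding.subtype_apply, Set.mem_image] at hv
      obtain ⟨v', -, rfl⟩ := hv
      exact mem_joins.2 ⟨v', v'.2, reachable_openGraph_of_walk q fun e he => ho e ((hq e).2 he)⟩
  have hd : Directed (· ⊆ ·) U := fun a b => ⟨(a.1 ∪ b.1, max a.2 b.2),
    openOcc_witUpTo_mono (by simp) (le_max_left _ _),
    openOcc_witUpTo_mono (by simp) (le_max_right _ _)⟩
  rw [hU, hd.measure_iUnion, lt_iSup_iff] at hr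
  obtain ⟨x, hx⟩ := hr
  exact ⟨_, x.2, by simp, hx.le⟩

/-- Below the critical exponent there are seeds. -/
theorem Frame.exists_seed {σ₁ σ₂ : ℝ} (hσ0 : 0 < σ₁) (hσ : σ₁ < σ₂) (hbad : ¬f.Good σ₂) :
    Nonempty (Seed f σ₁) := by
  classical
  have := f.countable
  simp only [Frame.Good, not_forall, not_not] at hbad
  obtain ⟨q, hq, hqlt, htop⟩ := hbad
  have hqpos : (0 : ℝ) < q := lt_of_lt_of_le (half_pos f.pc_pos) hq
  obtain ⟨R', hR'⟩ := f.exists_decay hqlt
  obtain ⟨R, M, hr⟩ := f.exists_reroot 0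
  obtain ⟨Dg, -, hDg⟩ := f.exists_degree
  set B : ℕ := (Dg + 1) ^ M * (f.L * (M + 1) + 1)
  set C : ℕ := f.L * (R' + 1) + 1
  set c : ℝ := (q : ℝ) ^ M / (2 * (R + 1)) with hc
  have hc0 : 0 < c := by positivity
  have hc1 : c ≤ 1 := by
    rw [hc, div_le_one (by positivity)]
    have := pow_le_one₀ (n := M) q.2.1 q.2.2
    have : (0 : ℝ) ≤ R := Nat.cast_nonneg _
    linarith
  set K : ℝ := (C : ℝ) * (R + 1) * (c ^ σ₁)⁻¹ with hKdef
  have hK0 : 0 ≤ K := by positivity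
  set D : ℝ := K * (2 : ℝ) ^ σ₁ * ∑' j : ℕ, ((j : ℝ) + 1) * ((1 / 2 : ℝ) ^ (σ₂ - σ₁)) ^ j
  have hlt : ENNReal.ofReal D + B < f.total q σ₂ := by
    rw [htop]
    exact ENNReal.add_lt_top.2 ⟨ENNReal.ofReal_lt_top, ENNReal.natCast_lt_top _⟩
  simp only [Frame.total, lt_iSup_iff] at hlt
  obtain ⟨h, y, A, hA, hsum⟩ := hlt
  set Af := A.filter fun g => ¬∃ u ∈ near f.H (y : V) M, f.pr u ∈ g.side
  have hone : ∀ g, f.meet q h g (y : V) ≠ ⊤ := fun g =>
    ne_top_of_le_ne_top ENNReal.one_ne_top (f.meet_le_one ..)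
  have hsum' : D < ∑ g ∈ Af, (f.meet q h g (y : V)).toReal ^ σ₂ := by
    have h1 : ∑ g ∈ A.filter (fun g => ∃ u ∈ near f.H (y : V) M, f.pr u ∈ g.side),
        f.meet q h g (y : V) ^ σ₂ ≤ B := by
      refine le_trans (Finset.sum_le_sum fun g _ => ENNReal.rpow_le_one
        (f.meet_le_one q h g y) (by linarith)) ?_
      rw [Finset.sum_const, nsmul_one]
      refine Nat.cast_le.2 (f.card_bad hDg y.2 _ fun g hg => ?_)
      obtain ⟨hg, hu⟩ := Finset.mem_filter.1 hg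
      exact ⟨fun hh => Set.disjoint_left.1 (hA g hg) hh h.snd_mem, hu⟩
    rw [← Finset.sum_filter_add_sum_filter_not A
      (fun g => ∃ u ∈ near f.H (y : V) M, f.pr u ∈ g.side), add_comm (ENNReal.ofReal D)] at hsum
    have h2 : ENNReal.ofReal D < ∑ g ∈ Af, f.meet q h g (y : V) ^ σ₂ := by
      by_contra hle
      exact absurd hsum (not_lt.2 (add_le_add h1 (not_lt.1 hle)))
    have h3 : ∑ g ∈ Af, f.meet q h g (y : V) ^ σ₂ =
        ENNReal.ofReal (∑ g ∈ Af, (f.meet q h g (y : V)).toReal ^ σ₂) := by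
      rw [ENNReal.ofReal_sum_of_nonneg fun g _ => Real.rpow_nonneg ENNReal.toReal_nonneg _]
      refine Finset.sum_congr rfl fun g _ => ?_
      rw [← ENNReal.ofReal_rpow_of_nonneg ENNReal.toReal_nonneg (by linarith),
        ENNReal.ofReal_toReal (hone g)]
    rw [h3] at h2
    exact lt_of_not_ge fun hle => absurd h2 (not_lt.2 (ENNReal.ofReal_le_ofReal hle))
  obtain ⟨j, hj⟩ := exists_dyadic Af _ (fun g _ => ENNReal.toReal_le_of_le_ofReal zero_le_one
    (by simpa using f.meet_le_one q h g (y : V))) (fun g _ => ENNReal.toReal_nonneg)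
    (by linarith) hσ hK0 hsum'
  set w : ℝ := (1 / 2 : ℝ) ^ (j + 1) with hw
  have hw0 : 0 < w := by positivity
  set G := Af.filter fun g => w < (f.meet q h g (y : V)).toReal with hG
  have hmem : ∀ g ∈ G, g ∈ A ∧ (∀ u ∈ near f.H (y : V) M, f.pr u ∉ g.side) ∧
      ENNReal.ofReal w < f.meet q h g (y : V) := fun g hg => by
    obtain ⟨h1, h2⟩ := Finset.mem_filter.1 hg
    obtain ⟨h3, h4⟩ := Finset.mem_filter.1 h1
    exact ⟨h3, fun u hu hus => h4 ⟨u, hu, hus⟩,
      (ENNReal.ofReal_lt_iff_lt_toReal hw0.le (hone g)).2 h2⟩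
  have hpick : ∀ g : Half f.T, ∃ (D₀ : ℕ) (J : Finset V) (ℓ : ℕ), g ∈ G → D₀ ≤ R ∧
      (∀ v ∈ J, v ∈ f.port g ∧ ∃ γ : Γ,
        (f.sm γ h.op).fst ∈ g.side ∧ g.fst ∉ (f.sm γ h.op).side ∧
        f.T.dist g.fst (f.sm γ h.op).fst = D₀ ∧ f.avoid (f.sm γ h) ≤ f.inner g ∧
        ∃ p : (f.inner g).Walk v (γ • (y : V)), p.length ≤ M) ∧
      ENNReal.ofReal (w / (2 * (R + 1))) ≤
        perc V q (openOcc (witUpTo (f.avoid h ⊓ f.avoid g) (y : V) (J : Set V) ℓ)) := by
    intro g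
    by_cases hg : g ∈ G
    swap
    · exact ⟨0, ∅, 0, fun h' => absurd h' hg⟩
    let P : ℕ → Set V := fun D₀ => {v | v ∈ f.port g ∧ ∃ γ : Γ,
        (f.sm γ h.op).fst ∈ g.side ∧ g.fst ∉ (f.sm γ h.op).side ∧
        f.T.dist g.fst (f.sm γ h.op).fst = D₀ ∧ f.avoid (f.sm γ h) ≤ f.inner g ∧
        ∃ p : (f.inner g).Walk v (γ • (y : V)), p.length ≤ M}
    have hcover : f.meet q h g (y : V) ≤
        ∑ D₀ ∈ Finset.range (R + 1), perc V q (joins (f.avoid h ⊓ f.avoid g) y (P D₀)) := by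
      refine le_trans (measure_mono fun ω hω => ?_) (measure_biUnion_finset_le _ _)
      obtain ⟨v, hv, hc⟩ := mem_joins.1 hω
      obtain ⟨γ, h1, h2, -, h4, -, h6, h7⟩ := hr g v hv h y y.2 g.fst
      exact Set.mem_iUnion₂.2 ⟨_, Finset.mem_range.2 (Nat.lt_succ_of_le h4),
        mem_joins.2 ⟨v, ⟨hv, γ, h1, h2, rfl, h6, h7⟩, hc⟩⟩
    obtain ⟨D₀, hD₀, hmax⟩ := (Finset.range (R + 1)).exists_max_image
      (fun D₀ => perc V q (joins (f.avoid h ⊓ f.avoid g) y (P D₀))) ⟨0, by simp⟩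
    have hlt : ENNReal.ofReal (w / (2 * (R + 1))) <
        perc V q (joins (f.avoid h ⊓ f.avoid g) y (P D₀)) := by
      by_contra hle
      have h5 : f.meet q h g (y : V) ≤ ENNReal.ofReal (w / 2) := by
        refine (hcover.trans (Finset.sum_le_sum fun D' hD' =>
          (hmax D' hD').trans (not_lt.1 hle))).trans (le_of_eq ?_)
        rw [Finset.sum_const, Finset.card_range, ← ENNReal.ofReal_nsmul, nsmul_eq_mul]
        congr 1
        push_cast
        field_simp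
      exact absurd ((hmem g hg).2.2.trans_le (h5.trans (ENNReal.ofReal_le_ofReal (by linarith))))
        (lt_irrefl _)
    obtain ⟨J, ℓ, hJ, hJp⟩ := exists_finite_wit _ _ _ hlt
    exact ⟨D₀, J, ℓ, fun _ => ⟨Nat.le_of_lt_succ (Finset.mem_range.1 hD₀),
      fun v hv => hJ hv, hJp⟩⟩
  choose D₀ Land ℓ hpick using hpick
  let key : Half f.T → ℕ × ℕ := fun g => (f.T.dist h.snd g.fst, D₀ g)
  have hkey : ∀ g ∈ G, key g ∈ Finset.range (C * (j + 1)) ×ˢ Finset.range (R + 1) := by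
    intro g hg
    refine Finset.mem_product.2 ⟨Finset.mem_range.2 ?_,
      Finset.mem_range.2 (Nat.lt_succ_of_le (hpick g hg).1)⟩
    have h1 := f.meet_far hR' y.2 (hA g (hmem g hg).1) (k := j + 1) (by
      refine lt_of_le_of_lt (le_of_eq ?_) (hmem g hg).2.2
      rw [hw, ENNReal.ofReal_pow (by norm_num), one_div, ENNReal.ofReal_inv_of_pos two_pos,
        ENNReal.ofReal_ofNat])
    show f.T.dist h.snd g.fst < C * (j + 1)
    have e : C * (j + 1) = f.L * ((j + 1) * R') + f.L * (j + 1) + (j + 1) := by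
      simp only [C]; ring
    have e2 : f.L ≤ f.L * (j + 1) := Nat.le_mul_of_pos_right _ j.succ_pos
    omega
  obtain ⟨p, hp, hpc⟩ : ∃ p ∈ Finset.range (C * (j + 1)) ×ˢ Finset.range (R + 1),
      (G.card : ℝ) ≤ (C * (j + 1) * (R + 1) : ℕ) * (G.filter fun g => key g = p).card := by
    obtain ⟨p, hp, hmax⟩ := (Finset.range (C * (j + 1)) ×ˢ Finset.range (R + 1)).exists_max_image
      (fun p => (G.filter fun g => key g = p).card) ⟨(0, 0), by simp [C]⟩
    refine ⟨p, hp, ?_⟩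
    have h1 := Finset.card_le_mul_card_image_of_maps_to (s := G) (f := key) hkey _
      fun b hb => hmax b hb
    rw [Finset.card_product, Finset.card_range, Finset.card_range, mul_comm] at h1
    exact_mod_cast h1
  set G' := G.filter fun g => key g = p
  have hG' : ∀ g ∈ G', g ∈ G ∧ f.T.dist h.snd g.fst = p.1 ∧ D₀ g = p.2 := fun g hg => by
    obtain ⟨h1, h2⟩ := Finset.mem_filter.1 hg
    exact ⟨h1, congrArg Prod.fst h2, congrArg Prod.snd h2⟩
  have hnot : ∀ g ∈ G', h.snd ∉ g.side := fun g hg hh =>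
    Set.disjoint_left.1 (hA g (hmem g (hG' g hg).1).1) hh h.snd_mem
  refine ⟨{
    q₀ := q
    q₀_pos := hqpos
    q₀_lt := hqlt
    h := h
    y := y
    hy := y.2
    A := G'
    code := ⟨fun g hg g' hg' hne => Set.disjoint_left.2 fun u hu hu' => hne
      (Half.eq_of_dist_eq f.tree hu hu' (hnot g hg) (hnot g' hg')
        ((hG' g hg).2.1.trans (hG' g' hg').2.1.symm)),
      fun g hg => hA g (hmem g (hG' g hg).1).1⟩
    n := p.1
    level := fun g hg => (hG' g hg).2.1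
    D₀ := p.2
    M := M
    ℓ := G'.sup ℓ
    Land := Land
    land := fun g hg v hv => ((hpick g (hG' g hg).1).2.1 v hv).1
    entry := fun g hg v hv => by
      rw [← (hG' g hg).2.2]
      exact ((hpick g (hG' g hg).1).2.1 v hv).2
    clear := fun g hg u pw hpw => (hmem g (hG' g hg).1).2.1 u (mem_near pw hpw)
    r := c * w
    r_pos := by positivity
    r_lt := ?_
    count := ?_
    prob := fun g hg => ?_ }⟩
  · have h2 : w < 1 := pow_lt_one₀ (by norm_num) (by norm_num) (Nat.succ_ne_zero _)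
    nlinarith
  · rw [Real.mul_rpow hc0.le hw0.le]
    have hcs : 0 < c ^ σ₁ := Real.rpow_pos_of_pos hc0 _
    have hNN : (0 : ℝ) < (C : ℝ) * (j + 1) * (R + 1) := by positivity
    have : (C : ℝ) * (j + 1) * (R + 1) * (c ^ σ₁)⁻¹ <
        (C : ℝ) * (j + 1) * (R + 1) * ((G'.card : ℝ) * w ^ σ₁) := by
      refine lt_of_le_of_lt (le_of_eq ?_) (lt_of_lt_of_le hj ?_)
      · rw [hKdef]; ring
      · rw [← mul_assoc]
        refine mul_le_mul_of_nonneg_right (hpc.trans (le_of_eq ?_)) (Real.rpow_nonneg hw0.le _)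
        push_cast; rfl
    have h3 := lt_of_mul_lt_mul_left this hNN.le
    rw [inv_lt_iff_one_lt_mul₀ hcs] at h3
    linarith [h3]
  · refine le_trans ?_ (mul_le_mul_right ((hpick g (hG' g hg).1).2.2.trans (measure_mono
      (openOcc_witUpTo_mono subset_rfl (Finset.le_sup hg)))) _)
    rw [← ENNReal.ofReal_mul (by positivity)]
    refine ENNReal.ofReal_le_ofReal (le_of_eq ?_)
    rw [hc]; ring

end Vale.Agent.P165.TreeAct
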