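import Mathlib
import Vale.Agent.P165.TreeAct.CodeSum
import Vale.Agent.P165.TreeAct.Levels
import Vale.Agent.P165.TreeAct.SeedExists
import Vale.Agent.P165.TreeAct.Leaves

/-!
The choice of the exponents: the radial and tilted sums give the main estimate.
-/

namespace Vale.Agent.P165.TreeAct

open MeasureTheory SimpleGraph
open scoped ENNReal

variable {V τ Γ : Type} [Group Γ] [MulAction Γ V] [MulAction Γ τ] (f : Frame V τ Γ)

/-- The radial sums are at most a multiple of the square of the code bound. -/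
def Frame.RadialBound (a : ℝ) : Prop :=
  ∃ t₀ : ℝ, 1 < t₀ ∧ ∃ C : ℝ≥0∞, C ≠ ⊤ ∧
    ∀ q : unitInterval, a ≤ q → ∀ (R : ℕ) (U : ℝ≥0∞), 1 ≤ U → f.CodeBound q R U →
      ∀ t : ℝ, 1 < t → t ≤ t₀ → ∀ z : V,
        ∑' y, perc V q (conn f.H z y) * ENNReal.ofReal (t⁻¹ ^ f.T.dist (f.pr z) (f.pr y)) ≤
          C * U * U * (1 - ENNReal.ofReal t⁻¹)⁻¹

/-- The tilted sums are bounded through the code bound and the radial sums. -/
def Frame.TiltSum (R : ℕ) : Prop :=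
  ∃ C : ℝ, 1 ≤ C ∧ ∀ (q : unitInterval) (U B : ℝ), 1 ≤ U → 0 ≤ B →
    f.CodeBound q R (ENNReal.ofReal U) → ∀ t : ℝ, 1 < t → t ≤ 1 + 1 / (C * U) →
    (∀ z : V, ∑' y, perc V q (conn f.H z y) *
      ENNReal.ofReal (t⁻¹ ^ f.T.dist (f.pr z) (f.pr y)) ≤ ENNReal.ofReal B) →
    ∀ (P : τ) (x : V), ∑' y, perc V q (conn f.H x y) *
      ENNReal.ofReal (t ^ (f.ht P y - f.ht P x)) ≤ ENNReal.ofReal (C * U * B)

/-- A bound `U` on the code sums gives a tilt with a fourth power. -/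
lemma Frame.tilt_of_code {a : ℝ} {R : ℕ} (hr : f.RadialBound a) (ht : f.TiltSum R) :
    ∃ C : ℝ, 0 ≤ C ∧ ∀ q : unitInterval, a ≤ q → ∀ U : ℝ, 1 ≤ U →
      f.CodeBound q R (ENNReal.ofReal U) → ∃ t : ℝ, 1 < t ∧ t ≤ 2 ∧ ∀ (P : τ) (x : V),
        ∑' y, perc V q (conn f.H x y) * ENNReal.ofReal (t ^ (f.ht P y - f.ht P x)) ≤
          ENNReal.ofReal (C * U ^ 4) := by
  obtain ⟨t₀, ht₀, Cr, hCr, hrad⟩ := hr
  obtain ⟨Ct, hCt, htilt⟩ := ht
  set κ : ℝ := max 1 (max (1 / (t₀ - 1)) Ct) with hκ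
  have hκ1 : 1 ≤ κ := le_max_left _ _
  refine ⟨Ct * (Cr.toReal * (2 * κ)), by positivity, fun q hq U hU hcode => ?_⟩
  set t : ℝ := 1 + 1 / (κ * U) with htdef
  have hκU : 1 ≤ κ * U := one_le_mul_of_one_le_of_one_le hκ1 hU
  have hδ : 1 / (κ * U) ≤ 1 := by rw [div_le_one (by positivity)]; exact hκU
  have ht1 : 1 < t := lt_add_of_pos_right 1 (by positivity)
  have ht2 : t ≤ 2 := by linarith
  have htt₀ : t ≤ t₀ := by
    have h1 : 1 / (t₀ - 1) ≤ κ * U :=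
      ((le_max_left _ _).trans (le_max_right _ _)).trans (le_mul_of_one_le_right (by linarith) hU)
    have h2 : 1 / (κ * U) ≤ t₀ - 1 := by
      rw [div_le_iff₀ (by positivity)]
      rw [div_le_iff₀ (by linarith)] at h1
      linarith
    linarith
  have htC : t ≤ 1 + 1 / (Ct * U) := by
    have : Ct * U ≤ κ * U :=
      mul_le_mul_of_nonneg_right ((le_max_right _ _).trans (le_max_right _ _)) (by linarith)
    linarith [one_div_le_one_div_of_le (by positivity) this]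
  have hinv : (1 - ENNReal.ofReal t⁻¹)⁻¹ ≤ ENNReal.ofReal (2 * (κ * U)) := by
    rw [← ENNReal.ofReal_one, ← ENNReal.ofReal_sub _ (by positivity),
      ← ENNReal.ofReal_inv_of_pos (by linarith [inv_lt_one_of_one_lt₀ ht1])]
    refine ENNReal.ofReal_le_ofReal ?_
    have : 1 - t⁻¹ = (t * (κ * U))⁻¹ := by
      rw [htdef]
      field_simp
      ring
    rw [this, inv_inv]
    exact mul_le_mul_of_nonneg_right ht2 (by positivity)
  set B : ℝ := Cr.toReal * U * U * (2 * (κ * U))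
  have hB : ∀ z : V, ∑' y, perc V q (conn f.H z y) *
      ENNReal.ofReal (t⁻¹ ^ f.T.dist (f.pr z) (f.pr y)) ≤ ENNReal.ofReal B := fun z => by
    refine (hrad q hq R _ (ENNReal.one_le_ofReal.2 hU) hcode t ht1 htt₀ z).trans ?_
    simp only [B]
    rw [ENNReal.ofReal_mul (by positivity), ENNReal.ofReal_mul (by positivity),
      ENNReal.ofReal_mul ENNReal.toReal_nonneg, ENNReal.ofReal_toReal hCr]
    exact mul_le_mul_right hinv _
  refine ⟨t, ht1, ht2, fun P x =>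
    (htilt q U B hU (by positivity) hcode t ht1 htC hB P x).trans (le_of_eq ?_)⟩
  congr 1
  simp only [B]
  ring

/-- The main estimate, from the chain and the two sums. -/
theorem Frame.tiltBound_of (Cn : Chain f) (hr : f.RadialBound (pc f.H / 2))
    (ht : ∀ R, f.TiltSum R) : TiltBound f.H f.ht := by
  classical
  have := f.countable
  set a : ℝ := pc f.H / 2 with hadef
  have ha : 0 < a := half_pos f.pc_pos
  obtain ⟨C₂, β, hC₂, hβ, hsum⟩ := f.code_sum ha Cn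
  obtain ⟨s, hs0, hs1, hgood, hbad⟩ := f.exists_exponent
  set ε : ℝ := s / (192 * (β + 1)) with hε
  have hε0 : 0 < ε := by positivity
  have hεs : 4 * ε ≤ s := by
    rw [hε, ← mul_div_assoc, div_le_iff₀ (by positivity)]
    nlinarith
  set σ : ℝ := min 1 (s + ε)
  have hσs : s ≤ σ := le_min hs1 (by linarith)
  have hσ0 : 0 < σ := lt_of_lt_of_le hs0 hσs
  have hσ1 : σ ≤ 1 := min_le_left _ _
  obtain ⟨S⟩ := f.exists_seed (σ₁ := s - 2 * ε) (σ₂ := s - ε) (by linarith) (by linarith)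
    (hbad _ (by linarith))
  have hgap : s - 2 * ε < σ * (1 + ε) := by nlinarith
  set η : ℝ := 3 * ((σ * (1 + ε) - (s - 2 * ε)) / (1 + ε)) / σ with hη
  have hζ0 : 0 ≤ (σ * (1 + ε) - (s - 2 * ε)) / (1 + ε) := div_nonneg (by linarith) (by linarith)
  have hη0 : 0 ≤ η := by positivity
  have hηle : η * β * 4 ≤ 1 / 4 := by
    have hζ4 : (σ * (1 + ε) - (s - 2 * ε)) / (1 + ε) ≤ 4 * ε := by
      rw [div_le_iff₀ (by linarith)]
      nlinarith [min_le_right 1 (s + ε)]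
    calc η * β * 4 ≤ 3 * (4 * ε) / s * (β + 1) * 4 := by
          rw [hη]; gcongr; linarith
      _ = 1 / 4 := by rw [hε]; field_simp; ring
  obtain ⟨K, hK, hgrow⟩ := f.growth_le ha
  obtain ⟨R, m, hm, hspread⟩ := S.spreads
  obtain ⟨M, hself⟩ := f.exists_port_self R
  obtain ⟨C, hC, hroot⟩ := f.rootBound (σ₁ := s - 2 * ε) (b := S.A.card) (R := R) hσ0 hσ1 hε0 hgap
    ha S.r_pos S.r_lt hm S.count hK M
  obtain ⟨C₄, hC₄, hcore₄⟩ := f.tilt_of_code hr (ht R)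
  set W₀ : ℝ := C.toReal + 1 with hW₀
  have hW₁ : 1 ≤ W₀ := le_add_of_nonneg_left ENNReal.toReal_nonneg
  have hcore : ∀ q : unitInterval, (S.q₀ : ℝ) ≤ q → a ≤ q → (q : ℝ) < pc f.H →
      ∀ X : ℝ, 1 ≤ X → SuscLe f.H q X → ∃ t : ℝ, 1 < t ∧ t ≤ 2 ∧ ∀ (P : τ) (x : V),
        ∑' y, perc V q (conn f.H x y) * ENNReal.ofReal (t ^ (f.ht P y - f.ht P x)) ≤
          ENNReal.ofReal (C₄ * (C₂ * W₀ ^ β) ^ 4 * X ^ (1 / 4 : ℝ)) := by
    intro q hq₀ haq hqc X hX hsusc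
    set W : ℝ := W₀ * X ^ η with hW
    have hXη : 1 ≤ X ^ η := Real.one_le_rpow hX hη0
    have hW1 : 1 ≤ W := one_le_mul_of_one_le_of_one_le hW₁ hXη
    have hG : f.growth q σ ≤ K := hgrow q σ haq hσ0 hσ1 (hgood ε hε0 q haq hqc)
    have hRB : f.RootBound q R M (ENNReal.ofReal W) := by
      intro h x y hy r hr A w hA hrel
      refine (hroot q haq (hspread q hq₀) hG X hX hsusc h x y hy r hr A w hA hrel).trans ?_
      rw [← hη, hW, ENNReal.ofReal_mul (by linarith)]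
      refine mul_le_mul_left ?_ _
      rw [hW₀, ENNReal.ofReal_add ENNReal.toReal_nonneg zero_le_one, ENNReal.ofReal_toReal hC]
      exact le_self_add
    have hRB0 : f.RootBound q R 0 (ENNReal.ofReal W) :=
      fun h x y hy r hr => hRB h x y hy r (hr.trans (Nat.zero_le M))
    have hU1 : 1 ≤ C₂ * W ^ β :=
      one_le_mul_of_one_le_of_one_le hC₂ (Real.one_le_rpow hW1 hβ)
    obtain ⟨t, ht1, ht2, hb⟩ := hcore₄ q haq _ hU1
      (hsum R q haq hqc W hW1 hRB0 (hself q _ hRB))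
    refine ⟨t, ht1, ht2, fun P x => (hb P x).trans (ENNReal.ofReal_le_ofReal ?_)⟩
    rw [hW, Real.mul_rpow (by linarith) (by positivity), ← mul_assoc C₂, mul_pow, ← mul_assoc C₄,
      ← Real.rpow_mul (by linarith), ← Real.rpow_natCast (X ^ (η * β)) 4,
      ← Real.rpow_mul (by linarith)]
    refine mul_le_mul_of_nonneg_left (Real.rpow_le_rpow_of_exponent_le hX ?_) (by positivity)
    exact_mod_cast hηle
  set C₅ : ℝ := C₄ * (C₂ * W₀ ^ β) ^ 4
  have hC₅ : 0 ≤ C₅ := by positivity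
  have hreal : ∀ (q : unitInterval) (t M' : ℝ), 1 < t → 0 ≤ M' →
      (∀ (P : τ) (x : V), ∑' y, perc V q (conn f.H x y) *
        ENNReal.ofReal (t ^ (f.ht P y - f.ht P x)) ≤ ENNReal.ofReal M') →
      TiltLe f.H f.ht q t M' := by
    intro q t M' ht hM h P x T
    have ht0 : 0 < t := by linarith
    rw [← ENNReal.ofReal_le_ofReal_iff hM,
      ENNReal.ofReal_sum_of_nonneg fun y _ => mul_nonneg measureReal_nonneg (by positivity)]
    refine le_trans (le_of_eq (Finset.sum_congr rfl fun y _ => ?_))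
      ((ENNReal.sum_le_tsum T).trans (h P x))
    rw [ENNReal.ofReal_mul measureReal_nonneg, measureReal_def,
      ENNReal.ofReal_toReal (measure_ne_top _ _)]
  have hmin : ∀ q : unitInterval, (q : ℝ) < pc f.H → ∃ X₀ : ℝ, 1 ≤ X₀ ∧ SuscLe f.H q X₀ ∧
      ∀ X : ℝ, 1 ≤ X → SuscLe f.H q X → X₀ ≤ X := by
    intro q hqc
    obtain ⟨X', hX', hs', -⟩ := f.susc_finite hqc
    have hne : {X : ℝ | 1 ≤ X ∧ SuscLe f.H q X}.Nonempty := ⟨X', hX', hs'⟩
    exact ⟨_, le_csInf hne fun X h => h.1, fun x U => le_csInf hne fun X h => h.2 x U,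
      fun X h1 h2 => csInf_le ⟨1, fun X h => h.1⟩ ⟨h1, h2⟩⟩
  have hq₀ := S.q₀_lt
  have hpc1 : max (S.q₀ : ℝ) a < pc f.H := max_lt hq₀ (by linarith [f.pc_pos])
  set q₁ : unitInterval := max S.q₀ ⟨a, ha.le, by
    have h1 : pc f.H ≤ 1 := csInf_le
      ⟨0, by rintro x (rfl | ⟨p, -, rfl⟩); exacts [zero_le_one, p.2.1]⟩ (Set.mem_insert _ _)
    linarith⟩ with hq₁
  have hq₁v : (q₁ : ℝ) = max (S.q₀ : ℝ) a := by
    rw [hq₁]; rcases _root_.le_total (S.q₀ : ℝ) a with h | h <;> simp [max_def, ← Subtype.coe_le_coe, h]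
  obtain ⟨X₁, hX₁, hsusc₁, -⟩ := hmin q₁ (hq₁v ▸ hpc1)
  obtain ⟨t₁, ht₁, ht₁', hb₁⟩ := hcore q₁ (hq₁v ▸ le_max_left _ _) (hq₁v ▸ le_max_right _ _)
    (hq₁v ▸ hpc1) X₁ hX₁ hsusc₁
  set M₁ : ℝ := C₅ * X₁ ^ (1 / 4 : ℝ)
  have hM₁ : 0 ≤ M₁ := mul_nonneg hC₅ (Real.rpow_nonneg (by linarith) _)
  refine ⟨C₅ + M₁, by linarith, fun q hq hqc => ?_⟩
  rcases le_or_gt (q₁ : ℝ) q with h | h
  · rw [hq₁v, max_le_iff] at h
    obtain ⟨X₀, hX₀, hs₀, hle₀⟩ := hmin q hqc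
    obtain ⟨t, ht, ht', hb⟩ := hcore q h.1 h.2 hqc X₀ hX₀ hs₀
    refine ⟨t, ht, ht', fun X hX hle => hreal q t _ ht (by positivity) fun P x =>
      (hb P x).trans (ENNReal.ofReal_le_ofReal ?_)⟩
    exact mul_le_mul (le_add_of_nonneg_right hM₁)
      (Real.rpow_le_rpow (by linarith) (hle₀ X hX hle) (by norm_num))
      (Real.rpow_nonneg (by linarith) _) (by linarith)
  · refine ⟨t₁, ht₁, ht₁', fun X hX _ => hreal q t₁ _ ht₁ (by positivity) fun P x =>
      le_trans ((ENNReal.tsum_le_tsum fun y => mul_le_mul_left (perc_conn_mono h.le x y) _).trans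
        (hb₁ P x)) (ENNReal.ofReal_le_ofReal ?_)⟩
    exact (le_add_of_nonneg_left hC₅).trans
      (le_mul_of_one_le_right (by linarith) (Real.one_le_rpow hX (by norm_num)))

end Vale.Agent.P165.TreeAct
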