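import Mathlib
import Vale.Agent.P165.TreeAct.Collapse
import Vale.Agent.P165.Large.Tree

/-!
The Cayley tree of the free group on two letters as a tree with a branched action of every group
mapping onto the free group.
-/

namespace Vale.Agent.P165.TreeAct

open SimpleGraph
open Large (F2 Letter letter linv)

/-- The Cayley tree of the free group on two letters. -/
def f2Tree : SimpleGraph F2 where
  Adj u v := ∃ l : Letter, v = u * letter l
  symm := ⟨fun u _ ⟨l, h⟩ => ⟨linv l, by rw [h, mul_assoc, Large.letter_mul_letter_linv, mul_one]⟩⟩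
  loopless := ⟨fun u ⟨l, h⟩ => by
    have h1 : letter l = 1 := mul_eq_left.1 h.symm
    simpa [Large.letter_toWord] using congrArg FreeGroup.toWord h1⟩

lemma toWord_cons {l : Letter} {u : F2} (h : u.toWord.head? ≠ some (linv l)) :
    (letter l * u).toWord = l :: u.toWord := by
  have hr : FreeGroup.IsReduced ([l] ++ u.toWord) := by
    refine Large.isReduced_append.2 ⟨FreeGroup.IsReduced.singleton, FreeGroup.isReduced_toWord, ?_⟩
    intro a ha b hb e
    simp only [List.getLast?_singleton, Option.mem_def, Option.some.injEq] at ha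
    subst ha
    exact h (by rw [Option.mem_def.1 hb, e, Large.linv_linv])
  conv_lhs => rw [letter, ← FreeGroup.mk_toWord (x := u), FreeGroup.mul_mk]
  exact Large.toWord_mk_of_reduced hr

lemma head_letter_mul (l : Letter) (u : F2) :
    (letter l * u).toWord.head? = some l ↔ u.toWord.head? ≠ some (linv l) := by
  refine ⟨fun h e => ?_, fun h => by rw [toWord_cons h]; rfl⟩
  cases hw : u.toWord with
  | nil => simp [hw] at e
  | cons a w =>
    rw [hw] at e
    simp only [List.head?_cons, Option.some.injEq] at e
    subst e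
    have hr : FreeGroup.IsReduced ([linv l] ++ w) := by
      have := FreeGroup.isReduced_toWord (x := u)
      rwa [hw] at this
    obtain ⟨-, hw', hj⟩ := Large.isReduced_append.1 hr
    have hu : letter l * u = FreeGroup.mk w := by
      rw [← FreeGroup.mk_toWord (x := u), hw, show (linv l :: w) = [linv l] ++ w from rfl,
        ← FreeGroup.mul_mk, ← mul_assoc]
      exact (congrArg (· * FreeGroup.mk w) (Large.letter_mul_letter_linv l)).trans (one_mul _)
    rw [hu, Large.toWord_mk_of_reduced hw'] at h
    exact hj (linv l) (by simp) l h rfl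

lemma head_mul_letter {u : F2} {m l : Letter} (hu : u ≠ 1) (hum : u ≠ letter (linv m)) :
    (u * letter m).toWord.head? = some l ↔ u.toWord.head? = some l := by
  cases hw : u.toWord with
  | nil => exact absurd (FreeGroup.toWord_eq_nil_iff.1 hw) hu
  | cons a w =>
    have hr := FreeGroup.isReduced_toWord (x := u)
    rw [hw] at hr
    have hu' : u = FreeGroup.mk (a :: w) := by rw [← hw, FreeGroup.mk_toWord]
    rcases w.eq_nil_or_concat' with rfl | ⟨w', c, rfl⟩
    · have hr' : FreeGroup.IsReduced [a, m] := by
        rw [show [a, m] = [a] ++ [m] from rfl, Large.isReduced_append]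
        refine ⟨FreeGroup.IsReduced.singleton, FreeGroup.IsReduced.singleton, fun x hx y hy e => ?_⟩
        simp only [List.getLast?_singleton, List.head?_cons, Option.mem_def,
          Option.some.injEq] at hx hy
        subst hx hy
        exact hum (by rw [hu', e]; rfl)
      rw [hu', letter, FreeGroup.mul_mk,
        show [a] ++ [m] = [a, m] from rfl, Large.toWord_mk_of_reduced hr']
      simp
    · by_cases hc : c = linv m
      · subst hc
        have e : u * letter m = FreeGroup.mk (a :: w') := by
          rw [hu', show a :: (w' ++ [linv m]) = (a :: w') ++ [linv m] from rfl, ← FreeGroup.mul_mk,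
            mul_assoc]
          conv_rhs => rw [← mul_one (FreeGroup.mk (a :: w'))]
          congr 1
          have := Large.letter_mul_letter_linv (linv m)
          rwa [Large.linv_linv] at this
        have hr' : FreeGroup.IsReduced (a :: w') :=
          (Large.isReduced_concat.1 (show FreeGroup.IsReduced ((a :: w') ++ [linv m]) from hr)).1
        rw [e, Large.toWord_mk_of_reduced hr']
        simp
      · have hr' : FreeGroup.IsReduced ((a :: (w' ++ [c])) ++ [m]) := by
          refine Large.isReduced_concat.2 ⟨hr, ?_⟩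
          rw [show a :: (w' ++ [c]) = (a :: w') ++ [c] from rfl, List.getLast?_concat]
          simpa using hc
        rw [hu', letter, FreeGroup.mul_mk, Large.toWord_mk_of_reduced hr']
        simp

/-- A half-tree is not left except through its edge. -/
lemma head_const {g u v : F2} {l : Letter}
    (hd : (f2Tree.deleteEdges {s(g, g * letter l)}).Reachable u v) :
    (g⁻¹ * u).toWord.head? = some l ↔ (g⁻¹ * v).toWord.head? = some l := by
  obtain ⟨w⟩ := hd
  induction w with
  | nil => rfl
  | @cons z z' _ e _ ih =>
    refine Iff.trans ?_ ih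
    obtain ⟨⟨m, hm⟩, hne⟩ := deleteEdges_adj.1 e
    subst hm
    rw [← mul_assoc]
    by_cases h1 : g⁻¹ * z = 1
    · have hz : g = z := inv_mul_eq_one.1 h1
      subst hz
      have hml : m ≠ l := by
        rintro rfl
        exact hne rfl
      simp [Large.letter_toWord, hml]
    by_cases h2 : g⁻¹ * z = letter (linv m)
    · rw [h2]
      have hz : z = g * letter (linv m) := inv_mul_eq_iff_eq_mul.1 h2
      have hml : linv m ≠ l := by
        rintro rfl
        refine hne (Set.mem_singleton_iff.2 ?_)
        rw [hz, mul_assoc]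
        have := Large.letter_mul_letter_linv (linv m)
        rw [Large.linv_linv] at this
        rw [this, mul_one, Sym2.eq_swap]
      have := Large.letter_mul_letter_linv (linv m)
      rw [Large.linv_linv] at this
      rw [this]
      simp [Large.letter_toWord, hml]
    exact (head_mul_letter h1 h2).symm

lemma f2Tree_isTree : f2Tree.IsTree := by
  refine ⟨⟨fun u v => ?_⟩, isAcyclic_iff_forall_adj_isBridge.2 fun u v ⟨l, hl⟩ => ?_⟩
  · suffices ∀ w : List Letter, ∀ u : F2, f2Tree.Reachable u (u * FreeGroup.mk w) by
      have := this (u⁻¹ * v).toWord u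
      rwa [FreeGroup.mk_toWord, mul_inv_cancel_left] at this
    intro w
    induction w with
    | nil => intro u; simp [← FreeGroup.one_eq_mk]
    | cons a w ih =>
      intro u
      rw [show a :: w = [a] ++ w from rfl, ← FreeGroup.mul_mk, ← mul_assoc]
      exact (Adj.reachable (show f2Tree.Adj u (u * letter a) from ⟨a, rfl⟩)).trans (ih _)
  · subst hl
    refine isBridge_iff.2 fun h => ?_
    have := (head_const h).2
    simp [Large.letter_toWord] at this

lemma sideOf_f2Tree (l : Letter) :
    sideOf f2Tree 1 (letter l) = {u | u.toWord.head? = some l} := by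
  have hadj : f2Tree.Adj 1 (letter l) := ⟨l, (one_mul _).symm⟩
  have cst : ∀ {u v : F2}, (f2Tree.deleteEdges {s((1 : F2), letter l)}).Reachable u v →
      (u.toWord.head? = some l ↔ v.toWord.head? = some l) := fun {u v} h => by
    simpa using head_const (g := 1) (l := l) (u := u) (v := v) (by rwa [one_mul])
  ext u
  rw [mem_sideOf f2Tree_isTree hadj]
  refine ⟨fun h => (cst h).2 (by simp [Large.letter_toWord]), fun h => ?_⟩
  refine (split_reach f2Tree_isTree hadj u).1.resolve_left fun h' => ?_
  have := (cst h').1 h
  simp at this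

/-- The action of a group mapping onto the free group on the tree of the free group is branched. -/
theorem f2_branched {Γ : Type} [Group Γ] (π : Γ →* FreeGroup (Fin 2)) (hπ : Function.Surjective π) :
    ∃ (T : SimpleGraph (FreeGroup (Fin 2))) (_ : MulAction Γ (FreeGroup (Fin 2))),
      T.IsTree ∧ (∀ (g : Γ) x y, T.Adj x y → T.Adj (g • x) (g • y)) ∧
      ∃ (a b : FreeGroup (Fin 2)) (g₁ g₂ g₃ : Γ), T.Adj a b ∧
        (fun x : FreeGroup (Fin 2) => g₁ • x) '' sideOf T a b ⊂ sideOf T a b ∧
        (fun x : FreeGroup (Fin 2) => g₂ • x) '' sideOf T a b ⊂ sideOf T a b ∧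
        Disjoint ((fun x : FreeGroup (Fin 2) => g₁ • x) '' sideOf T a b)
          ((fun x : FreeGroup (Fin 2) => g₂ • x) '' sideOf T a b) ∧
        (fun x : FreeGroup (Fin 2) => g₃ • x) '' (sideOf T a b)ᶜ ⊂ sideOf T a b := by
  let act : MulAction Γ (FreeGroup (Fin 2)) := MulAction.compHom _ π
  have hsmul : ∀ (g : Γ) (u : FreeGroup (Fin 2)), g • u = π g * u := fun g u => rfl
  let X : Letter := (0, true)
  let Y : Letter := (1, true)
  obtain ⟨g₁, h₁⟩ := hπ (letter X)
  obtain ⟨g₂, h₂⟩ := hπ (letter X * letter Y)
  obtain ⟨g₃, h₃⟩ := hπ (letter X * (letter Y * letter (linv X)))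
  refine ⟨f2Tree, act, f2Tree_isTree, ?_, 1, letter X, g₁, g₂, g₃, ⟨X, (one_mul _).symm⟩, ?_⟩
  · rintro g x y ⟨l, rfl⟩
    exact ⟨l, by rw [hsmul, hsmul, mul_assoc]⟩
  rw [sideOf_f2Tree]
  set S : Set F2 := {u | u.toWord.head? = some X} with hS
  have mem : ∀ u, u ∈ S ↔ u.toWord.head? = some X := fun u => Iff.rfl
  have w1 : ∀ u ∈ S, (g₁ • u).toWord = X :: u.toWord := fun u hu => by
    rw [hsmul, h₁]
    exact toWord_cons (by rw [(mem u).1 hu]; decide)
  have w2 : ∀ u ∈ S, (g₂ • u).toWord = X :: Y :: u.toWord := fun u hu => by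
    have hY : (letter Y * u).toWord = Y :: u.toWord := toWord_cons (by rw [(mem u).1 hu]; decide)
    rw [hsmul, h₂, mul_assoc, toWord_cons (by rw [hY]; simp [X, Y, linv]), hY]
  have w3 : ∀ u ∉ S, (g₃ • u).toWord = X :: Y :: linv X :: u.toWord := fun u hu => by
    have hX : (letter (linv X) * u).toWord = linv X :: u.toWord :=
      toWord_cons (by rw [Large.linv_linv]; exact hu)
    have hY : (letter Y * (letter (linv X) * u)).toWord = Y :: linv X :: u.toWord := by
      rw [toWord_cons (by rw [hX]; simp [X, Y, linv]), hX]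
    rw [hsmul, h₃, mul_assoc, mul_assoc, toWord_cons (by rw [hY]; simp [X, Y, linv]), hY]
  have hX1 : letter X ∈ S := by rw [mem, Large.letter_toWord]; rfl
  refine ⟨⟨?_, fun h => ?_⟩, ⟨?_, fun h => ?_⟩, ?_, ⟨?_, fun h => ?_⟩⟩
  · rintro _ ⟨u, hu, rfl⟩
    rw [mem]; dsimp only; rw [w1 u hu]; rfl
  · obtain ⟨u, hu, e⟩ := h hX1
    have := congrArg FreeGroup.toWord e
    dsimp only at this
    rw [w1 u hu, Large.letter_toWord, List.cons.injEq] at this
    rw [mem, this.2] at hu
    simp at hu
  · rintro _ ⟨u, hu, rfl⟩
    rw [mem]; dsimp only; rw [w2 u hu]; rfl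
  · obtain ⟨u, hu, e⟩ := h hX1
    have := congrArg FreeGroup.toWord e
    dsimp only at this
    rw [w2 u hu, Large.letter_toWord] at this
    simp at this
  · refine Set.disjoint_left.2 ?_
    rintro _ ⟨u, hu, rfl⟩ ⟨v, hv, e⟩
    have := congrArg FreeGroup.toWord e
    dsimp only at this
    rw [w1 u hu, w2 v hv, List.cons.injEq] at this
    rw [mem, ← this.2, List.head?_cons, Option.some.injEq] at hu
    exact absurd hu (by decide)
  · rintro _ ⟨u, hu, rfl⟩
    rw [mem]; dsimp only; rw [w3 u hu]; rfl
  · obtain ⟨u, hu, e⟩ := h hX1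
    have := congrArg FreeGroup.toWord e
    dsimp only at this
    rw [w3 u hu, Large.letter_toWord] at this
    simp at this

end Vale.Agent.P165.TreeAct
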