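import Mathlib
import Vale.Agent.P165.TreeAct.Bounds
import Vale.Agent.P165.TreeAct.Transport
import Vale.Agent.P165.TreeAct.Rest

/-!
The radially tilted susceptibility: connections are split along the levels of a chain, and beyond
a split the tilted sums from the port of the half-tree avoided are turned by mass transport into
sums of port counts over levels around the orbit representatives.
-/

namespace Vale.Agent.P165.TreeAct

open MeasureTheory SimpleGraph
open scoped ENNReal

variable {V τ Γ : Type} [Group Γ] [MulAction Γ V] [MulAction Γ τ] (f : Frame V τ Γ)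

open Classical in
/-- Summed over the half-trees with port vertex `x` avoided by a connection to `y`: the connection,
weighted by the distance from the half-tree to `y`. -/
noncomputable def Frame.mass (q : unitInterval) (θ : ℝ≥0∞) (x y : V) : ℝ≥0∞ :=
  ∑' k : Half f.T, if x ∈ f.port k ∧ f.pr y ∉ k.side then
    perc V q (conn (f.avoid k) x y) * θ ^ f.T.dist k.fst (f.pr y) else 0

/-- Translation of half-trees as a permutation. -/
def Frame.smEquiv (g : Γ) : Half f.T ≃ Half f.T where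
  toFun := f.sm g
  invFun := f.sm g⁻¹
  left_inv := f.sm_inv_sm g
  right_inv := f.sm_sm_inv g

lemma Frame.mass_smul (q : unitInterval) (θ : ℝ≥0∞) (g : Γ) (x y : V) :
    f.mass q θ (g • x) (g • y) = f.mass q θ x y := by
  classical
  rw [Frame.mass, Frame.mass, ← (f.smEquiv g).tsum_eq]
  refine tsum_congr fun k => ?_
  simp only [Frame.smEquiv, Equiv.coe_fn_mk, f.port_smul, f.pr_mem_sm, f.dist_sm,
    f.perc_conn_smul g x y (f.avoid_smul g k)]

/-- The half-trees around a point at one depth form a code, so the masses into it are summable. -/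
lemma Frame.mass_into {q : unitInterval} {R : ℕ} {U : ℝ≥0∞} (hU : f.CodeBound q R U)
    (θ : ℝ≥0∞) (o : V) : ∑' v, f.mass q θ v o ≤ U * (1 - θ)⁻¹ := by
  classical
  have hrow : ∀ k : Half f.T, ∑' v, (if v ∈ f.port k ∧ f.pr o ∉ k.side then
      perc V q (conn (f.avoid k) v o) * θ ^ f.T.dist k.fst (f.pr o) else 0) =
      if f.pr o ∉ k.side then f.Y q o k * θ ^ f.T.dist k.fst (f.pr o) else 0 := by
    intro k
    by_cases hk : f.pr o ∉ k.side
    swap
    · simp [hk]
    simp only [hk, and_true, if_true, not_false_eq_true]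
    rw [Frame.Y, ← ENNReal.tsum_mul_right]
    simp only [perc_conn_symm (f.avoid k) o]
    rw [tsum_subtype (f.port k) fun v => perc V q (conn (f.avoid k) v o) *
      θ ^ f.T.dist k.fst (f.pr o)]
    exact tsum_congr fun v => by rw [Set.indicator_apply]
  simp only [Frame.mass]
  rw [ENNReal.tsum_comm, tsum_congr hrow, ← ENNReal.tsum_geometric, ← ENNReal.tsum_mul_left,
    ENNReal.tsum_eq_iSup_sum]
  refine iSup_le fun S => le_trans ?_
    (ENNReal.sum_le_tsum (S.image fun k => f.T.dist k.fst (f.pr o)))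
  rw [← Finset.sum_filter, ← Finset.sum_fiberwise_of_maps_to
    (t := S.image fun k => f.T.dist k.fst (f.pr o)) (g := fun k => f.T.dist k.fst (f.pr o))
    fun k hk => Finset.mem_image_of_mem _ (Finset.mem_filter.1 hk).1]
  refine Finset.sum_le_sum fun d _ => ?_
  refine le_trans (le_of_eq ?_) (mul_le_mul_left (hU o ((S.filter fun k => f.pr o ∉ k.side).filter
    fun k => f.T.dist k.fst (f.pr o) = d) (fun _ => f.pr o) (fun k hk k' hk' hne => ?_)
    fun k hk => (Finset.mem_filter.1 (Finset.mem_filter.1 hk).1).2) (θ ^ d))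
  · rw [Finset.sum_mul]
    exact Finset.sum_congr rfl fun k hk => by rw [(Finset.mem_filter.1 hk).2]
  · simp only [Finset.mem_filter] at hk hk'
    refine Or.inl (Or.inl (Set.disjoint_left.2 fun x hx hx' => hne ?_))
    refine Half.eq_of_dist_eq f.tree hx hx' hk.1.2 hk'.1.2 ?_
    rw [f.T.dist_comm (v := k.fst), f.T.dist_comm (v := k'.fst), hk.2, hk'.2]

/-- Connections avoiding the side of a half-tree stay out of it. -/
lemma Frame.perc_avoidSide_eq_zero {q : unitInterval} {k : Half f.T} {v y : V}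
    (hv : f.pr v ∉ k.side) (hy : f.pr y ∈ k.side) :
    perc V q (conn (f.avoidSide k) v y) = 0 := by
  rw [show conn (f.avoidSide k) v y = ∅ from Set.eq_empty_of_forall_notMem fun ω hω => ?_,
    measure_empty]
  have key : ∀ {a b : V} (p : (openGraph (f.avoidSide k) ω).Walk a b),
      f.pr a ∉ k.side → f.pr b ∉ k.side := by
    intro a b p
    induction p with
    | nil => exact id
    | cons h _ ih => exact fun _ => ih h.1.2.2
  obtain ⟨p⟩ := hω
  exact key p hv hy

/-- Tilted powers: a triangle inequality for the exponents. -/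
lemma tilt_le {tt θ : ℝ≥0∞} (htt : tt * θ = 1) (hθ : θ ≤ 1) {m n d : ℕ} (h : m ≤ n + d) :
    θ ^ d ≤ tt ^ n * θ ^ m :=
  calc θ ^ d = tt ^ n * θ ^ (n + d) := by
        rw [pow_add, ← mul_assoc, ← mul_pow, htt, one_pow, one_mul]
    _ ≤ tt ^ n * θ ^ m := mul_le_mul_right (pow_le_pow_right_of_le_one' hθ h) _

/-- Beyond a half-tree near `v` the tilted connections are bounded by the mass out of its port. -/
lemma Frame.avoid_tilt_le {q : unitInterval} {a : ℝ} (ha : 0 < a) (haq : a ≤ q)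
    {tt θ : ℝ≥0∞} (htt : tt * θ = 1) (hθ : θ ≤ 1) {k : Half f.T} {v y' : V}
    (hy' : y' ∈ f.port k) (hv : f.pr v ∉ k.side) {M D : ℕ} (r : (f.avoid k).Walk v y')
    (hr : r.length ≤ M) (hD : f.T.dist (f.pr v) k.fst ≤ D) :
    ∑' y, perc V q (conn (f.avoidSide k) v y) * θ ^ f.T.dist (f.pr v) (f.pr y) ≤
      (ENNReal.ofReal (a ^ M))⁻¹ * tt ^ D * ∑' y, f.mass q θ y' y := by
  classical
  have := f.countable
  rw [← ENNReal.tsum_mul_left]
  refine ENNReal.tsum_le_tsum fun y => ?_
  by_cases hy : f.pr y ∈ k.side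
  · rw [f.perc_avoidSide_eq_zero hv hy, zero_mul]
    exact zero_le
  have hA0 : ENNReal.ofReal (a ^ M) ≠ 0 := by simpa using pow_pos ha M
  have hτ : perc V q (conn (f.avoidSide k) v y) ≤
      (ENNReal.ofReal (a ^ M))⁻¹ * perc V q (conn (f.avoid k) y' y) := by
    refine (perc_conn_le (f.avoidSide_le_avoid k) v y).trans ?_
    calc perc V q (conn (f.avoid k) v y)
        = (ENNReal.ofReal (a ^ M))⁻¹ *
          (ENNReal.ofReal (a ^ M) * perc V q (conn (f.avoid k) v y)) := by
          rw [← mul_assoc, ENNReal.inv_mul_cancel hA0 ENNReal.ofReal_ne_top, one_mul]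
      _ ≤ _ := mul_le_mul_right
          (walk_conn r.reverse ha.le haq (by rwa [Walk.length_reverse]) y) _
  have htri : f.T.dist k.fst (f.pr y) ≤ D + f.T.dist (f.pr v) (f.pr y) :=
    (f.tree.connected.dist_triangle (v := f.pr v)).trans
      (Nat.add_le_add_right (by rwa [f.T.dist_comm]) _)
  calc perc V q (conn (f.avoidSide k) v y) * θ ^ f.T.dist (f.pr v) (f.pr y)
      ≤ (ENNReal.ofReal (a ^ M))⁻¹ * perc V q (conn (f.avoid k) y' y) *
        (tt ^ D * θ ^ f.T.dist k.fst (f.pr y)) := mul_le_mul' hτ (tilt_le htt hθ htri)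
    _ = (ENNReal.ofReal (a ^ M))⁻¹ * tt ^ D *
        (perc V q (conn (f.avoid k) y' y) * θ ^ f.T.dist k.fst (f.pr y)) := by ring
    _ ≤ _ := by
        refine mul_le_mul_right ?_ _
        rw [Frame.mass]
        refine le_trans (le_of_eq ?_) (ENNReal.le_tsum k)
        rw [if_pos ⟨hy', hy⟩]

/-- With bounded code sums the radially tilted susceptibility is bounded. -/
theorem Frame.radial {a : ℝ} (ha : 0 < a) (Cn : Chain f) :
    ∃ t₀ : ℝ, 1 < t₀ ∧ ∃ C : ℝ≥0∞, C ≠ ⊤ ∧
      ∀ q : unitInterval, a ≤ q → ∀ (R : ℕ) (U : ℝ≥0∞), 1 ≤ U → f.CodeBound q R U →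
        ∀ t : ℝ, 1 < t → t ≤ t₀ → ∀ z : V,
          ∑' y, perc V q (conn f.H z y) * ENNReal.ofReal (t⁻¹ ^ f.T.dist (f.pr z) (f.pr y)) ≤
            C * U * U * (1 - ENNReal.ofReal t⁻¹)⁻¹ := by
  classical
  obtain ⟨CT, hCT⟩ := f.transport
  set t₀ : ℝ := (3 / 2 : ℝ) ^ ((↑(Cn.Δ + 1) : ℝ)⁻¹) with ht₀
  have ht₀1 : 1 < t₀ := Real.one_lt_rpow (by norm_num) (by positivity)
  set T₀ := ENNReal.ofReal t₀
  set D := Cn.M + f.L
  set G := (ENNReal.ofReal (a ^ Cn.M))⁻¹ * T₀ ^ D * ((CT : ℝ≥0∞) * f.O.card)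
  refine ⟨t₀, ht₀1, G * (1 + 8 * T₀ ^ D), ?_, fun q haq R U hU1 hU t ht htt₀ z => ?_⟩
  · have h0 : ENNReal.ofReal (a ^ Cn.M) ≠ 0 := by simpa using pow_pos ha Cn.M
    have hT : ∀ n, T₀ ^ n ≠ ⊤ := fun n => ENNReal.pow_ne_top ENNReal.ofReal_ne_top
    exact ENNReal.mul_ne_top (ENNReal.mul_ne_top (ENNReal.mul_ne_top (ENNReal.inv_ne_top.2 h0)
      (hT _)) (ENNReal.mul_ne_top (ENNReal.natCast_ne_top _) (ENNReal.natCast_ne_top _)))
      (ENNReal.add_ne_top.2 ⟨ENNReal.one_ne_top, ENNReal.mul_ne_top (by simp) (hT _)⟩)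
  have ht0 : 0 < t := one_pos.trans ht
  set θ := ENNReal.ofReal t⁻¹ with hθdef
  set tt := ENNReal.ofReal t with httdef
  have htt : tt * θ = 1 := by
    rw [hθdef, httdef, ← ENNReal.ofReal_mul ht0.le, mul_inv_cancel₀ ht0.ne', ENNReal.ofReal_one]
  have hθ : θ ≤ 1 := ENNReal.ofReal_le_one.2 (inv_le_one_of_one_le₀ ht.le)
  have httT : tt ≤ T₀ := ENNReal.ofReal_le_ofReal htt₀
  have hhalf : 2⁻¹ * tt ^ Cn.Δ ≤ ENNReal.ofReal (3 / 4) := by
    have h1 : t ^ Cn.Δ ≤ 3 / 2 :=
      calc t ^ Cn.Δ ≤ t₀ ^ Cn.Δ := pow_le_pow_left₀ ht0.le htt₀ _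
        _ ≤ t₀ ^ (Cn.Δ + 1) := pow_le_pow_right₀ ht₀1.le (Nat.le_succ _)
        _ = 3 / 2 := by rw [ht₀, Real.rpow_inv_natCast_pow (by norm_num) (Nat.succ_ne_zero _)]
    rw [← ENNReal.ofReal_pow ht0.le, show (2 : ℝ≥0∞)⁻¹ = ENNReal.ofReal (2⁻¹) by
      rw [ENNReal.ofReal_inv_of_pos two_pos, ENNReal.ofReal_ofNat],
      ← ENNReal.ofReal_mul (by norm_num)]
    exact ENNReal.ofReal_le_ofReal (by linarith)
  set B := U * (1 - θ)⁻¹
  have hmass : ∀ c, ∑' y, f.mass q θ c y ≤ (CT : ℝ≥0∞) * f.O.card * B := fun c => by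
    refine (hCT _ (fun g x y => f.mass_smul q θ g x y) c).trans ?_
    rw [mul_assoc]
    refine mul_le_mul_right ?_ _
    refine (Finset.sum_le_card_nsmul _ _ B fun o _ => f.mass_into hU θ o).trans ?_
    rw [nsmul_eq_mul]
  have hG : ∀ (k : Half f.T) (v y' : V), y' ∈ f.port k → f.pr v ∉ k.side →
      ∀ r : (f.avoid k).Walk v y', r.length ≤ Cn.M → f.T.dist (f.pr v) k.fst ≤ D →
      ∑' y, perc V q (conn (f.H ⊓ f.avoidSide k) v y) * θ ^ f.T.dist (f.pr v) (f.pr y) ≤ G * B := by
    intro k v y' hy' hv r hr hd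
    rw [inf_eq_right.2 (f.avoidSide_le k)]
    refine (f.avoid_tilt_le ha haq htt hθ hy' hv r hr hd).trans ?_
    refine (mul_le_mul' (mul_le_mul_right (pow_le_pow_left' httT D) _) (hmass y')).trans (le_of_eq ?_)
    simp only [G]
    ring
  set hsum : ℝ≥0∞ := ∑' y, (∑ k ∈ Cn.head 0 z, perc V q (conn (f.H ⊓ f.avoidSide k) z y)) *
    θ ^ f.T.dist (f.pr z) (f.pr y) with hhsum
  have hhead : hsum ≤ G * B := by
    simp only [hhsum, Finset.sum_mul]
    rw [Summable.tsum_finsetSum fun k _ => ENNReal.summable]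
    refine (Finset.sum_le_card_nsmul _ _ (G * B) fun k hk => ?_).trans ?_
    · obtain ⟨h1, h2, y', hy', r, hr⟩ := Cn.head_prop 0 z k hk
      exact hG k z y' hy' h1 r (by simpa using hr) (by
        simp only [Nat.zero_add, mul_one] at h2
        omega)
    · rw [nsmul_eq_mul]
      refine mul_le_of_le_one_left' ?_
      exact_mod_cast Cn.card_head 0 z
  have hlev : ∀ j : ℕ, ∑' y, ((2⁻¹ : ℝ≥0∞) ^ (0 + j) *
      ∑' N : Cn.Lev 0 z j, ∑' v : f.port (N : Half f.T),
        perc V q (conn (f.avoid (N : Half f.T)) z v) *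
          ∑ l : Fin 2, perc V q (conn (f.H ⊓ f.avoidSide (Cn.deep N v l)) v y)) *
        θ ^ f.T.dist (f.pr z) (f.pr y) ≤
      ENNReal.ofReal (3 / 4) ^ j * (T₀ ^ D * (2 * (G * B)) * U) := by
    intro j
    conv_lhs => simp only [Nat.zero_add, mul_assoc, ← ENNReal.tsum_mul_right]
    rw [ENNReal.tsum_mul_left, ENNReal.tsum_comm]
    calc (2⁻¹ : ℝ≥0∞) ^ j * ∑' N : Cn.Lev 0 z j, ∑' y, ∑' v : f.port (N : Half f.T),
          perc V q (conn (f.avoid (N : Half f.T)) z v) *
            ((∑ l : Fin 2, perc V q (conn (f.H ⊓ f.avoidSide (Cn.deep N v l)) v y)) *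
              θ ^ f.T.dist (f.pr z) (f.pr y))
        ≤ (2⁻¹ : ℝ≥0∞) ^ j * ∑' N : Cn.Lev 0 z j, ∑' v : f.port (N : Half f.T),
          perc V q (conn (f.avoid (N : Half f.T)) z v) *
            (tt ^ (Cn.Δ * j + D) * (2 * (G * B))) := by
          refine mul_le_mul_right (ENNReal.tsum_le_tsum fun N => ?_) _
          rw [ENNReal.tsum_comm]
          refine ENNReal.tsum_le_tsum fun v => ?_
          rw [ENNReal.tsum_mul_left]
          refine mul_le_mul_right ?_ _
          have hdv : f.T.dist (f.pr z) (f.pr (v : V)) ≤ Cn.Δ * j + D := by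
            have h1 := (Cn.lev_prop 0 z j _ N.2).2
            have h2 := f.port_dist v.2
            have h3 := f.tree.connected.dist_triangle (u := f.pr z) (v := (N : Half f.T).fst)
              (w := f.pr (v : V))
            simp only [Nat.zero_add] at h1
            omega
          calc ∑' y, (∑ l : Fin 2, perc V q (conn (f.H ⊓ f.avoidSide (Cn.deep N v l)) v y)) *
                θ ^ f.T.dist (f.pr z) (f.pr y)
              ≤ ∑' y, tt ^ (Cn.Δ * j + D) * ∑ l : Fin 2,
                perc V q (conn (f.H ⊓ f.avoidSide (Cn.deep N v l)) v y) *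
                  θ ^ f.T.dist (f.pr (v : V)) (f.pr y) := by
                refine ENNReal.tsum_le_tsum fun y => ?_
                rw [← Finset.sum_mul, mul_left_comm]
                refine mul_le_mul_right (tilt_le htt hθ ?_) _
                have := f.tree.connected.dist_triangle (u := f.pr (v : V)) (v := f.pr z) (w := f.pr y)
                rw [f.T.dist_comm (u := f.pr (v : V)) (v := f.pr z)] at this
                omega
            _ ≤ _ := by
                rw [ENNReal.tsum_mul_left, Summable.tsum_finsetSum fun l _ => ENNReal.summable]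
                refine mul_le_mul_right ((Finset.sum_le_card_nsmul _ _ (G * B) fun l _ => ?_).trans
                  (by simp)) _
                obtain ⟨h1, h2, y', hy', r, hr⟩ := Cn.deep_prop 0 z j _ N.2 _ v.2 l
                refine hG _ _ y' hy' h1 r hr ?_
                have h3 := f.port_dist v.2
                have h4 := f.tree.connected.dist_triangle (u := f.pr (v : V))
                  (v := (N : Half f.T).fst) (w := (Cn.deep N v l).fst)
                rw [f.T.dist_comm (u := f.pr (v : V)) (v := (N : Half f.T).fst)] at h4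
                omega
      _ = (2⁻¹ : ℝ≥0∞) ^ j * tt ^ (Cn.Δ * j + D) * (2 * (G * B)) *
          ∑' N : Cn.Lev 0 z j, f.Y q z N := by
          simp only [ENNReal.tsum_mul_right, Frame.Y]
          ring
      _ ≤ (2⁻¹ : ℝ≥0∞) ^ j * tt ^ (Cn.Δ * j + D) * (2 * (G * B)) * U := by
          refine mul_le_mul_right ?_ _
          rw [ENNReal.tsum_eq_iSup_sum]
          refine iSup_le fun S => le_trans (le_of_eq (Finset.sum_map S (.subtype _)
            (fun N => f.Y q z N)).symm) (hU z _ (fun _ => f.pr z) (fun N hN N' hN' hne => ?_)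
            fun N hN => ?_)
          · obtain ⟨M₁, -, rfl⟩ := Finset.mem_map.1 hN
            obtain ⟨M₂, -, rfl⟩ := Finset.mem_map.1 hN'
            exact Or.inl (Or.inl (Cn.lev_code 0 z j M₁.2 M₂.2 hne))
          · obtain ⟨M₁, -, rfl⟩ := Finset.mem_map.1 hN
            exact (Cn.lev_prop 0 z j _ M₁.2).1
      _ = (2⁻¹ * tt ^ Cn.Δ) ^ j * (tt ^ D * (2 * (G * B)) * U) := by
          rw [pow_add, pow_mul, mul_pow]
          ring
      _ ≤ _ := mul_le_mul' (pow_le_pow_left' hhalf j)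
          (mul_le_mul_left (mul_le_mul_left (pow_le_pow_left' httT D) _) _)
  have hgeo : ∑' j : ℕ, ENNReal.ofReal (3 / 4) ^ j = 4 := by
    rw [ENNReal.tsum_geometric, ← ENNReal.ofReal_one, ← ENNReal.ofReal_sub _ (by norm_num),
      ← ENNReal.ofReal_inv_of_pos (by norm_num)]
    norm_num
  calc ∑' y, perc V q (conn f.H z y) * ENNReal.ofReal (t⁻¹ ^ f.T.dist (f.pr z) (f.pr y))
      ≤ ∑' y, ((∑ k ∈ Cn.head 0 z, perc V q (conn (f.H ⊓ f.avoidSide k) z y)) +
          ∑' j : ℕ, (2⁻¹ : ℝ≥0∞) ^ (0 + j) * ∑' N : Cn.Lev 0 z j, ∑' v : f.port (N : Half f.T),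
            perc V q (conn (f.avoid (N : Half f.T)) z v) *
              ∑ l : Fin 2, perc V q (conn (f.H ⊓ f.avoidSide (Cn.deep N v l)) v y)) *
          θ ^ f.T.dist (f.pr z) (f.pr y) := by
        refine ENNReal.tsum_le_tsum fun y => ?_
        rw [ENNReal.ofReal_pow (inv_nonneg.2 ht0.le)]
        refine mul_le_mul_left ((Cn.split q 0 z f.H le_rfl y).trans_eq ?_) _
        rw [pow_zero, one_mul]
    _ = hsum + ∑' j : ℕ, ∑' y, ((2⁻¹ : ℝ≥0∞) ^ (0 + j) *
          ∑' N : Cn.Lev 0 z j, ∑' v : f.port (N : Half f.T),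
          perc V q (conn (f.avoid (N : Half f.T)) z v) *
            ∑ l : Fin 2, perc V q (conn (f.H ⊓ f.avoidSide (Cn.deep N v l)) v y)) *
          θ ^ f.T.dist (f.pr z) (f.pr y) := by
        rw [tsum_congr fun y => add_mul _ _ _, ENNReal.tsum_add, ← hhsum, ENNReal.tsum_comm]
        congr 1
        exact tsum_congr fun y => ENNReal.tsum_mul_right.symm
    _ ≤ G * B + 4 * (T₀ ^ D * (2 * (G * B)) * U) := by
        refine add_le_add hhead ((ENNReal.tsum_le_tsum hlev).trans (le_of_eq ?_))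
        rw [ENNReal.tsum_mul_right, hgeo]
    _ ≤ G * B * U + 4 * (T₀ ^ D * (2 * (G * B)) * U) :=
        add_le_add (le_mul_of_one_le_right' hU1) le_rfl
    _ = _ := by
        simp only [B]
        ring

end Vale.Agent.P165.TreeAct
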