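import Mathlib
import Vale.Agent.P165.TreeAct.Bounds

/-!
The tilted susceptibility: a connection to a vertex passes the port of the last half-tree of the
ray towards the tilting point which has that vertex deep inside, and the port counts along a ray
with growing weights are bounded by a constant times the code bound.
-/

namespace Vale.Agent.P165.TreeAct

open MeasureTheory SimpleGraph
open Large (bk_split joins_singleton)
open scoped ENNReal

variable {V τ Γ : Type} [Group Γ] [MulAction Γ V] [MulAction Γ τ] (f : Frame V τ Γ)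

include f in
/-- A connection into `Vs m` splits at its first port vertex. -/
lemma Frame.conn_port_le (q : unitInterval) {m : Half f.T} {K : SimpleGraph V} (hK : K ≤ f.H)
    {x y : V} (hx : x ∉ f.Vs m) (hy : y ∈ f.Vs m) :
    perc V q (conn K x y) ≤
      ∑' z : f.port m, perc V q (conn (f.avoid m) x z) * perc V q (conn K z y) := by
  classical
  have := f.countable
  refine (bk_split (A := conn K x y) (K₁ := f.avoid m) (K₂ := K) (x := x)
    (S := f.port m) (T := {y}) fun ω hω => ?_).trans (le_of_eq ?_)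
  · obtain ⟨p, hp, hpo⟩ := exists_path_of_mem_conn hω
    obtain ⟨b, c, r, hbc, r', hc, hq, hr⟩ := cut_first (f.Vs m) p hx ⟨y, p.end_mem_support, hy⟩
    have hb : b ∉ f.Vs m := hr b r.end_mem_support
    have hedges : p.edges = r.edges ++ s(b, c) :: r'.edges := by
      rw [hq, Walk.edges_append, Walk.edges_cons]
    have hopen : ∀ e ∈ r.edges ++ s(b, c) :: r'.edges, ω e = true := fun e he =>
      hpo e (List.mem_toFinset.2 (by simpa [← hedges] using he))
    have hnd : (r.edges ++ s(b, c) :: r'.edges).Nodup := by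
      rw [← hedges]; exact hp.isTrail.edges_nodup
    refine ⟨c, ⟨hc, b, (hK hbc).symm, hb⟩, y, rfl, (r.concat hbc).transfer _ (fun e he => ?_),
      r', fun e he => ?_, fun e he => hopen e (by simp [he]), fun e he he' => ?_⟩
    · simp only [Walk.edges_concat, List.concat_eq_append, List.mem_append,
        List.mem_singleton] at he
      rcases he with he | rfl
      · induction e using Sym2.ind with
        | _ v w => exact ⟨hK (r.adj_of_mem_edges he),
            fun hh => hr v (r.fst_mem_support_of_mem_edges he) hh.1⟩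
      · exact ⟨hK hbc, fun hh => hb hh.1⟩
    · simp only [Walk.edges_transfer, Walk.edges_concat, List.concat_eq_append, List.mem_append,
        List.mem_singleton] at he
      exact hopen e (by simp only [List.mem_append, List.mem_cons]; tauto)
    · simp only [Walk.edges_transfer, Walk.edges_concat, List.concat_eq_append, List.mem_append,
        List.mem_singleton] at he
      rw [List.nodup_append, List.nodup_cons] at hnd
      rcases he with he | rfl
      · exact hnd.2.2 e he e (List.mem_cons_of_mem _ he') rfl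
      · exact hnd.2.1.1 he'
  · simp only [joins_singleton]

/-- Port counts are submultiplicative along nested half-trees. -/
lemma Frame.Y_submult (q : unitInterval) {g m : Half f.T} (hgm : g.side ⊆ m.side) {x : V}
    (hx : x ∉ f.Vs m) :
    f.Y q x g ≤ ∑' c : f.port m, perc V q (conn (f.avoid m) x c) * f.Y q (c : V) g := by
  unfold Frame.Y
  simp only [← ENNReal.tsum_mul_left]
  rw [ENNReal.tsum_comm]
  exact ENNReal.tsum_le_tsum fun z =>
    f.conn_port_le q (f.avoid_le g) hx (f.Vs_mono hgm (f.port_sub z.2))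

/-- Half-trees on the ray from `c` to `P`, indexed by their distance from `c`. -/
def IsRay {T : SimpleGraph τ} (c P : τ) (k : ℕ → Half T) : Prop :=
  ∀ i < T.dist c P, P ∈ (k i).side ∧ c ∉ (k i).side ∧ T.dist c (k i).fst = i

include f in
lemma Frame.exists_ray (c P : τ) : ∃ k : ℕ → Half f.T, IsRay c P k := by
  have : Nonempty (Half f.T) := ⟨f.e₀⟩
  choose! k hk using fun i (hi : i < f.T.dist c P) => Half.exists_node f.tree hi
  exact ⟨k, fun i hi => ⟨(hk i hi).1, (hk i hi).2.1, (hk i hi).2.2.1⟩⟩

namespace IsRay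

variable {T : SimpleGraph τ} {c P : τ} {k : ℕ → Half T} (hk : IsRay c P k) (hT : T.IsTree)
include hk hT

lemma dist_mem {i : ℕ} (hi : i < T.dist c P) {u : τ} (hu : u ∈ (k i).side) :
    T.dist c u = i + T.dist (k i).fst u := by
  rw [T.dist_comm (u := c) (v := u), Half.dist_cross hT hu (hk i hi).2.1, Half.dist_fst hT hu,
    T.dist_comm (u := (k i).fst) (v := c), (hk i hi).2.2, T.dist_comm (u := (k i).snd)]
  omega

lemma subset {i j : ℕ} (hij : i ≤ j) (hj : j < T.dist c P) : (k j).side ⊆ (k i).side := by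
  obtain ⟨h1, h2, h3⟩ := hk i (by omega)
  obtain ⟨h1', h2', h3'⟩ := hk j hj
  rcases Half.subset_or_subset hT h1 h1' h2 h2' with h | h
  · exact h
  · rcases eq_or_ne (k i) (k j) with e | e
    · rw [e]
    · have := Half.dist_lt_of_ssubset hT h e h2'
      omega

lemma dist_fst {i j : ℕ} (hij : i < j) (hj : j < T.dist c P) :
    T.dist (k i).fst (k j).fst = j - i := by
  have h3 := (hk i (by omega)).2.2
  have h3' := (hk j hj).2.2
  rcases (Half.subset_iff hT).1 (hk.subset hT hij.le hj) with e | ⟨h, -⟩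
  · rw [e] at h3'
    omega
  · have := hk.dist_mem hT (by omega) h
    omega

/-- Past the last half-tree of the ray containing `u` the height drops with the distance. -/
lemma height_le {u : τ} {m : ℕ} (hm : m ≤ T.dist c P)
    (hu : m < T.dist c P → u ∉ (k m).side) :
    T.dist c P + T.dist c u ≤ 2 * m + T.dist u P := by
  rcases eq_or_lt_of_le hm with rfl | h
  · have := hT.connected.dist_triangle (u := c) (v := P) (w := u)
    rw [T.dist_comm (u := P) (v := u)] at this
    omega
  · obtain ⟨h1, h2, h3⟩ := hk m h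
    have e1 := Half.dist_cross hT h1 (hu h)
    have e2 := Half.dist_fst hT h1
    have e3 := hk.dist_mem hT h h1
    have e4 := hT.connected.dist_triangle (u := c) (v := (k m).fst) (w := u)
    rw [T.dist_comm (u := u) (v := P)]
    rw [T.dist_comm (u := P) (v := (k m).snd)] at e1
    omega

end IsRay

/-- The port counts along a ray add up to a multiple of the code bound. -/
lemma Frame.ray_sum {q : unitInterval} {R : ℕ} {U : ℝ≥0∞} (hU : f.CodeBound q R U) {x : V}
    {P : τ} {k : ℕ → Half f.T} (hk : IsRay (f.pr x) P k) :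
    ∑ i ∈ Finset.range (f.T.dist (f.pr x) P), f.Y q x (k i) ≤ (R + 1 : ℕ) * U := by
  classical
  set n := f.T.dist (f.pr x) P
  rw [← Finset.sum_fiberwise_of_maps_to (g := fun i => i % (R + 1)) (t := Finset.range (R + 1))
    fun i _ => Finset.mem_range.2 (Nat.mod_lt _ R.succ_pos)]
  refine (Finset.sum_le_card_nsmul _ _ U fun r _ => ?_).trans_eq
    (by rw [Finset.card_range, nsmul_eq_mul])
  set S := (Finset.range n).filter fun i => i % (R + 1) = r
  have hlt : ∀ i ∈ S, i < n := fun i hi => Finset.mem_range.1 (Finset.mem_filter.1 hi).1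
  have hinj : Set.InjOn k S := fun i hi j hj e => by
    rw [← (hk i (hlt i hi)).2.2, ← (hk j (hlt j hj)).2.2, e]
  have key : ∀ i ∈ S, ∀ j ∈ S, i < j → Rel R P (k i) (k j) := fun i hi j hj hij => by
    refine Or.inr ⟨hk.subset f.tree hij.le (hlt j hj), (hk j (hlt j hj)).1, ?_⟩
    rw [hk.dist_fst f.tree hij (hlt j hj)]
    have h1 := (Finset.mem_filter.1 hi).2
    have h2 := (Finset.mem_filter.1 hj).2
    obtain ⟨l, hl⟩ := (Nat.modEq_iff_dvd' hij.le).1 (h1.trans h2.symm)
    rcases Nat.eq_zero_or_pos l with rfl | hl0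
    · omega
    · have : R + 1 ≤ (R + 1) * l := Nat.le_mul_of_pos_right _ hl0
      omega
  have h := hU x (S.image k) (fun _ => P) (fun g hg g' hg' hne => ?_) fun g hg => ?_
  · rwa [Finset.sum_image hinj] at h
  · obtain ⟨i, hi, rfl⟩ := Finset.mem_image.1 hg
    obtain ⟨j, hj, rfl⟩ := Finset.mem_image.1 hg'
    rcases lt_trichotomy i j with h | h | h
    · exact Or.inl (key i hi j hj h)
    · exact absurd (by rw [h]) hne
    · exact Or.inr (key j hj i hi h)
  · obtain ⟨i, hi, rfl⟩ := Finset.mem_image.1 hg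
    exact (hk i (hlt i hi)).2.1

/-- With growing weights the port counts along a ray stay within six times that bound. -/
theorem Frame.ray_weight {q : unitInterval} {R : ℕ} {U W t : ℝ≥0∞} (hU : f.CodeBound q R U)
    (hW : (R + 1 : ℕ) * U ≤ W) (ht1 : 1 ≤ t) {J : ℕ} (hJ0 : 0 < J) (hJ : 6 * W ≤ J)
    (htJ : t ^ (J + 2 * f.L) ≤ 3) (P : τ) :
    ∀ (n : ℕ) (x : V) (k : ℕ → Half f.T), f.T.dist (f.pr x) P = n → IsRay (f.pr x) P k →
      ∑ i ∈ Finset.range n, t ^ i * f.Y q x (k i) ≤ 6 * W := by
  classical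
  intro n
  induction n using Nat.strong_induction_on with
  | _ n ih =>
    intro x k hn hk
    have hsum : ∑ i ∈ Finset.range n, f.Y q x (k i) ≤ W := by
      rw [← hn]; exact (f.ray_sum hU hk).trans hW
    have ht3 : ∀ j ≤ J + 2 * f.L, t ^ j ≤ 3 := fun j hj => (pow_le_pow_right₀ ht1 hj).trans htJ
    have hhead : ∀ A ⊆ Finset.range n, (∀ j ∈ A, j ≤ J + 2 * f.L) →
        ∑ j ∈ A, t ^ j * f.Y q x (k j) ≤ 3 * W := fun A hA hAJ => by
      refine (Finset.sum_le_sum fun j hj => mul_le_mul_left (ht3 j (hAJ j hj)) _).trans ?_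
      rw [← Finset.mul_sum]
      exact mul_le_mul_right ((Finset.sum_le_sum_of_subset hA).trans hsum) _
    have h36 : (6 : ℝ≥0∞) * W = 3 * W + 3 * W := by ring
    by_cases hshort : n ≤ J + f.L + 1
    · rw [h36]
      exact (hhead _ subset_rfl fun j hj => by
        have := Finset.mem_range.1 hj; omega).trans le_self_add
    obtain ⟨i, hi, hmin⟩ := (Finset.Ico (f.L + 1) (f.L + 1 + J)).exists_min_image
      (fun i => f.Y q x (k i)) ⟨f.L + 1, Finset.mem_Ico.2 ⟨le_rfl, by omega⟩⟩
    obtain ⟨hi1, hi2⟩ := Finset.mem_Ico.1 hi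
    have hin : i < f.T.dist (f.pr x) P := by omega
    have hYi : 6 * f.Y q x (k i) ≤ 1 := by
      have h1 : (J : ℝ≥0∞) * f.Y q x (k i) ≤ W := by
        calc (J : ℝ≥0∞) * f.Y q x (k i)
            = ∑ _j ∈ Finset.Ico (f.L + 1) (f.L + 1 + J), f.Y q x (k i) := by
              rw [Finset.sum_const, Nat.card_Ico, Nat.add_sub_cancel_left, nsmul_eq_mul]
          _ ≤ ∑ j ∈ Finset.Ico (f.L + 1) (f.L + 1 + J), f.Y q x (k j) := Finset.sum_le_sum hmin
          _ ≤ _ := (Finset.sum_le_sum_of_subset fun j hj => Finset.mem_range.2 (by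
                have := (Finset.mem_Ico.1 hj).2; omega)).trans hsum
      have h2 : (J : ℝ≥0∞) * (6 * f.Y q x (k i)) ≤ (J : ℝ≥0∞) * 1 := by
        rw [mul_left_comm, mul_one]
        exact (mul_le_mul_right h1 _).trans hJ
      exact (ENNReal.mul_le_mul_iff_right (by exact_mod_cast hJ0.ne')
        (ENNReal.natCast_ne_top _)).1 h2
    rw [← Finset.sum_filter_add_sum_filter_not (Finset.range n) (fun j => j < i + f.L + 1), h36]
    refine add_le_add (hhead _ (Finset.filter_subset _ _) fun j hj => by
      have := (Finset.mem_filter.1 hj).2; omega) ?_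
    set A := (Finset.range n).filter fun j => ¬j < i + f.L + 1
    have hA : ∀ j ∈ A, i + f.L < j ∧ j < f.T.dist (f.pr x) P := fun j hj => by
      have h1 := Finset.mem_range.1 (Finset.mem_filter.1 hj).1
      have h2 := (Finset.mem_filter.1 hj).2
      omega
    have hc : ∀ c : f.port (k i), ∑ j ∈ A, t ^ j * f.Y q (c : V) (k j) ≤ 3 * (6 * W) := by
      intro c
      set p := f.pr (c : V)
      obtain ⟨k', hk'⟩ := f.exists_ray p P
      have hcl : f.T.dist (k i).fst p ≤ f.L := f.port_dist c.2
      have hxc : f.T.dist (f.pr x) p = i + f.T.dist (k i).fst p :=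
        hk.dist_mem f.tree hin (f.port_sub c.2).1
      have hnc : f.T.dist p P < n := by
        have h1 := f.tree.connected.dist_triangle (u := p) (v := (k i).fst) (w := P)
        have h2 := hk.dist_mem f.tree hin (hk i hin).1
        rw [f.T.dist_comm (u := p) (v := (k i).fst)] at h1
        omega
      let g : ℕ → ℕ := fun j => f.T.dist p (k j).fst
      have hg : ∀ j ∈ A, g j < f.T.dist p P ∧ k' (g j) = k j := by
        intro j hj
        obtain ⟨hj1, hj2⟩ := hA j hj
        have hpj : p ∉ (k j).side := fun hs => by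
          have h1 := hk.dist_mem f.tree hj2 hs
          have h2 := Half.dist_fst f.tree hs
          omega
        have hlt : g j < f.T.dist p P := Half.dist_fst_lt f.tree (hk j hj2).1 hpj
        obtain ⟨h1, h2, h3⟩ := hk' (g j) hlt
        exact ⟨hlt, Half.eq_of_dist_eq f.tree h1 (hk j hj2).1 h2 hpj h3⟩
      have hwt : ∀ j ∈ A, t ^ j ≤ 3 * t ^ g j := by
        intro j hj
        have h1 := f.tree.connected.dist_triangle (u := f.pr x) (v := p) (w := (k j).fst)
        have h2 := (hk j (hA j hj).2).2.2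
        calc t ^ j ≤ t ^ (i + f.L + g j) := pow_le_pow_right₀ ht1 (by simp only [g]; omega)
          _ ≤ _ := by rw [pow_add]; exact mul_le_mul_left (ht3 _ (by omega)) _
      have hinj : Set.InjOn g A := fun j hj j' hj' e => by
        rw [← (hk j (hA j hj).2).2.2, ← (hk j' (hA j' hj').2).2.2, ← (hg j hj).2,
          ← (hg j' hj').2, e]
      calc ∑ j ∈ A, t ^ j * f.Y q (c : V) (k j)
          ≤ ∑ j ∈ A, 3 * (t ^ g j * f.Y q (c : V) (k' (g j))) :=
            Finset.sum_le_sum fun j hj => by
              rw [(hg j hj).2, ← mul_assoc]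
              exact mul_le_mul_left (hwt j hj) _
        _ ≤ _ := by
            rw [← Finset.mul_sum, ← Finset.sum_image
              (f := fun a => t ^ a * f.Y q (c : V) (k' a)) hinj]
            refine mul_le_mul_right ((Finset.sum_le_sum_of_subset fun a ha => ?_).trans
              (ih _ hnc c k' rfl hk')) _
            obtain ⟨j, hj, rfl⟩ := Finset.mem_image.1 ha
            exact Finset.mem_range.2 (hg j hj).1
    calc ∑ j ∈ A, t ^ j * f.Y q x (k j)
        ≤ ∑ j ∈ A, t ^ j * ∑' c : f.port (k i),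
            perc V q (conn (f.avoid (k i)) x c) * f.Y q (c : V) (k j) :=
          Finset.sum_le_sum fun j hj => mul_le_mul_right (f.Y_submult q
            (hk.subset f.tree (by have := (hA j hj).1; omega) (hA j hj).2)
            fun h => (hk i hin).2.1 h.1) _
      _ = ∑' c : f.port (k i), perc V q (conn (f.avoid (k i)) x c) *
            ∑ j ∈ A, t ^ j * f.Y q (c : V) (k j) := by
          simp only [← ENNReal.tsum_mul_left, Finset.mul_sum]
          rw [← Summable.tsum_finsetSum fun _ _ => ENNReal.summable]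
          exact tsum_congr fun c => Finset.sum_congr rfl fun j _ => mul_left_comm _ _ _
      _ ≤ ∑' c : f.port (k i), perc V q (conn (f.avoid (k i)) x c) * (3 * (6 * W)) :=
          ENNReal.tsum_le_tsum fun c => mul_le_mul_right (hc c) _
      _ = 6 * f.Y q x (k i) * (3 * W) := by
          rw [ENNReal.tsum_mul_right, Frame.Y]; ring
      _ ≤ 1 * (3 * W) := mul_le_mul_left hYi _
      _ = _ := one_mul _

/-- A tilt exceeding a distance by a bounded amount. -/
lemma tilt_weight_le {t : ℝ} (ht : 1 ≤ t) {D : ℤ} {c k d : ℕ} (h : D + d ≤ c + k) :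
    ENNReal.ofReal (t ^ D) ≤
      ENNReal.ofReal (t ^ c) * (ENNReal.ofReal t ^ k * ENNReal.ofReal (t⁻¹ ^ d)) := by
  have ht0 : 0 < t := by linarith
  rw [← ENNReal.ofReal_pow ht0.le, ← ENNReal.ofReal_mul (by positivity),
    ← ENNReal.ofReal_mul (by positivity)]
  refine ENNReal.ofReal_le_ofReal ((zpow_le_zpow_right₀ ht
    (show D ≤ (c : ℤ) + k - d by omega)).trans (le_of_eq ?_))
  rw [zpow_sub₀ ht0.ne', zpow_add₀ ht0.ne', zpow_natCast, zpow_natCast, zpow_natCast, inv_pow,
    div_eq_mul_inv, mul_assoc]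

/-- The tilted susceptibility through the code bound and the radially damped susceptibility. -/
theorem Frame.tilt_sum (R : ℕ) : ∃ C : ℝ, 1 ≤ C ∧ ∀ (q : unitInterval) (U B : ℝ), 1 ≤ U → 0 ≤ B →
    f.CodeBound q R (ENNReal.ofReal U) → ∀ t : ℝ, 1 < t → t ≤ 1 + 1 / (C * U) →
    (∀ z : V, ∑' y, perc V q (conn f.H z y) *
      ENNReal.ofReal (t⁻¹ ^ f.T.dist (f.pr z) (f.pr y)) ≤ ENNReal.ofReal B) →
    ∀ (P : τ) (x : V), ∑' y, perc V q (conn f.H x y) *
      ENNReal.ofReal (t ^ (f.ht P y - f.ht P x)) ≤ ENNReal.ofReal (C * U * B) := by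
  classical
  set e : ℕ := 2 * (f.depth + 1) + f.L with he
  set a : ℝ := 6 * (R + 1 : ℕ) with ha
  have ha0 : 0 ≤ a := by positivity
  set C : ℝ := a + 2 * f.L + 1 + 2 ^ e * (1 + a) with hC
  have h2e : (1 : ℝ) ≤ 2 ^ e := one_le_pow₀ one_le_two
  have hC1 : 1 ≤ C := by nlinarith [Nat.cast_nonneg (α := ℝ) f.L]
  refine ⟨C, hC1, fun q U B hU hB hcode t ht1 htC hrad P x => ?_⟩
  have hU0 : 0 < U := by linarith
  have hCU : 1 ≤ C * U := one_le_mul_of_one_le_of_one_le hC1 hU
  have ht2 : t ≤ 2 := by
    have : 1 / (C * U) ≤ 1 := (div_le_one (by linarith)).2 hCU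
    linarith
  have ht0 : 0 < t := by linarith
  set W : ℝ := (R + 1 : ℕ) * U with hW
  have hW1 : 1 ≤ W := one_le_mul_of_one_le_of_one_le (by exact_mod_cast Nat.succ_pos R) hU
  obtain ⟨J, hJ1, hJ2⟩ : ∃ J : ℕ, 6 * W ≤ J ∧ (J : ℝ) ≤ 6 * W + 1 :=
    ⟨⌈6 * W⌉₊, Nat.le_ceil _, (Nat.ceil_lt_add_one (by linarith)).le⟩
  have hJ0 : 0 < J := by
    have : (0 : ℝ) < J := by linarith
    exact_mod_cast this
  have htJ : t ^ (J + 2 * f.L) ≤ 3 := by
    calc t ^ (J + 2 * f.L) ≤ Real.exp (1 / (C * U)) ^ (J + 2 * f.L) :=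
          pow_le_pow_left₀ ht0.le (by linarith [Real.add_one_le_exp (1 / (C * U))]) _
      _ = Real.exp ((J + 2 * f.L : ℕ) * (1 / (C * U))) := (Real.exp_nat_mul _ _).symm
      _ ≤ Real.exp 1 := by
          refine Real.exp_le_exp.2 ?_
          rw [mul_one_div, div_le_one (by linarith)]
          push_cast
          have h6 : 6 * W = a * U := by rw [hW, ha]; ring
          have h7 : (2 * f.L + 1 : ℝ) ≤ (2 * f.L + 1) * U := le_mul_of_one_le_right (by positivity) hU
          have h8 : 0 ≤ (2 : ℝ) ^ e * (1 + a) * U := by positivity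
          nlinarith
      _ ≤ 3 := Real.exp_one_lt_three.le
  obtain ⟨k, hk⟩ := f.exists_ray (f.pr x) P
  set n := f.T.dist (f.pr x) P with hn
  have hray : ∑ i ∈ Finset.range n, ENNReal.ofReal t ^ i * f.Y q x (k i) ≤
      ENNReal.ofReal (6 * W) := by
    rw [ENNReal.ofReal_mul (by norm_num), ENNReal.ofReal_ofNat]
    refine f.ray_weight hcode (le_of_eq ?_) (ENNReal.one_le_ofReal.2 ht1.le) hJ0 ?_ ?_ P n x k
      rfl hk
    · rw [hW, ENNReal.ofReal_mul (by positivity), ENNReal.ofReal_natCast]
    · rw [← ENNReal.ofReal_ofNat, ← ENNReal.ofReal_mul (by norm_num), ← ENNReal.ofReal_natCast]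
      exact ENNReal.ofReal_le_ofReal hJ1
    · rw [← ENNReal.ofReal_pow ht0.le, ← ENNReal.ofReal_ofNat]
      exact ENNReal.ofReal_le_ofReal htJ
  set τ₀ : V → V → ℝ≥0∞ := fun z y =>
    perc V q (conn f.H z y) * ENNReal.ofReal (t⁻¹ ^ f.T.dist (f.pr z) (f.pr y)) with hτ₀
  have hpt : ∀ y, perc V q (conn f.H x y) * ENNReal.ofReal (t ^ (f.ht P y - f.ht P x)) ≤
      ENNReal.ofReal (t ^ e) * (τ₀ x y + ∑ i ∈ Finset.range n, ENNReal.ofReal t ^ i *
        ∑' z : f.port (k i), perc V q (conn (f.avoid (k i)) x z) * τ₀ z y) := by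
    intro y
    set py := f.pr y with hpy
    have hex : ∃ m, m = n ∨ py ∉ (k m).side := ⟨n, Or.inl rfl⟩
    set m := Nat.find hex
    have hmn : m ≤ n := Nat.find_le (Or.inl rfl)
    have hbelow : ∀ i < m, py ∈ (k i).side := fun i hi => by
      have := Nat.find_min hex hi
      push Not at this
      exact this.2
    have hht := hk.height_le f.tree (u := py) hmn fun h =>
      (Nat.find_spec hex).resolve_left h.ne
    by_cases hlow : m ≤ f.depth
    · refine le_trans (mul_le_mul_right (tilt_weight_le (c := e) (k := 0)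
        (d := f.T.dist (f.pr x) py) ht1.le ?_) _) ?_
      · simp only [Frame.ht, ← hpy, ← hn, he, Nat.cast_add, Nat.cast_mul, Nat.cast_ofNat,
          Nat.cast_one, Nat.cast_zero]
        omega
      · rw [pow_zero, one_mul, mul_left_comm]
        exact mul_le_mul_right le_self_add _
    · set i := m - (f.depth + 1) with hi
      have hin : i < n := by omega
      have hyi : py ∈ (k i).side := hbelow i (by omega)
      have hd := hk.dist_mem f.tree hin hyi
      have hdeep : f.depth < f.T.dist (k i).fst py := by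
        have h1 := hk.dist_mem f.tree (show m - 1 < n by omega) (hbelow _ (by omega))
        have h2 := Half.dist_fst f.tree (hbelow (m - 1) (by omega))
        omega
      have hweight : ∀ z : f.port (k i), ENNReal.ofReal (t ^ (f.ht P y - f.ht P x)) ≤
          ENNReal.ofReal (t ^ e) * (ENNReal.ofReal t ^ i *
            ENNReal.ofReal (t⁻¹ ^ f.T.dist (f.pr z) py)) := fun z => by
        refine tilt_weight_le ht1.le ?_
        have h1 := f.port_dist z.2
        have h2 := f.tree.connected.dist_triangle (u := f.pr z) (v := (k i).fst) (w := py)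
        rw [f.T.dist_comm (u := f.pr z) (v := (k i).fst)] at h2
        simp only [Frame.ht, ← hpy, ← hn, he, Nat.cast_add, Nat.cast_mul, Nat.cast_ofNat,
          Nat.cast_one]
        omega
      refine le_trans ?_ (mul_le_mul_right ((Finset.single_le_sum
        (f := fun i => ENNReal.ofReal t ^ i * ∑' z : f.port (k i),
          perc V q (conn (f.avoid (k i)) x z) * τ₀ z y) (fun _ _ => zero_le)
        (Finset.mem_range.2 hin)).trans le_add_self) _)
      refine le_trans (mul_le_mul_left (f.conn_port_le q le_rfl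
        (fun h => (hk i hin).2.1 h.1) (f.deep_mem_Vs hyi hdeep)) _) ?_
      rw [← ENNReal.tsum_mul_right, ← mul_assoc, ← ENNReal.tsum_mul_left]
      refine ENNReal.tsum_le_tsum fun z => ?_
      refine le_trans (mul_le_mul_right (hweight z) _) (le_of_eq ?_)
      simp only [τ₀]
      ring
  calc ∑' y, perc V q (conn f.H x y) * ENNReal.ofReal (t ^ (f.ht P y - f.ht P x))
      ≤ ENNReal.ofReal (t ^ e) * (∑' y, τ₀ x y + ∑ i ∈ Finset.range n, ENNReal.ofReal t ^ i *
          ∑' z : f.port (k i), perc V q (conn (f.avoid (k i)) x z) * ∑' y, τ₀ z y) := by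
        refine (ENNReal.tsum_le_tsum hpt).trans (le_of_eq ?_)
        rw [ENNReal.tsum_mul_left, ENNReal.tsum_add,
          Summable.tsum_finsetSum fun _ _ => ENNReal.summable]
        congr 2
        refine Finset.sum_congr rfl fun i _ => ?_
        rw [ENNReal.tsum_mul_left, ENNReal.tsum_comm]
        simp only [ENNReal.tsum_mul_left]
    _ ≤ ENNReal.ofReal (t ^ e) * (ENNReal.ofReal B + ∑ i ∈ Finset.range n, ENNReal.ofReal t ^ i *
          ∑' z : f.port (k i), perc V q (conn (f.avoid (k i)) x z) * ENNReal.ofReal B) := by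
        refine mul_le_mul_right (add_le_add (hrad x) (Finset.sum_le_sum fun i _ =>
          mul_le_mul_right (ENNReal.tsum_le_tsum fun (z : f.port (k i)) =>
            mul_le_mul_right (hrad (z : V)) _) _)) _
    _ ≤ ENNReal.ofReal (2 ^ e) * (ENNReal.ofReal B + ENNReal.ofReal (6 * W) * ENNReal.ofReal B) := by
        refine mul_le_mul' (ENNReal.ofReal_le_ofReal (pow_le_pow_left₀ ht0.le ht2 _))
          (add_le_add le_rfl (le_trans (le_of_eq ?_) (mul_le_mul_left hray _)))
        rw [Finset.sum_mul]
        refine Finset.sum_congr rfl fun i _ => ?_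
        rw [ENNReal.tsum_mul_right, Frame.Y, mul_assoc]
    _ ≤ _ := by
        rw [← ENNReal.ofReal_mul (by positivity), ← ENNReal.ofReal_add hB (by positivity),
          ← ENNReal.ofReal_mul (by positivity)]
        refine ENNReal.ofReal_le_ofReal ?_
        have h6 : 6 * W = a * U := by rw [hW, ha]; ring
        rw [h6]
        have h1 : (1 + a * U) * 2 ^ e ≤ C * U := by
          rw [hC]
          nlinarith [mul_nonneg ha0 hU0.le, mul_nonneg (Nat.cast_nonneg (α := ℝ) f.L) hU0.le]
        calc (2 : ℝ) ^ e * (B + a * U * B) = (1 + a * U) * 2 ^ e * B := by ring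
          _ ≤ _ := mul_le_mul_of_nonneg_right h1 hB

end Vale.Agent.P165.TreeAct
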