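import Mathlib
import Vale.Agent.P165.TreeAct.Combine
import Vale.Agent.P165.TreeAct.Chain
import Vale.Agent.P165.TreeAct.Radial
import Vale.Agent.P165.TreeAct.Tilt
import Vale.Agent.P165.TreeAct.Assembly

/-!
The main estimate for every frame, and the nonuniqueness phase.
-/

namespace Vale.Agent.P165.TreeAct

open SimpleGraph

variable {V τ Γ : Type} [Group Γ] [MulAction Γ V] [MulAction Γ τ] (f : Frame V τ Γ)

/-- The main estimate. -/
theorem Frame.tiltBound : TiltBound f.H f.ht :=
  f.tiltBound_of f.exists_chain.some (f.radial (half_pos f.pc_pos) f.exists_chain.some) f.tilt_sum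

include f in
/-- Every frame has a nonuniqueness phase. -/
theorem Frame.nonuniqueness : pc f.H < pu f.H :=
  f.pc_lt_pu f.tiltBound

end Vale.Agent.P165.TreeAct
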